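import Crest.Agent.R181.MM.Main
import Crest.Agent.R181.LPPDefs

/-!
Row 181, module MM: the monomial case in the form used by the final assembly.
-/

set_option autoImplicit false

namespace Crest.Agent.R181.MM

theorem mmStatement (n : ℕ) (a : Fin n → ℕ) (ha : Monotone a) : MMStatement n a :=
  fun E hE hP => main n a ha E hE hP

end Crest.Agent.R181.MM
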