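import Crest.Agent.R181.MM.KBasic

/-!
Row 181, module MM (Clements–Lindström and the lex-plus-powers Betti bound for monomial ideals).
-/

set_option autoImplicit false

namespace Crest.Agent.R181.MM

open Module

open MvPolynomial Crest.AlgebraR.LPP

namespace BettiAux

/-- rank–nullity for the restriction of a linear map to a subspace -/
theorem finrank_ker_inf_add {K V W : Type*} [DivisionRing K] [AddCommGroup V] [Module K V]
    [AddCommGroup W] [Module K W] (f : V →ₗ[K] W) (C : Submodule K V) [Module.Finite K C] :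
    finrank K ↥(LinearMap.ker f ⊓ C) + finrank K (Submodule.map f C) = finrank K C := by
  have h1 := LinearMap.finrank_range_add_finrank_ker (f.domRestrict C)
  rw [LinearMap.range_domRestrict, LinearMap.ker_domRestrict] at h1
  have h2 : Submodule.comap C.subtype (LinearMap.ker f) =
      Submodule.comap C.subtype (LinearMap.ker f ⊓ C) := by
    ext x; simp
  rw [h2, (Submodule.comapSubtypeEquivOfLe (inf_le_right : LinearMap.ker f ⊓ C ≤ C)).finrank_eq] at h1
  omega

theorem finite_homog (n e : ℕ) : Module.Finite ℂ (homogeneousSubmodule (Fin n) ℂ e) :=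
  Module.Finite.iff_fg.2 (homogeneousSubmodule_fg (Fin n) ℂ e)

theorem koszulD_eq {n : ℕ} (I : Ideal (MvPolynomial (Fin n) ℂ)) : koszulD I = kD (mulX I) := by
  unfold koszulD kD
  congr 1
  funext U
  refine Finset.sum_congr rfl fun t _ => ?_
  rw [← Int.cast_smul_eq_zsmul ℂ]
  push_cast
  rfl

theorem mulX_mem {n : ℕ} (I : Ideal (MvPolynomial (Fin n) ℂ)) (t : Fin n) (e : ℕ) :
    ∀ v ∈ quotPiece I e, mulX I t v ∈ quotPiece I (e + 1) := by
  rintro _ ⟨f, hf, rfl⟩
  refine ⟨X t * f, ?_, ?_⟩
  · rw [add_comm]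
    exact (isHomogeneous_X ℂ t).mul hf
  · simp [mulX]

theorem mulX_comm {n : ℕ} (I : Ideal (MvPolynomial (Fin n) ℂ)) (s t : Fin n)
    (v : MvPolynomial (Fin n) ℂ ⧸ I) : mulX I s (mulX I t v) = mulX I t (mulX I s v) := by
  simp only [mulX, LinearMap.mulLeft_apply]
  rw [mul_left_comm]

end BettiAux

open BettiAux

theorem finite_quotPiece {n : ℕ} (I : Ideal (MvPolynomial (Fin n) ℂ)) (e : ℕ) :
    Module.Finite ℂ (quotPiece I e) := by
  have := finite_homog n e
  exact Module.Finite.map _ _

theorem finrank_degreePiece_add {n : ℕ} (I : Ideal (MvPolynomial (Fin n) ℂ)) (e : ℕ) :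
    finrank ℂ (degreePiece I e) + finrank ℂ (quotPiece I e) =
      finrank ℂ (homogeneousSubmodule (Fin n) ℂ e) := by
  have := finite_homog n e
  have h := finrank_ker_inf_add (Ideal.Quotient.mkₐ ℂ I).toLinearMap
    (homogeneousSubmodule (Fin n) ℂ e)
  have e1 : LinearMap.ker (Ideal.Quotient.mkₐ ℂ I).toLinearMap ⊓ homogeneousSubmodule (Fin n) ℂ e =
      degreePiece I e := by
    ext x
    simp [degreePiece, Ideal.Quotient.eq_zero_iff_mem, and_comm]
  rw [e1] at h
  exact h

theorem gradedBetti_add_kRank {n : ℕ} (I : Ideal (MvPolynomial (Fin n) ℂ)) (p j : ℕ) :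
    gradedBetti I p j + kRank (mulX I) (quotPiece I) p j + kRank (mulX I) (quotPiece I) (p + 1) j =
      if p ≤ j then n.choose p * finrank ℂ (quotPiece I (j - p)) else 0 := by
  rw [← finrank_kChains (quotPiece I) (finite_quotPiece I) p j]
  have := finite_kChains (n := n) (quotPiece I) (finite_quotPiece I) p j
  have h1 := finrank_ker_inf_add (kD (mulX I)) (kChains n (quotPiece I) p j)
  have hle : Submodule.map (kD (mulX I)) (kChains n (quotPiece I) (p + 1) j) ≤
      LinearMap.ker (kD (mulX I)) ⊓ kChains n (quotPiece I) p j := by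
    rintro _ ⟨f, hf, rfl⟩
    exact ⟨kD_kD _ (mulX_comm I) f, kD_mem_kChains _ _ (mulX_mem I) p j f hf⟩
  have : Module.Finite ℂ ↥(LinearMap.ker (kD (mulX I)) ⊓ kChains n (quotPiece I) p j) :=
    Submodule.finiteDimensional_of_le inf_le_right
  have h2 := Submodule.finrank_quotient_add_finrank
    (Submodule.comap (LinearMap.ker (kD (mulX I)) ⊓ kChains n (quotPiece I) p j).subtype
      (Submodule.map (kD (mulX I)) (kChains n (quotPiece I) (p + 1) j)))
  rw [(Submodule.comapSubtypeEquivOfLe hle).finrank_eq] at h2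
  have h3 : gradedBetti I p j = finrank ℂ
      (↥(LinearMap.ker (kD (mulX I)) ⊓ kChains n (quotPiece I) p j) ⧸
        Submodule.comap (LinearMap.ker (kD (mulX I)) ⊓ kChains n (quotPiece I) p j).subtype
          (Submodule.map (kD (mulX I)) (kChains n (quotPiece I) (p + 1) j))) := by
    unfold gradedBetti
    rw [koszulD_eq]
    rfl
  unfold kRank
  omega

theorem gradedBetti_le_of_kRank {n : ℕ} (I J : Ideal (MvPolynomial (Fin n) ℂ))
    (hH : ∀ e, finrank ℂ (quotPiece I e) = finrank ℂ (quotPiece J e))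
    (hR : ∀ p j, kRank (mulX J) (quotPiece J) p j ≤ kRank (mulX I) (quotPiece I) p j) (p j : ℕ) :
    gradedBetti I p j ≤ gradedBetti J p j := by
  have h1 := gradedBetti_add_kRank I p j
  have h2 := gradedBetti_add_kRank J p j
  have h3 := hR p j
  have h4 := hR (p + 1) j
  rw [hH] at h1
  omega

end Crest.Agent.R181.MM
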