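import Crest.Agent.R181.MM.KCompare

/-!
Row 181, module MM (Clements–Lindström and the lex-plus-powers Betti bound for monomial ideals).
-/

set_option autoImplicit false

namespace Crest.Agent.R181.MM

open Module

variable (K : Type*) [DivisionRing K] {n : ℕ}

theorem mono_finite_supported (S : Finset (Fin n → ℕ)) :
    Module.Finite K (Finsupp.supported K K (↑S : Set (Fin n → ℕ))) :=
  Module.Finite.equiv (Finsupp.supportedEquivFinsupp (R := K) (M := K) (↑S : Set (Fin n → ℕ))).symm

theorem mono_finrank_supported (S : Finset (Fin n → ℕ)) :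
    finrank K (Finsupp.supported K K (↑S : Set (Fin n → ℕ))) = S.card := by
  rw [(Finsupp.supportedEquivFinsupp (R := K) (M := K) (↑S : Set (Fin n → ℕ))).finrank_eq,
    finrank_finsupp_self]
  simp

theorem finite_monoG (D : Finset (Fin n → ℕ)) (e : ℕ) : Module.Finite K (monoG K D e) :=
  mono_finite_supported K _

theorem finrank_monoG (D : Finset (Fin n → ℕ)) (e : ℕ) :
    finrank K (monoG K D e) = (lay D e).card :=
  mono_finrank_supported K _

theorem monoX_mem (D : Finset (Fin n → ℕ)) (t : Fin n) (e : ℕ) :
    ∀ v ∈ monoG K D e, monoX K D t v ∈ monoG K D (e + 1) := by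
  intro v hv
  rw [monoG, Finsupp.supported_eq_span_single] at hv
  induction hv using Submodule.span_induction with
  | mem x hx =>
    obtain ⟨m, hm, rfl⟩ := hx
    simp only [monoX_single]
    split_ifs with h
    · refine Finsupp.single_mem_supported K _ ?_
      rw [Finset.mem_coe, mem_lay] at hm ⊢
      exact ⟨h, by rw [deg_up, hm.2]⟩
    · exact Submodule.zero_mem _
  | zero => simp
  | add x y _ _ hx hy => rw [map_add]; exact Submodule.add_mem _ hx hy
  | smul c x _ hx => rw [map_smul]; exact Submodule.smul_mem _ c hx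

theorem monoX_comm {D : Finset (Fin n → ℕ)} (hD : Down D) (s t : Fin n) (v : (Fin n → ℕ) →₀ K) :
    monoX K D s (monoX K D t v) = monoX K D t (monoX K D s v) := by
  have key : ∀ (s t : Fin n) (m : Fin n → ℕ) (c : K),
      monoX K D s (monoX K D t (Finsupp.single m c)) =
        if up s (up t m) ∈ D then Finsupp.single (up s (up t m)) c else 0 := by
    intro s t m c
    rw [monoX_single]
    split_ifs with h1 h2 h2
    · rw [monoX_single, if_pos h2]
    · rw [monoX_single, if_neg h2]
    · exact absurd (hD _ h2 _ (le_up s _)) h1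
    · exact map_zero _
  induction v using Finsupp.induction_linear with
  | zero => simp
  | add x y hx hy => simp only [map_add, hx, hy]
  | single m c => rw [key, key, up_comm]

/-- projection onto the monomials of `D`. -/
noncomputable def monoProj (D : Finset (Fin n → ℕ)) :
    ((Fin n → ℕ) →₀ K) →ₗ[K] ((Fin n → ℕ) →₀ K) :=
  Finsupp.linearCombination K fun m => if m ∈ D then Finsupp.single m 1 else 0

theorem monoProj_single (D : Finset (Fin n → ℕ)) (m : Fin n → ℕ) (c : K) :
    monoProj K D (Finsupp.single m c) = if m ∈ D then Finsupp.single m c else 0 := by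
  by_cases h : m ∈ D <;> simp [monoProj, h]

theorem monoProj_apply (D : Finset (Fin n → ℕ)) (v : (Fin n → ℕ) →₀ K) (m : Fin n → ℕ) :
    monoProj K D v m = if m ∈ D then v m else 0 := by
  induction v using Finsupp.induction_linear with
  | zero => simp
  | add x y hx hy =>
    rw [map_add, Finsupp.add_apply, hx, hy, Finsupp.add_apply]
    split_ifs <;> simp
  | single m' c =>
    rw [monoProj_single]
    by_cases h : m' = m
    · subst h
      split_ifs <;> simp
    · split_ifs <;> simp [h]

theorem monoProj_monoX {D₁ D₂ : Finset (Fin n → ℕ)} (h : D₁ ⊆ D₂) (t : Fin n)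
    (v : (Fin n → ℕ) →₀ K) : monoX K D₁ t v = monoProj K D₁ (monoX K D₂ t v) := by
  induction v using Finsupp.induction_linear with
  | zero => simp
  | add x y hx hy => simp only [map_add, hx, hy]
  | single m c =>
    rw [monoX_single, monoX_single]
    split_ifs with h1 h2 h2
    · rw [monoProj_single, if_pos h1]
    · exact absurd (h h1) h2
    · rw [monoProj_single, if_neg h1]
    · exact (map_zero _).symm

theorem monoX_monoProj {D : Finset (Fin n → ℕ)} (hD : Down D) (t : Fin n)
    (v : (Fin n → ℕ) →₀ K) : monoX K D t (monoProj K D v) = monoX K D t v := by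
  induction v using Finsupp.induction_linear with
  | zero => simp
  | add x y hx hy => simp only [map_add, hx, hy]
  | single m c =>
    rw [monoProj_single]
    split_ifs with h1
    · rfl
    · rw [monoX_single, if_neg fun h2 => h1 (hD _ h2 _ (le_up t m)), map_zero]

/-- a smaller set of standard monomials (a quotient module) has smaller ranks. -/
theorem monoRank_mono {D₁ D₂ : Finset (Fin n → ℕ)} (h : D₁ ⊆ D₂) (p j : ℕ) :
    monoRank K D₁ p j ≤ monoRank K D₂ p j := by
  refine kRank_le_of_comp _ _ _ _ (finite_monoG K D₂) LinearMap.id (monoProj K D₁) ?_ ?_ p j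
  · intro e v hv
    refine Finsupp.supported_mono ?_ hv
    intro m hm
    rw [Finset.mem_coe, mem_lay] at hm ⊢
    exact ⟨h hm.1, hm.2⟩
  · intro t e v _
    exact monoProj_monoX K h t v

theorem monoRank_le_add {D₁ D₂ : Finset (Fin n → ℕ)} (h : D₁ ⊆ D₂) (h₁ : Down D₁) (p j : ℕ) :
    monoRank K D₂ (p + 1) j + n.choose p * (lay D₁ (j - p)).card ≤
      monoRank K D₁ (p + 1) j + n.choose p * (lay D₂ (j - p)).card := by
  have key := kRank_le_add_ker (monoX K D₁) (monoG K D₁) (monoX K D₂) (monoG K D₂)
    (finite_monoG K D₁) (finite_monoG K D₂) (monoX_mem K D₂) (monoProj K D₁) (by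
      intro e v hv
      rw [monoG, Finsupp.mem_supported'] at hv ⊢
      intro m hm
      rw [monoProj_apply]
      split_ifs with h2
      · refine hv m fun h3 => hm ?_
        rw [Finset.mem_coe, mem_lay] at h3 ⊢
        exact ⟨h2, h3.2⟩
      · rfl) (by
      intro t e v _
      rw [monoX_monoProj K h₁, monoProj_monoX K h]) p j
  have hsub : lay D₁ (j - p) ⊆ lay D₂ (j - p) := by
    intro m hm
    rw [mem_lay] at hm ⊢
    exact ⟨h hm.1, hm.2⟩
  have hle : monoG K D₂ (j - p) ⊓ LinearMap.ker (monoProj K D₁) ≤
      Finsupp.supported K K (↑(lay D₂ (j - p) \ lay D₁ (j - p)) : Set (Fin n → ℕ)) := by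
    rintro v ⟨hv1, hv2⟩
    rw [SetLike.mem_coe, monoG, Finsupp.mem_supported'] at hv1
    rw [SetLike.mem_coe, LinearMap.mem_ker] at hv2
    rw [Finsupp.mem_supported']
    intro m hm
    by_cases h2 : m ∈ lay D₂ (j - p)
    · have h3 : m ∈ lay D₁ (j - p) := by
        by_contra h3
        exact hm (Finset.mem_coe.2 (Finset.mem_sdiff.2 ⟨h2, h3⟩))
      have h4 := monoProj_apply K D₁ v m
      rw [hv2, if_pos (mem_lay.1 h3).1] at h4
      exact h4.symm
    · exact hv1 m h2
  have := mono_finite_supported K (lay D₂ (j - p) \ lay D₁ (j - p))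
  have h5 := Submodule.finrank_mono hle
  rw [mono_finrank_supported] at h5
  have h6 := Finset.card_sdiff_add_card_eq_card hsub
  have h7 := Nat.mul_le_mul_left (n.choose p) h5
  rw [← h6, Nat.mul_add]
  unfold monoRank
  omega

end Crest.Agent.R181.MM
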