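import Crest.Agent.R181.MM.Betti
import Crest.Agent.R181.MM.Mono

/-!
Row 181, module MM (Clements–Lindström and the lex-plus-powers Betti bound for monomial ideals).
-/

set_option autoImplicit false

namespace Crest.Agent.R181.MM

open Module

open MvPolynomial Crest.AlgebraR.LPP

variable {n : ℕ}

/-- the monomial ideal spanned by a set of exponents. -/
noncomputable def monIdeal (E : Set (Fin n →₀ ℕ)) : Ideal (MvPolynomial (Fin n) ℂ) :=
  Ideal.span ((fun m => monomial m (1 : ℂ)) '' E)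

theorem mem_monIdeal {E : Set (Fin n →₀ ℕ)} (hE : IsUpperSet E) {g : MvPolynomial (Fin n) ℂ} :
    g ∈ monIdeal E ↔ ∀ m ∈ g.support, m ∈ E := by
  unfold monIdeal
  rw [mem_ideal_span_monomial_image]
  refine forall₂_congr fun m _ => ⟨?_, fun h => ⟨m, h, le_rfl⟩⟩
  rintro ⟨s, hs, hle⟩
  exact hE hle hs

theorem monIdeal_homogeneous {E : Set (Fin n →₀ ℕ)} (hE : IsUpperSet E) :
    ∀ g ∈ monIdeal E, ∀ d : ℕ, homogeneousComponent d g ∈ monIdeal E := by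
  intro g hg d
  rw [mem_monIdeal hE] at hg ⊢
  intro m hm
  refine hg m ?_
  rw [MvPolynomial.mem_support_iff] at hm ⊢
  intro h0
  apply hm
  rw [coeff_homogeneousComponent, h0, ite_self]

namespace BridgeAux

/-- from the monomial module to the quotient ring -/
noncomputable def phi (I : Ideal (MvPolynomial (Fin n) ℂ)) :
    ((Fin n → ℕ) →₀ ℂ) →ₗ[ℂ] (MvPolynomial (Fin n) ℂ ⧸ I) :=
  Finsupp.linearCombination ℂ fun m =>
    Ideal.Quotient.mk I (monomial (Finsupp.equivFunOnFinite.symm m) (1 : ℂ))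

/-- the standard monomials of a polynomial -/
noncomputable def psi0 (D : Finset (Fin n → ℕ)) :
    MvPolynomial (Fin n) ℂ →ₗ[ℂ] ((Fin n → ℕ) →₀ ℂ) :=
  (basisMonomials (Fin n) ℂ).constr ℂ fun m => if ⇑m ∈ D then Finsupp.single (⇑m) 1 else 0

theorem monomial_eq_smul (m : Fin n →₀ ℕ) (c : ℂ) :
    (monomial m c : MvPolynomial (Fin n) ℂ) = c • monomial m 1 := by
  rw [smul_monomial, smul_eq_mul, mul_one]

theorem phi_single (I : Ideal (MvPolynomial (Fin n) ℂ)) (m : Fin n →₀ ℕ) (c : ℂ) :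
    phi I (Finsupp.single (⇑m) c) = Ideal.Quotient.mk I (monomial m c) := by
  rw [phi, Finsupp.linearCombination_single, Finsupp.equivFunOnFinite_symm_coe,
    monomial_eq_smul m c]
  exact (map_smul (Ideal.Quotient.mkₐ ℂ I) c _).symm

theorem psi0_monomial (D : Finset (Fin n → ℕ)) (m : Fin n →₀ ℕ) (c : ℂ) :
    psi0 D (monomial m c) = if ⇑m ∈ D then Finsupp.single (⇑m) c else 0 := by
  have h := (basisMonomials (Fin n) ℂ).constr_basis ℂ
    (fun m : Fin n →₀ ℕ => if ⇑m ∈ D then Finsupp.single (⇑m) (1 : ℂ) else 0) m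
  rw [coe_basisMonomials] at h
  rw [monomial_eq_smul m c, map_smul, psi0, h]
  split_ifs <;> simp

theorem deg_coe (m : Fin n →₀ ℕ) : deg (⇑m) = m.degree := by
  rw [deg, Finsupp.degree_eq_sum]

variable {E : Set (Fin n →₀ ℕ)} {D : Finset (Fin n → ℕ)}

theorem mk_monomial_eq_zero (hE : IsUpperSet E) (hD : ∀ m : Fin n →₀ ℕ, (⇑m ∈ D ↔ m ∉ E))
    {m : Fin n →₀ ℕ} (hm : ⇑m ∉ D) (c : ℂ) :
    Ideal.Quotient.mk (monIdeal E) (monomial m c) = 0 := by
  rw [Ideal.Quotient.eq_zero_iff_mem, mem_monIdeal hE]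
  intro m' hm'
  obtain rfl : m' = m := Finset.mem_singleton.1 (support_monomial_subset hm')
  by_contra h
  exact hm ((hD _).2 h)

theorem psi0_eq_zero (hE : IsUpperSet E) (hD : ∀ m : Fin n →₀ ℕ, (⇑m ∈ D ↔ m ∉ E))
    {g : MvPolynomial (Fin n) ℂ} (hg : g ∈ monIdeal E) : psi0 D g = 0 := by
  rw [mem_monIdeal hE] at hg
  rw [g.as_sum, map_sum]
  refine Finset.sum_eq_zero fun m hm => ?_
  rw [psi0_monomial, if_neg fun h => (hD m).1 h (hg m hm)]

theorem exists_psi (hE : IsUpperSet E) (hD : ∀ m : Fin n →₀ ℕ, (⇑m ∈ D ↔ m ∉ E)) :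
    ∃ ψ : (MvPolynomial (Fin n) ℂ ⧸ monIdeal E) →ₗ[ℂ] ((Fin n → ℕ) →₀ ℂ),
      ∀ g, ψ (Ideal.Quotient.mk (monIdeal E) g) = psi0 D g := by
  obtain ⟨σ, hσ⟩ := (Ideal.Quotient.mkₐ ℂ (monIdeal E)).toLinearMap.exists_rightInverse_of_surjective
    (LinearMap.range_eq_top.2 (Ideal.Quotient.mkₐ_surjective ℂ _))
  refine ⟨psi0 D ∘ₗ σ, fun g => ?_⟩
  have h1 : Ideal.Quotient.mk (monIdeal E) (σ (Ideal.Quotient.mk (monIdeal E) g)) =
      Ideal.Quotient.mk (monIdeal E) g := LinearMap.congr_fun hσ _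
  rw [Ideal.Quotient.eq] at h1
  have h2 := psi0_eq_zero hE hD h1
  rw [map_sub, sub_eq_zero] at h2
  exact h2

theorem phi_psi0 (hE : IsUpperSet E) (hD : ∀ m : Fin n →₀ ℕ, (⇑m ∈ D ↔ m ∉ E))
    (g : MvPolynomial (Fin n) ℂ) :
    phi (monIdeal E) (psi0 D g) = Ideal.Quotient.mk (monIdeal E) g := by
  induction g using MvPolynomial.induction_on' with
  | monomial m c =>
    rw [psi0_monomial]
    split_ifs with h
    · exact phi_single _ m c
    · rw [map_zero, mk_monomial_eq_zero hE hD h]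
  | add p q hp hq => rw [map_add, map_add, map_add, hp, hq]

theorem phi_monoX (hE : IsUpperSet E) (hD : ∀ m : Fin n →₀ ℕ, (⇑m ∈ D ↔ m ∉ E)) (t : Fin n)
    (v : (Fin n → ℕ) →₀ ℂ) :
    phi (monIdeal E) (monoX ℂ D t v) = mulX (monIdeal E) t (phi (monIdeal E) v) := by
  induction v using Finsupp.induction_linear with
  | zero => simp
  | add p q hp hq => simp only [map_add, hp, hq]
  | single a c =>
    obtain ⟨m, rfl⟩ : ∃ m : Fin n →₀ ℕ, ⇑m = a := ⟨Finsupp.equivFunOnFinite.symm a, rfl⟩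
    have h1 : up t (⇑m) = ⇑(Finsupp.single t 1 + m : Fin n →₀ ℕ) := by
      rw [up, Finsupp.coe_add, Finsupp.single_eq_pi_single, add_comm]
    have h2 : mulX (monIdeal E) t (Ideal.Quotient.mk (monIdeal E) (monomial m c)) =
        Ideal.Quotient.mk (monIdeal E) (monomial (Finsupp.single t 1 + m) c) := by
      rw [mulX, LinearMap.mulLeft_apply, ← map_mul, monomial_single_add, pow_one]
    rw [monoX_single, phi_single, h2, h1]
    split_ifs with h
    · exact phi_single _ _ c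
    · rw [map_zero, mk_monomial_eq_zero hE hD h]

theorem monoG_ind {e : ℕ} {W : Submodule ℂ ((Fin n → ℕ) →₀ ℂ)}
    (h : ∀ m : Fin n →₀ ℕ, ⇑m ∈ D → m.degree = e → Finsupp.single (⇑m) (1 : ℂ) ∈ W) :
    monoG ℂ D e ≤ W := by
  rw [monoG, Finsupp.supported_eq_span_single, Submodule.span_le]
  rintro _ ⟨a, ha, rfl⟩
  obtain ⟨m, rfl⟩ : ∃ m : Fin n →₀ ℕ, ⇑m = a := ⟨Finsupp.equivFunOnFinite.symm a, rfl⟩
  obtain ⟨h1, h2⟩ := mem_lay.1 (Finset.mem_coe.1 ha)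
  exact h m h1 (by rw [← deg_coe, h2])

theorem phi_mem (I : Ideal (MvPolynomial (Fin n) ℂ)) (e : ℕ) :
    ∀ v ∈ monoG ℂ D e, phi I v ∈ quotPiece I e := by
  refine monoG_ind (W := (quotPiece I e).comap (phi I)) fun m _ hm => ?_
  rw [Submodule.mem_comap, phi_single]
  exact ⟨monomial m 1, isHomogeneous_monomial _ hm, rfl⟩

theorem psi_phi {I : Ideal (MvPolynomial (Fin n) ℂ)}
    {ψ : (MvPolynomial (Fin n) ℂ ⧸ I) →ₗ[ℂ] ((Fin n → ℕ) →₀ ℂ)}
    (hψ : ∀ g, ψ (Ideal.Quotient.mk I g) = psi0 D g) (e : ℕ) :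
    ∀ v ∈ monoG ℂ D e, ψ (phi I v) = v := by
  have h := monoG_ind (D := D) (e := e)
    (W := LinearMap.eqLocus (ψ ∘ₗ phi I) LinearMap.id) fun m hm _ => by
      rw [LinearMap.mem_eqLocus, LinearMap.comp_apply, phi_single, hψ, psi0_monomial, if_pos hm,
        LinearMap.id_apply]
  exact fun v hv => LinearMap.mem_eqLocus.1 (h hv)

theorem psi_mem {I : Ideal (MvPolynomial (Fin n) ℂ)}
    {ψ : (MvPolynomial (Fin n) ℂ ⧸ I) →ₗ[ℂ] ((Fin n → ℕ) →₀ ℂ)}
    (hψ : ∀ g, ψ (Ideal.Quotient.mk I g) = psi0 D g) (e : ℕ) :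
    ∀ x ∈ quotPiece I e, ψ x ∈ monoG ℂ D e := by
  rintro _ ⟨g, hg, rfl⟩
  have hg' : g.IsHomogeneous e := hg
  change ψ (Ideal.Quotient.mk I g) ∈ _
  rw [hψ, g.as_sum, map_sum]
  refine Submodule.sum_mem _ fun m hm => ?_
  rw [psi0_monomial]
  split_ifs with h
  · refine Finsupp.single_mem_supported ℂ _ (Finset.mem_coe.2 (mem_lay.2 ⟨h, ?_⟩))
    rw [deg_coe]
    by_contra hne
    exact MvPolynomial.mem_support_iff.1 hm (hg'.coeff_eq_zero hne)
  · exact zero_mem _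

theorem phi_psi (hE : IsUpperSet E) (hD : ∀ m : Fin n →₀ ℕ, (⇑m ∈ D ↔ m ∉ E))
    {ψ : (MvPolynomial (Fin n) ℂ ⧸ monIdeal E) →ₗ[ℂ] ((Fin n → ℕ) →₀ ℂ)}
    (hψ : ∀ g, ψ (Ideal.Quotient.mk (monIdeal E) g) = psi0 D g)
    (x : MvPolynomial (Fin n) ℂ ⧸ monIdeal E) : phi (monIdeal E) (ψ x) = x := by
  obtain ⟨g, rfl⟩ := Ideal.Quotient.mk_surjective x
  rw [hψ, phi_psi0 hE hD]

end BridgeAux

open BridgeAux

theorem finrank_quotPiece_monIdeal {E : Set (Fin n →₀ ℕ)} (hE : IsUpperSet E)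
    {D : Finset (Fin n → ℕ)} (hD : ∀ m : Fin n →₀ ℕ, (⇑m ∈ D ↔ m ∉ E)) (e : ℕ) :
    finrank ℂ (quotPiece (monIdeal E) e) = (lay D e).card := by
  obtain ⟨ψ, hψ⟩ := exists_psi hE hD
  have := finite_monoG ℂ D e
  have := finite_quotPiece (monIdeal E) e
  rw [← finrank_monoG ℂ D e]
  apply le_antisymm
  · refine le_trans (Submodule.finrank_mono (t := (monoG ℂ D e).map (phi (monIdeal E))) ?_)
      (Submodule.finrank_map_le _ _)
    exact fun x hx => ⟨ψ x, psi_mem hψ e x hx, phi_psi hE hD hψ x⟩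
  · refine le_trans (Submodule.finrank_mono (t := (quotPiece (monIdeal E) e).map ψ) ?_)
      (Submodule.finrank_map_le _ _)
    exact fun v hv => ⟨phi _ v, phi_mem _ e v hv, psi_phi hψ e v hv⟩

theorem kRank_monIdeal {E : Set (Fin n →₀ ℕ)} (hE : IsUpperSet E)
    {D : Finset (Fin n → ℕ)} (hD : ∀ m : Fin n →₀ ℕ, (⇑m ∈ D ↔ m ∉ E)) (p j : ℕ) :
    kRank (mulX (monIdeal E)) (quotPiece (monIdeal E)) p j = monoRank ℂ D p j := by
  obtain ⟨ψ, hψ⟩ := exists_psi hE hD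
  apply le_antisymm
  · refine kRank_le_of_comp _ _ _ _ (finite_monoG ℂ D) ψ (phi _) (psi_mem hψ)
      (fun t e x _ => ?_) p j
    rw [phi_monoX hE hD, phi_psi hE hD hψ]
  · refine kRank_le_of_comp _ _ _ _ (finite_quotPiece _) (phi _) ψ (phi_mem _)
      (fun t e v hv => ?_) p j
    rw [← phi_monoX hE hD, psi_phi hψ (e + 1) _ (monoX_mem ℂ D t e v hv)]

end Crest.Agent.R181.MM
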