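import Crest.Agent.R181.MM.Defs

/-!
Row 181, module MM (Clements–Lindström and the lex-plus-powers Betti bound for monomial ideals).
-/

set_option autoImplicit false

namespace Crest.Agent.R181.MM

open Module

variable {n : ℕ}

theorem compress_subset_box (a : Fin n → ℕ) (i b : Fin n) (D : Finset (Fin n → ℕ)) :
    compress a i b D ⊆ box a := Finset.filter_subset _ _

/-- the point of the `(i, b)`-line through `m` with `b`-coordinate `j`. -/
def linePt (i b : Fin n) (m : Fin n → ℕ) (j : ℕ) : Fin n → ℕ :=
  Function.update (Function.update m b j) i (m i + m b - j)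

theorem linePt_b {i b : Fin n} (hib : i ≠ b) (m : Fin n → ℕ) (j : ℕ) : linePt i b m j b = j := by
  simp [linePt, Function.update_of_ne hib.symm]

theorem linePt_i (i b : Fin n) (m : Fin n → ℕ) (j : ℕ) :
    linePt i b m j i = m i + m b - j := by
  simp [linePt]

theorem linePt_other {i b t : Fin n} (hi : t ≠ i) (hb : t ≠ b) (m : Fin n → ℕ) (j : ℕ) :
    linePt i b m j t = m t := by
  simp [linePt, Function.update_of_ne hi, Function.update_of_ne hb]

theorem onLine_linePt {i b : Fin n} (hib : i ≠ b) (m : Fin n → ℕ) {j : ℕ} (hj : j ≤ m i + m b) :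
    OnLine i b m (linePt i b m j) := by
  refine ⟨fun t hi hb => linePt_other hi hb m j, ?_⟩
  rw [linePt_i, linePt_b hib]; omega

theorem eq_linePt {i b : Fin n} (hib : i ≠ b) {m m' : Fin n → ℕ} (h : OnLine i b m m') :
    m' = linePt i b m (m' b) := by
  funext t
  by_cases hi : t = i
  · subst hi; rw [linePt_i]; have := h.2; omega
  · by_cases hb : t = b
    · subst hb; rw [linePt_b hib]
    · rw [linePt_other hi hb, h.1 t hi hb]

theorem linePt_le {i b : Fin n} (hib : i ≠ b) {m M : Fin n → ℕ} {j j' : ℕ}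
    (ho : ∀ s, s ≠ i → s ≠ b → m s ≤ M s) (hj : j ≤ j')
    (hi : m i + m b - j ≤ M i + M b - j') : linePt i b m j ≤ linePt i b M j' := by
  refine Pi.le_def.2 fun s => ?_
  by_cases hsi : s = i
  · subst hsi; rw [linePt_i, linePt_i]; exact hi
  · by_cases hsb : s = b
    · subst hsb; rw [linePt_b hib, linePt_b hib]; exact hj
    · rw [linePt_other hsi hsb, linePt_other hsi hsb]; exact ho s hsi hsb

theorem OnLine.symm' {i b : Fin n} {m m' : Fin n → ℕ} (h : OnLine i b m m') : OnLine i b m' m :=
  ⟨fun t hi hb => (h.1 t hi hb).symm, h.2.symm⟩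

theorem OnLine.trans' {i b : Fin n} {m m' m'' : Fin n → ℕ} (h : OnLine i b m m')
    (h' : OnLine i b m' m'') : OnLine i b m m'' :=
  ⟨fun t hi hb => (h'.1 t hi hb).trans (h.1 t hi hb), h'.2.trans h.2⟩

theorem mem_line {i b : Fin n} {D : Finset (Fin n → ℕ)} {m m' : Fin n → ℕ} :
    m' ∈ line i b D m ↔ m' ∈ D ∧ OnLine i b m m' := by
  simp [line]

theorem line_congr {i b : Fin n} (D : Finset (Fin n → ℕ)) {m m' : Fin n → ℕ}
    (h : OnLine i b m m') : line i b D m' = line i b D m := by
  ext x
  rw [mem_line, mem_line]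
  exact ⟨fun hx => ⟨hx.1, h.trans' hx.2⟩, fun hx => ⟨hx.1, h.symm'.trans' hx.2⟩⟩

theorem mem_compress {a : Fin n → ℕ} {i b : Fin n} {D : Finset (Fin n → ℕ)} {m : Fin n → ℕ} :
    m ∈ compress a i b D ↔
      m ∈ box a ∧ min (m i + m b) (a b - 1) < m b + (line i b D m).card := by
  simp only [compress, Finset.mem_filter]

/-- the `b`-coordinates of the points of `D` on a line. -/
def lineIdx (i b : Fin n) (D : Finset (Fin n → ℕ)) (m : Fin n → ℕ) : Finset ℕ :=
  (line i b D m).image fun m' => m' b

theorem card_lineIdx {i b : Fin n} (hib : i ≠ b) (D : Finset (Fin n → ℕ)) (m : Fin n → ℕ) :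
    (lineIdx i b D m).card = (line i b D m).card := by
  refine Finset.card_image_of_injOn fun x hx y hy hxy => ?_
  have hx' := (mem_line.1 (Finset.mem_coe.1 hx)).2
  have hy' := (mem_line.1 (Finset.mem_coe.1 hy)).2
  have hxy' : x b = y b := hxy
  rw [eq_linePt hib hx', eq_linePt hib hy', hxy']

theorem mem_lineIdx {i b : Fin n} (hib : i ≠ b) {D : Finset (Fin n → ℕ)} {m : Fin n → ℕ} {j : ℕ} :
    j ∈ lineIdx i b D m ↔ j ≤ m i + m b ∧ linePt i b m j ∈ D := by
  simp only [lineIdx, Finset.mem_image, mem_line]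
  constructor
  · rintro ⟨x, ⟨hx, hl⟩, rfl⟩
    refine ⟨by have := hl.2; omega, ?_⟩
    rw [← eq_linePt hib hl]; exact hx
  · rintro ⟨hj, hx⟩
    exact ⟨_, ⟨hx, onLine_linePt hib m hj⟩, linePt_b hib m j⟩

theorem lineIdx_bounds {a : Fin n → ℕ} {i b : Fin n} (hib : i ≠ b) {D : Finset (Fin n → ℕ)}
    (hD : D ⊆ box a) {m : Fin n → ℕ} {j : ℕ} (hj : j ∈ lineIdx i b D m) :
    j ≤ m i + m b ∧ j < a b ∧ m i + m b - j < a i := by
  obtain ⟨h1, h2⟩ := (mem_lineIdx hib).1 hj
  have h3 := mem_box.1 (hD h2)
  have hb := h3 b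
  have hi := h3 i
  rw [linePt_b hib] at hb
  rw [linePt_i] at hi
  exact ⟨h1, hb, hi⟩

/-- compression keeps the number of points on every line. -/
theorem card_line_compress {a : Fin n → ℕ} {i b : Fin n} (hib : i ≠ b) {D : Finset (Fin n → ℕ)}
    (hD : D ⊆ box a) (m : Fin n → ℕ) :
    (line i b (compress a i b D) m).card = (line i b D m).card := by
  rcases (line i b D m).eq_empty_or_nonempty with h0 | ⟨m0, hm0⟩
  · rw [h0, Finset.card_empty, Finset.card_eq_zero, Finset.eq_empty_iff_forall_notMem]
    intro x hx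
    obtain ⟨hx1, hx2⟩ := mem_line.1 hx
    obtain ⟨hx3, hx4⟩ := mem_compress.1 hx1
    rw [line_congr D hx2, h0, Finset.card_empty] at hx4
    have := mem_box.1 hx3 b
    omega
  · obtain ⟨hm1, hm2⟩ := mem_line.1 hm0
    have hbox := mem_box.1 (hD hm1)
    have hc : (line i b D m).card ≤
        min (m i + m b) (a b - 1) + 1 - (m i + m b + 1 - a i) := by
      rw [← card_lineIdx hib, ← Nat.card_Icc]
      refine Finset.card_le_card fun j hj => ?_
      have := lineIdx_bounds hib hD hj
      rw [Finset.mem_Icc]; omega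
    rw [← card_lineIdx hib]
    have he : lineIdx i b (compress a i b D) m =
        Finset.Icc (min (m i + m b) (a b - 1) + 1 - (line i b D m).card)
          (min (m i + m b) (a b - 1)) := by
      ext j
      rw [mem_lineIdx hib, Finset.mem_Icc, mem_compress]
      constructor
      · rintro ⟨h1, h2, h3⟩
        have hl := onLine_linePt hib m h1
        rw [line_congr D hl, hl.2, linePt_b hib] at h3
        have h4 := mem_box.1 h2 b
        rw [linePt_b hib] at h4
        omega
      · rintro ⟨h1, h2⟩
        have hb := hbox b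
        have hi := hbox i
        have hj : j ≤ m i + m b := by omega
        have hl := onLine_linePt hib m hj
        refine ⟨hj, mem_box.2 fun t => ?_, ?_⟩
        · by_cases hti : t = i
          · subst hti; rw [linePt_i]; omega
          · by_cases htb : t = b
            · subst htb; rw [linePt_b hib]; omega
            · rw [linePt_other hti htb, ← hm2.1 t hti htb]; exact hbox t
        · rw [line_congr D hl, hl.2, linePt_b hib]; omega
    rw [he, Nat.card_Icc]
    omega

theorem linePt_zero_eq_iff {i b : Fin n} (hib : i ≠ b) {m m' : Fin n → ℕ} :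
    linePt i b m' 0 = linePt i b m 0 ↔ OnLine i b m m' := by
  constructor
  · intro h
    have h1 := onLine_linePt hib m (Nat.zero_le _)
    have h2 := onLine_linePt hib m' (Nat.zero_le _)
    rw [h] at h2
    exact h1.trans' h2.symm'
  · intro h
    have h1 := h.trans' (onLine_linePt hib m' (Nat.zero_le _))
    rw [eq_linePt hib h1, linePt_b hib]

/-- sums of functions that are constant on lines only depend on the line counts. -/
theorem sum_eq_of_card_line {M : Type*} [AddCommMonoid M] {i b : Fin n} (hib : i ≠ b)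
    {A B : Finset (Fin n → ℕ)} (h : ∀ m, (line i b A m).card = (line i b B m).card)
    (f : (Fin n → ℕ) → M) (hf : ∀ m m', OnLine i b m m' → f m' = f m) :
    ∑ m ∈ A, f m = ∑ m ∈ B, f m := by
  have key : ∀ X : Finset (Fin n → ℕ), X ⊆ A ∪ B →
      ∑ m ∈ X, f m = ∑ k ∈ (A ∪ B).image (fun m => linePt i b m 0),
        (line i b X k).card • f k := by
    intro X hX
    rw [← Finset.sum_fiberwise_of_maps_to (s := X)
      (t := (A ∪ B).image (fun m => linePt i b m 0)) (g := fun m => linePt i b m 0)
      (fun x hx => Finset.mem_image_of_mem _ (hX hx)) f]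
    refine Finset.sum_congr rfl fun k hk => ?_
    obtain ⟨m0, -, rfl⟩ := Finset.mem_image.1 hk
    have h0 := onLine_linePt hib m0 (Nat.zero_le _)
    have he : X.filter (fun m => linePt i b m 0 = linePt i b m0 0) =
        line i b X (linePt i b m0 0) := by
      rw [line_congr X h0]
      ext x
      rw [Finset.mem_filter, mem_line, linePt_zero_eq_iff hib]
    rw [he, ← Finset.sum_const]
    exact Finset.sum_congr rfl fun x hx => hf _ _ (mem_line.1 hx).2
  rw [key A Finset.subset_union_left, key B Finset.subset_union_right]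
  exact Finset.sum_congr rfl fun k _ => by rw [h k]

theorem deg_eq_of_onLine {i b : Fin n} (hib : i ≠ b) {m m' : Fin n → ℕ} (h : OnLine i b m m') :
    deg m' = deg m := by
  have key : ∀ x : Fin n → ℕ,
      deg x = x i + x b + ∑ t ∈ (Finset.univ.erase i).erase b, x t := by
    intro x
    unfold deg
    rw [← Finset.add_sum_erase _ _ (Finset.mem_univ i),
      ← Finset.add_sum_erase _ _ (Finset.mem_erase.2 ⟨hib.symm, Finset.mem_univ b⟩), add_assoc]
  rw [key m, key m', h.2]
  congr 1
  refine Finset.sum_congr rfl fun t ht => ?_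
  obtain ⟨hb, ht'⟩ := Finset.mem_erase.1 ht
  exact h.1 t (Finset.mem_erase.1 ht').1 hb

theorem card_lay_compress {a : Fin n → ℕ} {i b : Fin n} (hib : i ≠ b) {D : Finset (Fin n → ℕ)}
    (hD : D ⊆ box a) (e : ℕ) : (lay (compress a i b D) e).card = (lay D e).card := by
  unfold lay
  rw [Finset.card_filter, Finset.card_filter]
  exact sum_eq_of_card_line hib (card_line_compress hib hD) _ fun m m' h => by
    rw [deg_eq_of_onLine hib h]

theorem down_of_up {D : Finset (Fin n → ℕ)} (h : ∀ t m, up t m ∈ D → m ∈ D) : Down D := by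
  intro m hm
  have key : ∀ (k : ℕ) (m' : Fin n → ℕ), m' ≤ m → deg m = deg m' + k → m' ∈ D := by
    intro k
    induction k with
    | zero =>
      intro m' hle hdeg
      have : m' = m := by
        funext t
        have hs : ∑ t, m' t = ∑ t, m t := by simpa [deg] using hdeg.symm
        exact (Finset.sum_eq_sum_iff_of_le fun t _ => hle t).1 hs t (Finset.mem_univ t)
      rw [this]; exact hm
    | succ k ih =>
      intro m' hle hdeg
      have hne : ∃ t, m' t < m t := by
        by_contra hcon
        have : m' = m := by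
          funext t
          exact le_antisymm (hle t) (not_lt.1 fun ht => hcon ⟨t, ht⟩)
        rw [this] at hdeg
        omega
      obtain ⟨t, ht⟩ := hne
      refine h t m' (ih _ (fun s => ?_) (by rw [deg_up]; omega))
      by_cases hs : s = t
      · subst hs; simp only [up, Pi.add_apply, Pi.single_eq_same]; omega
      · simpa [up, Pi.single_eq_of_ne hs] using hle s
  intro m' hle
  have hd : deg m' ≤ deg m := Finset.sum_le_sum fun t _ => hle t
  exact key (deg m - deg m') m' hle (by omega)

theorem card_le_or_of_shift {A A' : Finset ℕ} {s : ℕ}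
    (h1 : ∀ j ∈ A, j ≤ s → j ∈ A') (h2 : ∀ j, j + 1 ∈ A → j ∈ A') :
    A.card ≤ A'.card ∨ s + 1 ≤ A'.card := by
  by_cases h : ∀ j, j ≤ s → j ∈ A'
  · right
    rw [← Finset.card_range (s + 1)]
    exact Finset.card_le_card fun j hj => h j (by have := Finset.mem_range.1 hj; omega)
  · left
    obtain ⟨j0, hj0, hj0'⟩ : ∃ j0, j0 ≤ s ∧ j0 ∉ A' := by
      by_contra hcon
      exact h fun j hj => by
        by_contra hj'
        exact hcon ⟨j, hj, hj'⟩
    have hn1 : j0 ∉ A := fun hh => hj0' (h1 _ hh hj0)
    have hn2 : j0 + 1 ∉ A := fun hh => hj0' (h2 _ hh)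
    refine Finset.card_le_card_of_injOn (fun j => if j < j0 then j else j - 1) ?_ ?_
    · intro j hj
      have hj' : j ∈ A := Finset.mem_coe.1 hj
      refine Finset.mem_coe.2 ?_
      by_cases hlt : j < j0
      · simp only [hlt, if_true]; exact h1 j hj' (by omega)
      · simp only [hlt, if_false]
        have hne : j ≠ j0 := fun hh => hn1 (hh ▸ hj')
        refine h2 _ ?_
        have : j - 1 + 1 = j := by omega
        rw [this]; exact hj'
    · intro x hx y hy hxy
      have hx' : x ∈ A := Finset.mem_coe.1 hx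
      have hy' : y ∈ A := Finset.mem_coe.1 hy
      have hx1 : x ≠ j0 := fun hh => hn1 (hh ▸ hx')
      have hx2 : x ≠ j0 + 1 := fun hh => hn2 (hh ▸ hx')
      have hy1 : y ≠ j0 := fun hh => hn1 (hh ▸ hy')
      have hy2 : y ≠ j0 + 1 := fun hh => hn2 (hh ▸ hy')
      simp only at hxy
      split_ifs at hxy <;> omega

theorem down_compress {a : Fin n → ℕ} {i b : Fin n} (hib : i ≠ b) (hab : a i ≤ a b)
    {D : Finset (Fin n → ℕ)} (hD : D ⊆ box a) (hd : Down D) : Down (compress a i b D) := by
  refine down_of_up fun t m hm => ?_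
  obtain ⟨hbox, hlt⟩ := mem_compress.1 hm
  have hbox' := mem_box.1 hbox
  refine mem_compress.2 ⟨mem_box.2 fun s => lt_of_le_of_lt (le_up t m s) (hbox' s), ?_⟩
  rw [← card_lineIdx hib] at hlt ⊢
  by_cases ht : t ≠ i ∧ t ≠ b
  · have hi : up t m i = m i := by simp [up, Pi.single_eq_of_ne ht.1.symm]
    have hb : up t m b = m b := by simp [up, Pi.single_eq_of_ne ht.2.symm]
    have hsub : lineIdx i b D (up t m) ⊆ lineIdx i b D m := by
      intro j hj
      obtain ⟨h1, h2⟩ := (mem_lineIdx hib).1 hj
      exact (mem_lineIdx hib).2 ⟨by omega, hd _ h2 _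
        (linePt_le hib (fun s _ _ => le_up t m s) le_rfl (by omega))⟩
    have := Finset.card_le_card hsub
    rw [hi, hb] at hlt
    omega
  · have hs : up t m i + up t m b = m i + m b + 1 ∧
        (up t m b = m b ∨ up t m b = m b + 1) := by
      by_cases hti : t = i
      · subst hti
        simp [up, Pi.single_eq_of_ne hib.symm]; omega
      · have htb : t = b := by
          by_contra hh
          exact ht ⟨hti, hh⟩
        subst htb
        simp [up, Pi.single_eq_of_ne hib]; omega
    obtain ⟨hs, hb⟩ := hs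
    have h1 : ∀ j ∈ lineIdx i b D (up t m), j ≤ m i + m b → j ∈ lineIdx i b D m := by
      intro j hj hjs
      obtain ⟨-, h2⟩ := (mem_lineIdx hib).1 hj
      exact (mem_lineIdx hib).2 ⟨hjs, hd _ h2 _
        (linePt_le hib (fun s _ _ => le_up t m s) le_rfl (by omega))⟩
    have h2 : ∀ j, j + 1 ∈ lineIdx i b D (up t m) → j ∈ lineIdx i b D m := by
      intro j hj
      obtain ⟨h1, h2⟩ := (mem_lineIdx hib).1 hj
      exact (mem_lineIdx hib).2 ⟨by omega, hd _ h2 _
        (linePt_le hib (fun s _ _ => le_up t m s) (Nat.le_succ j) (by omega))⟩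
    have hbd := fun j (hj : j ∈ lineIdx i b D (up t m)) => lineIdx_bounds hib hD hj
    have hMb := hbox' b
    by_cases hcase : m i + m b + 1 < a b
    · -- the line is cut by the degree only
      have hweak : (lineIdx i b D (up t m)).card ≤ (lineIdx i b D m).card + 1 := by
        have hsub : lineIdx i b D (up t m) ⊆ insert (m i + m b + 1) (lineIdx i b D m) := by
          intro j hj
          have := hbd j hj
          by_cases hjs : j ≤ m i + m b
          · exact Finset.mem_insert_of_mem (h1 j hj hjs)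
          · exact Finset.mem_insert.2 (Or.inl (by omega))
        exact (Finset.card_le_card hsub).trans (Finset.card_insert_le _ _)
      rcases card_le_or_of_shift h1 h2 with h | h <;> omega
    · have hsub : lineIdx i b D (up t m) ⊆ lineIdx i b D m := fun j hj =>
        h1 j hj (by have := hbd j hj; omega)
      have hle := Finset.card_le_card hsub
      rcases hb with hb | hb
      · omega
      · have hne : (lineIdx i b D (up t m)).Nonempty := by
          rw [← Finset.card_pos]; omega
        have hmin := Finset.min'_mem _ hne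
        have hb0 := hbd _ hmin
        have hpos : 1 ≤ (lineIdx i b D (up t m)).min' hne := by omega
        have hin : (lineIdx i b D (up t m)).min' hne - 1 ∈ lineIdx i b D m := by
          refine h2 _ ?_
          rw [Nat.sub_add_cancel hpos]; exact hmin
        have hnot : (lineIdx i b D (up t m)).min' hne - 1 ∉ lineIdx i b D (up t m) := by
          intro hh
          have := Finset.min'_le _ _ hh
          omega
        have hlt' : (lineIdx i b D (up t m)).card < (lineIdx i b D m).card :=
          Finset.card_lt_card ⟨hsub, fun hh => hnot (hh hin)⟩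
        omega

theorem sum_lt_compress {a : Fin n → ℕ} {i b : Fin n} (hib : i ≠ b) {D : Finset (Fin n → ℕ)}
    (hD : D ⊆ box a) (hne : compress a i b D ≠ D) :
    ∑ m ∈ D, m b < ∑ m ∈ compress a i b D, m b := by
  set C := compress a i b D with hC
  let f : (Fin n → ℕ) → ℤ := fun m =>
    ((line i b D m).card : ℤ) - ((min (m i + m b) (a b - 1) : ℕ) : ℤ)
  have hf : ∑ m ∈ C, f m = ∑ m ∈ D, f m :=
    sum_eq_of_card_line hib (card_line_compress hib hD) f fun m m' h => by
      simp only [f, line_congr D h, h.2]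
  have hcard : C.card = D.card := by
    rw [Finset.card_eq_sum_ones, Finset.card_eq_sum_ones]
    exact sum_eq_of_card_line hib (card_line_compress hib hD) _ fun _ _ _ => rfl
  let g : (Fin n → ℕ) → ℤ := fun m => (m b : ℤ) + f m
  have hpos : ∀ m ∈ C, 0 < g m := by
    intro m hm
    have := (mem_compress.1 hm).2
    simp only [g, f]
    omega
  have hneg : ∀ m ∈ D \ C, g m ≤ 0 := by
    intro m hm
    obtain ⟨h1, h2⟩ := Finset.mem_sdiff.1 hm
    have : ¬ min (m i + m b) (a b - 1) < m b + (line i b D m).card :=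
      fun hh => h2 (mem_compress.2 ⟨hD h1, hh⟩)
    simp only [g, f]
    omega
  have hnonempty : (C \ D).Nonempty := by
    rw [Finset.sdiff_nonempty]
    intro hsub
    exact hne (Finset.eq_of_subset_of_card_le hsub hcard.ge)
  have h1 : ∑ m ∈ D \ C, g m ≤ 0 := Finset.sum_nonpos hneg
  have h2 : 0 < ∑ m ∈ C \ D, g m :=
    Finset.sum_pos (fun m hm => hpos m (Finset.mem_sdiff.1 hm).1) hnonempty
  have h3 : ∑ m ∈ D ∩ C, g m + ∑ m ∈ D \ C, g m = ∑ m ∈ D, g m :=
    Finset.sum_inter_add_sum_sdiff D C g
  have h4 : ∑ m ∈ C ∩ D, g m + ∑ m ∈ C \ D, g m = ∑ m ∈ C, g m :=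
    Finset.sum_inter_add_sum_sdiff C D g
  rw [Finset.inter_comm] at h4
  have h5 : ∑ m ∈ D, g m = ((∑ m ∈ D, m b : ℕ) : ℤ) + ∑ m ∈ D, f m := by
    simp only [g, Finset.sum_add_distrib, Nat.cast_sum]
  have h6 : ∑ m ∈ C, g m = ((∑ m ∈ C, m b : ℕ) : ℤ) + ∑ m ∈ C, f m := by
    simp only [g, Finset.sum_add_distrib, Nat.cast_sum]
  have h7 : ((∑ m ∈ D, m b : ℕ) : ℤ) < ((∑ m ∈ C, m b : ℕ) : ℤ) := by linarith
  exact_mod_cast h7

/-- any property preserved by the compressions towards the last variable is shared by a stable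
down-set with the same layer sizes. -/
theorem exists_stable {a : Fin (n + 1) → ℕ} (ha : Monotone a)
    (Pr : Finset (Fin (n + 1) → ℕ) → Prop)
    (hPr : ∀ (D : Finset (Fin (n + 1) → ℕ)) (t : Fin n), D ⊆ box a → Down D → Pr D →
      Pr (compress a t.castSucc (Fin.last n) D))
    {D : Finset (Fin (n + 1) → ℕ)} (hD : D ⊆ box a) (hd : Down D) (hP : Pr D) :
    ∃ D', D' ⊆ box a ∧ Down D' ∧ Stable (a (Fin.last n)) D' ∧
      (∀ e, (lay D' e).card = (lay D e).card) ∧ Pr D' := by
  classical
  obtain ⟨D', hD', hmax⟩ := Finset.exists_max_image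
    ((box a).powerset.filter fun E => Down E ∧ (∀ e, (lay E e).card = (lay D e).card) ∧ Pr E)
    (fun E => ∑ m ∈ E, m (Fin.last n))
    ⟨D, Finset.mem_filter.2 ⟨Finset.mem_powerset.2 hD, hd, fun _ => rfl, hP⟩⟩
  obtain ⟨h1, h2, h3, h4⟩ := Finset.mem_filter.1 hD'
  have h1' := Finset.mem_powerset.1 h1
  refine ⟨D', h1', h2, fun t m hm hlt => ?_, h3, h4⟩
  have hib : t.castSucc ≠ Fin.last n := (Fin.castSucc_lt_last t).ne
  have hfix : compress a t.castSucc (Fin.last n) D' = D' := by
    by_contra hne
    have hlt' := sum_lt_compress hib h1' hne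
    have hle := hmax (compress a t.castSucc (Fin.last n) D') (Finset.mem_filter.2
      ⟨Finset.mem_powerset.2 (compress_subset_box _ _ _ _),
        down_compress hib (ha (Fin.le_last _)) h1' h2,
        fun e => (card_lay_compress hib h1' e).trans (h3 e), hPr D' t h1' h2 h4⟩)
    exact absurd hlt' (not_lt.2 hle)
  have hm' : up t.castSucc m ∈ compress a t.castSucc (Fin.last n) D' := by rw [hfix]; exact hm
  obtain ⟨hb, hc⟩ := mem_compress.1 hm'
  have e1 : up t.castSucc m t.castSucc = m t.castSucc + 1 := by simp [up]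
  have e2 : up t.castSucc m (Fin.last n) = m (Fin.last n) := by
    simp [up]
  have e3 : up (Fin.last n) m t.castSucc = m t.castSucc := by
    simp [up]
  have e4 : up (Fin.last n) m (Fin.last n) = m (Fin.last n) + 1 := by simp [up]
  have hl : OnLine t.castSucc (Fin.last n) (up t.castSucc m) (up (Fin.last n) m) := by
    refine ⟨fun s hs1 hs2 => ?_, by omega⟩
    simp [up, Pi.single_eq_of_ne hs1, Pi.single_eq_of_ne hs2]
  rw [← hfix]
  refine mem_compress.2 ⟨mem_box.2 fun s => ?_, ?_⟩
  · by_cases hs : s = Fin.last n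
    · subst hs; omega
    · have : up (Fin.last n) m s = m s := by simp [up, Pi.single_eq_of_ne hs]
      rw [this]
      exact lt_of_le_of_lt (le_up _ m s) (mem_box.1 hb s)
  · rw [line_congr D' hl, hl.2]
    omega

end Crest.Agent.R181.MM
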