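import Crest.Agent.R181.MM.Lex
import Crest.Agent.R181.MM.Compress

/-!
Row 181, module MM (Clements–Lindström and the lex-plus-powers Betti bound for monomial ideals).
-/

set_option autoImplicit false

namespace Crest.Agent.R181.MM

open Module

variable {n : ℕ}

open Classical in
/-- the degree `s` elements of the box that are lex below some degree `s + 1` element of `E`. -/
noncomputable def below (a : Fin n → ℕ) (E : Finset (Fin n → ℕ)) (s : ℕ) : Finset (Fin n → ℕ) :=
  (lay (box a) s).filter fun m => ∃ ν ∈ lay E (s + 1), toLex m < toLex ν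

/-- the Clements–Lindström inequality for the box `a`. -/
def CLProp (a : Fin n → ℕ) : Prop :=
  ∀ D E : Finset (Fin n → ℕ), D ⊆ box a → Down D → LexFinal a E → ∀ s,
    (lay E (s + 1)).card ≤ (lay D (s + 1)).card → (below a E s).card ≤ (lay D s).card

private theorem cl_deg_le {x y : Fin n → ℕ} (h : y ≤ x) : deg y ≤ deg x :=
  Finset.sum_le_sum fun i _ => h i

private theorem cl_deg_lt {x y : Fin n → ℕ} (h : y ≤ x) (hne : y ≠ x) : deg y < deg x := by
  obtain ⟨i, hi⟩ := Function.ne_iff.1 hne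
  exact Finset.sum_lt_sum (fun i _ => h i) ⟨i, Finset.mem_univ _, lt_of_le_of_ne (h i) hi⟩

private theorem cl_eq_up {x y : Fin n → ℕ} (h : y ≤ x) (hd : deg x = deg y + 1) :
    ∃ t, up t y = x := by
  have hne : y ≠ x := by
    rintro rfl
    omega
  obtain ⟨i, hi⟩ := Function.ne_iff.1 hne
  have hle : up i y ≤ x := by
    intro k
    by_cases hk : k = i
    · subst hk
      have : y k < x k := lt_of_le_of_ne (h k) hi
      show y k + (Pi.single k 1 : Fin n → ℕ) k ≤ x k
      rw [Pi.single_eq_same]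
      omega
    · simpa [up, Pi.single_eq_of_ne hk] using h k
  refine ⟨i, ?_⟩
  by_contra hc
  have := cl_deg_lt hle hc
  rw [deg_up] at this
  omega

private theorem cl_box_down {a x y : Fin n → ℕ} (hx : x ∈ box a) (h : y ≤ x) : y ∈ box a :=
  mem_box.2 fun i => lt_of_le_of_lt (h i) (mem_box.1 hx i)

private theorem cl_up_castSucc (t : Fin n) (y : Fin n → ℕ) (j : ℕ) :
    up t.castSucc (Fin.snoc y j : Fin (n + 1) → ℕ) = Fin.snoc (up t y) j := by
  funext k
  refine Fin.lastCases ?_ (fun k => ?_) k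
  · simp [up]
  · by_cases hk : k = t
    · subst hk
      simp [up]
    · have : k.castSucc ≠ t.castSucc := fun h => hk (Fin.castSucc_injective _ h)
      simp [up, Pi.single_eq_of_ne hk, Pi.single_eq_of_ne this]

private theorem cl_up_last (y : Fin n → ℕ) (j : ℕ) :
    up (Fin.last n) (Fin.snoc y j : Fin (n + 1) → ℕ) = Fin.snoc y (j + 1) := by
  funext k
  refine Fin.lastCases ?_ (fun k => ?_) k
  · simp [up]
  · simp [up]

private theorem cl_snoc_mem_box {a : Fin (n + 1) → ℕ} {y : Fin n → ℕ} {j : ℕ}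
    (hy : y ∈ box (Fin.init a)) (hj : j < a (Fin.last n)) :
    (Fin.snoc y j : Fin (n + 1) → ℕ) ∈ box a := by
  refine mem_box.2 fun k => ?_
  refine Fin.lastCases ?_ (fun k => ?_) k
  · simpa using hj
  · simpa [Fin.init] using mem_box.1 hy k

private theorem cl_lt_last {a : Fin (n + 1) → ℕ} {y : Fin n → ℕ} {j : ℕ}
    (h : (Fin.snoc y j : Fin (n + 1) → ℕ) ∈ box a) : j < a (Fin.last n) := by
  simpa using mem_box.1 h (Fin.last n)

/-- lexifying the slices of a stable set keeps stability. -/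
theorem lexify_slice_stable {a : Fin (n + 1) → ℕ} (hCL : CLProp (Fin.init a))
    {D : Finset (Fin (n + 1) → ℕ)} (hD : D ⊆ box a) (hs : Stable (a (Fin.last n)) D)
    {j : ℕ} (hj : j + 1 < a (Fin.last n)) (t : Fin n) (m : Fin n → ℕ)
    (hm : up t m ∈ lexify (Fin.init a) (slice D j)) :
    m ∈ lexify (Fin.init a) (slice D (j + 1)) := by
  classical
  set E := lexify (Fin.init a) (slice D j) with hE
  have hEf : LexFinal (Fin.init a) E := lexFinal_lexify _ _
  set D' : Finset (Fin n → ℕ) := (box (Fin.init a)).filter fun x =>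
    (deg x = deg m + 1 ∧ x ∈ slice D j) ∨ (deg x = deg m ∧ x ∈ slice D (j + 1)) ∨ deg x < deg m
    with hD'
  have hdown : Down D' := by
    intro x hx y hy
    rw [hD', Finset.mem_filter] at hx ⊢
    refine ⟨cl_box_down hx.1 hy, ?_⟩
    by_cases hyx : y = x
    · rw [hyx]; exact hx.2
    have hlt := cl_deg_lt hy hyx
    by_cases hym : deg y < deg m
    · exact Or.inr (Or.inr hym)
    rcases hx.2 with ⟨h1, h2⟩ | ⟨h1, -⟩ | h1
    · have h3 : deg y = deg m := by omega
      obtain ⟨t', rfl⟩ := cl_eq_up hy (by omega)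
      refine Or.inr (Or.inl ⟨h3, ?_⟩)
      rw [mem_slice] at h2 ⊢
      rw [← cl_up_castSucc] at h2
      rw [← cl_up_last]
      exact hs t' _ h2 (by simpa using hj)
    · omega
    · omega
  have l1 : lay D' (deg m + 1) = lay (slice D j) (deg m + 1) := by
    ext x
    simp only [mem_lay, hD', Finset.mem_filter]
    constructor
    · rintro ⟨⟨-, ⟨-, h⟩ | ⟨h, -⟩ | h⟩, h'⟩
      · exact ⟨h, h'⟩
      · omega
      · omega
    · rintro ⟨h, h'⟩
      exact ⟨⟨slice_subset_box hD j h, Or.inl ⟨h', h⟩⟩, h'⟩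
  have l2 : lay D' (deg m) = lay (slice D (j + 1)) (deg m) := by
    ext x
    simp only [mem_lay, hD', Finset.mem_filter]
    constructor
    · rintro ⟨⟨-, ⟨h, -⟩ | ⟨-, h⟩ | h⟩, h'⟩
      · omega
      · exact ⟨h, h'⟩
      · omega
    · rintro ⟨h, h'⟩
      exact ⟨⟨slice_subset_box hD (j + 1) h, Or.inr (Or.inl ⟨h', h⟩)⟩, h'⟩
  have key := hCL D' E (Finset.filter_subset _ _) hdown hEf (deg m)
    (by rw [l1, hE, card_lay_lexify (slice_subset_box hD j)])
  rw [l2] at key
  unfold lexify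
  rw [Finset.mem_filter]
  refine ⟨cl_box_down (hEf.1 hm) (le_up t m), le_trans (Finset.card_le_card ?_) key⟩
  intro x hx
  rw [Finset.mem_filter] at hx
  simp only [below, Finset.mem_filter]
  exact ⟨hx.1, up t m, mem_lay.2 ⟨hm, deg_up t m⟩, lt_of_le_of_lt hx.2 (toLex_lt_up t m)⟩

/-- key lemma: if some slice of a stable set is larger than that of a final lex segment, then all
later slices are at least as large. -/
theorem slice_key {a : Fin (n + 1) → ℕ} (hCL : CLProp (Fin.init a))
    {D Λ : Finset (Fin (n + 1) → ℕ)} (hD : D ⊆ box a) (hs : Stable (a (Fin.last n)) D)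
    (hΛ : LexFinal a Λ) {s j₀ j : ℕ} (hj : j₀ < j) (hjs : j ≤ s)
    (h : (lay (slice Λ j₀) (s - j₀)).card < (lay (slice D j₀) (s - j₀)).card) :
    (lay (slice Λ j) (s - j)).card ≤ (lay (slice D j) (s - j)).card := by
  rw [← card_lay_lexify (slice_subset_box hD j₀)] at h
  obtain ⟨ν, hν, hνΛ⟩ := Finset.exists_mem_notMem_of_card_lt_card h
  rw [← card_lay_lexify (slice_subset_box hD j)]
  refine Finset.card_le_card fun m hm => ?_
  obtain ⟨hm1, hm2⟩ := mem_lay.1 hm
  obtain ⟨hν1, hν2⟩ := mem_lay.1 hν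
  have hmΛ := mem_slice.1 hm1
  have hja : j < a (Fin.last n) := cl_lt_last (hΛ.1 hmΛ)
  have hνb : ν ∈ box (Fin.init a) := (lexFinal_lexify _ _).1 hν1
  have hlt : toLex m < toLex ν := by
    have h1 : toLex (Fin.snoc m j : Fin (n + 1) → ℕ) < toLex (Fin.snoc ν j₀ : Fin (n + 1) → ℕ) := by
      by_contra hc
      refine hνΛ (mem_lay.2 ⟨mem_slice.2 ?_, hν2⟩)
      refine hΛ.2 _ hmΛ _ (cl_snoc_mem_box hνb (by omega)) ?_ (not_lt.1 hc)
      rw [deg_snoc, deg_snoc]
      omega
    rcases toLex_snoc_lt.1 h1 with h2 | ⟨-, h2⟩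
    · exact h2
    · omega
  have desc : ∀ k, j₀ + k ≤ j → ∃ μ ∈ lexify (Fin.init a) (slice D (j₀ + k)),
      deg μ = s - (j₀ + k) ∧ toLex m ≤ toLex μ := by
    intro k
    induction k with
    | zero => exact fun _ => ⟨ν, hν1, hν2, hlt.le⟩
    | succ k ih =>
      intro hk
      obtain ⟨μ, a1, a2, a3⟩ := ih (by omega)
      have hd : deg m < deg μ := by omega
      have hne : toLex m ≠ toLex μ := fun he => by
        rw [toLex_inj.1 he] at hd
        omega
      obtain ⟨t, μ', rfl, b2⟩ := exists_pred_ge (lt_of_le_of_ne a3 hne) hd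
      have hk' : j₀ + k + 1 < a (Fin.last n) := by omega
      refine ⟨μ', lexify_slice_stable hCL hD hs hk' t μ' a1, ?_, b2⟩
      rw [deg_up] at a2
      omega
  obtain ⟨μ, a1, a2, a3⟩ := desc (j - j₀) (by omega)
  have e : j₀ + (j - j₀) = j := by omega
  rw [e] at a1 a2
  exact mem_lay.2 ⟨(lexFinal_lexify _ _).2 μ a1 m (slice_subset_box hΛ.1 j hm1) (by omega) a3, hm2⟩

theorem slice_zero_le {a : Fin (n + 1) → ℕ} (hCL : CLProp (Fin.init a))
    {D Λ : Finset (Fin (n + 1) → ℕ)} (hD : D ⊆ box a) (hs : Stable (a (Fin.last n)) D)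
    (hΛ : LexFinal a Λ) {s : ℕ} (h : (lay Λ s).card = (lay D s).card) :
    (lay (slice D 0) s).card ≤ (lay (slice Λ 0) s).card := by
  by_contra hc
  have hc' : (lay (slice Λ 0) (s - 0)).card < (lay (slice D 0) (s - 0)).card := not_le.1 hc
  rw [card_lay_eq_sum, card_lay_eq_sum] at h
  refine absurd h (ne_of_lt (Finset.sum_lt_sum (fun j hj => ?_) ⟨0, by simp, hc'⟩))
  rcases Nat.eq_zero_or_pos j with rfl | hj0
  · exact hc'.le
  · exact slice_key hCL hD hs hΛ hj0 (Nat.lt_succ_iff.1 (Finset.mem_range.1 hj)) hc'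

theorem slice_top_le {a : Fin (n + 1) → ℕ} (hCL : CLProp (Fin.init a))
    {D Λ : Finset (Fin (n + 1) → ℕ)} (hD : D ⊆ box a) (hs : Stable (a (Fin.last n)) D)
    (hΛ : LexFinal a Λ) {r : ℕ}
    (h : (lay Λ (r + (a (Fin.last n) - 1))).card = (lay D (r + (a (Fin.last n) - 1))).card) :
    (lay (slice Λ (a (Fin.last n) - 1)) r).card ≤ (lay (slice D (a (Fin.last n) - 1)) r).card := by
  set d := a (Fin.last n) - 1 with hd
  by_contra hc
  have e : r + d - d = r := by omega
  have hc' : (lay (slice D d) (r + d - d)).card < (lay (slice Λ d) (r + d - d)).card := by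
    rw [e]; exact not_le.1 hc
  rw [card_lay_eq_sum, card_lay_eq_sum] at h
  refine absurd h.symm (ne_of_lt (Finset.sum_lt_sum (fun j _ => ?_)
    ⟨d, Finset.mem_range.2 (by omega), hc'⟩))
  rcases lt_trichotomy j d with hj | rfl | hj
  · by_contra h2
    exact absurd (slice_key hCL hD hs hΛ hj (by omega) (not_le.1 h2)) (not_le.2 hc')
  · exact hc'.le
  · have : lay (slice D j) (r + d - j) = ∅ := by
      refine Finset.eq_empty_of_forall_notMem fun x hx => ?_
      have := cl_lt_last (hD (mem_slice.1 (mem_lay.1 hx).1))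
      omega
    rw [this]
    exact Nat.zero_le _

end Crest.Agent.R181.MM
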