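import Crest.Agent.R181.MM.CL

/-!
Row 181, module MM (Clements–Lindström and the lex-plus-powers Betti bound for monomial ideals).
-/

set_option autoImplicit false

namespace Crest.Agent.R181.MM

open Module

variable {n : ℕ}

theorem CL2_mem_below {a : Fin n → ℕ} {E : Finset (Fin n → ℕ)} {s : ℕ} {m : Fin n → ℕ} :
    m ∈ below a E s ↔ (m ∈ box a ∧ deg m = s) ∧ ∃ ν ∈ lay E (s + 1), toLex m < toLex ν := by
  simp only [below, Finset.mem_filter, mem_lay]

theorem CL2_deg_mono {m m' : Fin n → ℕ} (h : m ≤ m') : deg m ≤ deg m' :=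
  Finset.sum_le_sum fun i _ => h i

theorem CL2_snoc_box {a : Fin (n + 1) → ℕ} {m : Fin n → ℕ} {j : ℕ} :
    (Fin.snoc m j : Fin (n + 1) → ℕ) ∈ box a ↔ m ∈ box (Fin.init a) ∧ j < a (Fin.last n) := by
  rw [mem_box, mem_box, Fin.forall_fin_succ']
  simp [Fin.init]

theorem CL2_descend {m : Fin n → ℕ} : ∀ (k : ℕ) (ν : Fin n → ℕ), toLex m < toLex ν →
    deg ν = deg m + 1 + k → ∃ ν', ν' ≤ ν ∧ deg ν' = deg m + 1 ∧ toLex m < toLex ν'
  | 0, ν, h, hd => ⟨ν, le_rfl, hd, h⟩
  | k + 1, ν, h, hd => by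
    obtain ⟨t, ν₁, h1, h2⟩ := exists_pred_ge h (by omega)
    have h3 : deg ν₁ = deg m + 1 + k := by
      have := deg_up t ν₁
      rw [h1] at this
      omega
    have h4 : toLex m < toLex ν₁ := lt_of_le_of_ne h2 fun he => by
      have : m = ν₁ := toLex.injective he
      rw [← this] at h3
      omega
    obtain ⟨ν', h5, h6⟩ := CL2_descend k ν₁ h4 h3
    exact ⟨ν', h5.trans (h1 ▸ le_up t ν₁), h6⟩

theorem CL2_slice_empty {a : Fin (n + 1) → ℕ} {D : Finset (Fin (n + 1) → ℕ)} (hD : D ⊆ box a)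
    {j : ℕ} (hj : a (Fin.last n) ≤ j) (e : ℕ) : (lay (slice D j) e).card = 0 :=
  Finset.card_eq_zero.2 (Finset.eq_empty_of_forall_notMem fun _ hm =>
    (CL2_snoc_box.1 (hD (mem_slice.1 (mem_lay.1 hm).1))).2.not_ge hj)

theorem CL2_low {a : Fin (n + 1) → ℕ} {Λ : Finset (Fin (n + 1) → ℕ)} (hΛ : LexFinal a Λ)
    {s j : ℕ} (hj : j + 1 < a (Fin.last n)) :
    lay (slice (below a Λ s) j) (s - j) ⊆ lay (slice Λ (j + 1)) (s - j) := by
  intro m hm
  obtain ⟨hm1, hm2⟩ := mem_lay.1 hm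
  obtain ⟨⟨h1, h2⟩, ν, hν, h3⟩ := CL2_mem_below.1 (mem_slice.1 hm1)
  obtain ⟨hν1, hν2⟩ := mem_lay.1 hν
  refine mem_lay.2 ⟨mem_slice.2 ?_, hm2⟩
  rw [← Fin.snoc_init_self ν] at h3 hν2
  rw [deg_snoc] at h2 hν2
  refine hΛ.2 ν hν1 _ (CL2_snoc_box.2 ⟨(CL2_snoc_box.1 h1).1, hj⟩) ?_ ?_
  · rw [deg_snoc, (mem_lay.1 hν).2]
    omega
  · rw [← Fin.snoc_init_self ν]
    rcases toLex_snoc_lt.1 h3 with h | ⟨h, -⟩
    · exact (toLex_snoc_lt.2 (Or.inl h)).le
    · have h4 : ν (Fin.last n) = j + 1 := by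
        rw [← h] at hν2
        omega
      rw [← h, h4]

theorem CL2_top {a : Fin (n + 1) → ℕ} {Λ : Finset (Fin (n + 1) → ℕ)} (hΛ : LexFinal a Λ)
    {s j : ℕ} (hj : j + 1 = a (Fin.last n)) :
    lay (slice (below a Λ s) j) (s - j) ⊆ below (Fin.init a) (slice Λ j) (s - j) := by
  intro m hm
  obtain ⟨hm1, hm2⟩ := mem_lay.1 hm
  obtain ⟨⟨h1, h2⟩, ν, hν, h3⟩ := CL2_mem_below.1 (mem_slice.1 hm1)
  obtain ⟨hν1, hν2⟩ := mem_lay.1 hν
  have hb := hΛ.1 hν1
  rw [← Fin.snoc_init_self ν] at h3 hν2 hb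
  rw [deg_snoc] at h2 hν2
  obtain ⟨hb1, hb2⟩ := CL2_snoc_box.1 hb
  have h4 : toLex m < toLex (Fin.init ν) :=
    (toLex_snoc_lt.1 h3).resolve_right fun h => by omega
  obtain ⟨ν', h5, h6, h7⟩ := CL2_descend (j - ν (Fin.last n)) _ h4 (by omega)
  refine CL2_mem_below.2 ⟨⟨(CL2_snoc_box.1 h1).1, hm2⟩, ν', mem_lay.2 ⟨mem_slice.2 ?_, by omega⟩, h7⟩
  refine hΛ.2 ν hν1 _ (CL2_snoc_box.2 ⟨mem_box.2 fun i => (h5 i).trans_lt (mem_box.1 hb1 i),
    by omega⟩) ?_ ?_
  · rw [deg_snoc, (mem_lay.1 hν).2]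
    omega
  · rw [← Fin.snoc_init_self ν]
    by_cases he : ν' = Fin.init ν
    · have h8 : ν (Fin.last n) = j := by
        rw [← he] at hν2
        omega
      rw [← he, h8]
    · exact (toLex_snoc_lt.2 (Or.inl (lt_of_le_of_ne (Pi.toLex_monotone h5)
        fun h => he (toLex.injective h)))).le

theorem clProp_succ {a : Fin (n + 1) → ℕ} (ha : Monotone a) (hCL : CLProp (Fin.init a)) :
    CLProp a := by
  intro D₀ E hD₀ hd₀ hE s hc
  obtain ⟨D, hD, hd, hs, hcard, -⟩ :=
    exists_stable ha (fun _ => True) (fun _ _ _ _ _ => trivial) hD₀ hd₀ trivial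
  have hΛ := lexFinal_lexify a D
  have hl := card_lay_lexify hD
  set Λ := lexify a D with hΛd
  have hsub : below a E s ⊆ below a Λ s := fun m hm => by
    obtain ⟨h1, ν, hν, h2⟩ := CL2_mem_below.1 hm
    exact CL2_mem_below.2 ⟨h1, ν, hE.lay_subset hΛ (by rw [hl, hcard]; exact hc) hν, h2⟩
  refine (Finset.card_le_card hsub).trans ?_
  have hG : lay (below a Λ s) s = below a Λ s :=
    Finset.filter_true_of_mem fun m hm => (CL2_mem_below.1 hm).1.2
  have hGb : below a Λ s ⊆ box a := fun m hm => (CL2_mem_below.1 hm).1.1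
  have h1 : ∑ j ∈ Finset.range (s + 1), (lay (slice Λ (j + 1)) (s - j)).card ≤
      ∑ j ∈ Finset.range (s + 1), (lay (slice D (j + 1)) (s - j)).card := by
    have h2 := hl (s + 1)
    have h3 := slice_zero_le hCL hD hs hΛ h2
    rw [card_lay_eq_sum, card_lay_eq_sum, Finset.sum_range_succ', Finset.sum_range_succ' _ (s + 1)]
      at h2
    simp only [Nat.add_sub_add_right, Nat.sub_zero] at h2
    omega
  let h : ℕ → ℕ := fun j => if j + 1 = a (Fin.last n) then (lay (slice D j) (s - j)).card else 0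
  have h2 : ∀ j ∈ Finset.range (s + 1), (lay (slice (below a Λ s) j) (s - j)).card ≤
      (lay (slice Λ (j + 1)) (s - j)).card + h j := fun j hj => by
    have hjs : j ≤ s := Nat.lt_succ_iff.1 (Finset.mem_range.1 hj)
    rcases lt_trichotomy (j + 1) (a (Fin.last n)) with hlt | heq | hgt
    · exact (Finset.card_le_card (CL2_low hΛ hlt)).trans (Nat.le_add_right _ _)
    · have h3 : a (Fin.last n) - 1 = j := by omega
      have h4 := slice_top_le hCL hD hs hΛ (r := s - j + 1) (hl _)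
      rw [h3] at h4
      have h5 := hCL _ _ (slice_subset_box hD j) (hd.slice j) (hΛ.slice j) (s - j) h4
      have h6 : h j = (lay (slice D j) (s - j)).card := if_pos heq
      rw [h6]
      exact ((Finset.card_le_card (CL2_top hΛ heq)).trans h5).trans (Nat.le_add_left _ _)
    · rw [CL2_slice_empty hGb (by omega)]
      exact Nat.zero_le _
  have h3 : ∀ j ∈ Finset.range (s + 1), (lay (slice D (j + 1)) (s - j)).card + h j ≤
      (lay (slice D j) (s - j)).card := fun j _ => by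
    by_cases heq : j + 1 = a (Fin.last n)
    · have h6 : h j = (lay (slice D j) (s - j)).card := if_pos heq
      rw [h6, CL2_slice_empty hD heq.ge, zero_add]
    · have h6 : h j = 0 := if_neg heq
      rw [h6, add_zero]
      refine Finset.card_le_card fun m hm => mem_lay.2 ⟨mem_slice.2 ?_, (mem_lay.1 hm).2⟩
      refine hd _ (mem_slice.1 (mem_lay.1 hm).1) _ fun i => ?_
      refine Fin.lastCases ?_ (fun i => ?_) i <;> simp
  have h4 := Finset.sum_le_sum h2
  have h5 := Finset.sum_le_sum h3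
  rw [Finset.sum_add_distrib] at h4 h5
  rw [← hG, ← hcard, card_lay_eq_sum, card_lay_eq_sum]
  omega

theorem clProp : ∀ (n : ℕ) (a : Fin n → ℕ), Monotone a → CLProp a := by
  intro n
  induction n with
  | zero =>
    intro a _ D E _ _ _ s _
    have : below a E s = ∅ := Finset.eq_empty_of_forall_notMem fun m hm => by
      obtain ⟨-, ν, hν, -⟩ := CL2_mem_below.1 hm
      have := (mem_lay.1 hν).2
      simp [deg] at this
    rw [this, Finset.card_empty]
    exact Nat.zero_le _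
  | succ n ih =>
    intro a ha
    exact clProp_succ ha (ih _ fun i j h => ha (Fin.castSucc_le_castSucc_iff.2 h))

/-- Clements–Lindström. -/
theorem down_lexify {a : Fin n → ℕ} (ha : Monotone a) {D : Finset (Fin n → ℕ)} (hD : D ⊆ box a)
    (hd : Down D) : Down (lexify a D) := by
  classical
  have hΛ := lexFinal_lexify a D
  have step : ∀ t m, up t m ∈ lexify a D → m ∈ lexify a D := fun t m hm => by
    have hb : m ∈ box a := mem_box.2 fun i => (le_up t m i).trans_lt (mem_box.1 (hΛ.1 hm) i)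
    have h1 := clProp n a ha D _ hD hd hΛ (deg m) (card_lay_lexify hD _).le
    unfold lexify
    refine Finset.mem_filter.2 ⟨hb, le_trans (Finset.card_le_card fun m' hm' => ?_) h1⟩
    obtain ⟨h2, h3⟩ := Finset.mem_filter.1 hm'
    exact CL2_mem_below.2 ⟨mem_lay.1 h2, up t m, mem_lay.2 ⟨hm, deg_up t m⟩,
      h3.trans_lt (toLex_lt_up t m)⟩
  intro m hm
  have key : ∀ (k : ℕ) (m' : Fin n → ℕ), deg m ≤ deg m' + k → m' ≤ m → m' ∈ lexify a D := by
    intro k
    induction k using Nat.strong_induction_on with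
    | _ k ih =>
      intro m' hk hle
      by_cases he : m' = m
      · rwa [he]
      · obtain ⟨t, ht⟩ := Function.ne_iff.1 he
        have h1 : up t m' ≤ m := fun i => by
          by_cases hi : i = t
          · subst hi
            have := lt_of_le_of_ne (hle i) ht
            simpa [up] using Nat.succ_le_of_lt this
          · simpa [up, Pi.single_eq_of_ne hi] using hle i
        have h2 := CL2_deg_mono h1
        rw [deg_up] at h2
        exact step t m' (ih (k - 1) (by omega) _ (by rw [deg_up]; omega) h1)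
  exact fun m' hle => key (deg m) m' (Nat.le_add_left _ _) hle

end Crest.Agent.R181.MM
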