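import Mathlib
import Crest.Prelude.Def_LexPlusPowers

/-!
Row 181, module MM (Clements–Lindström and the lex-plus-powers Betti bound for monomial ideals).
-/

set_option autoImplicit false

namespace Crest.Agent.R181.MM

open Module

section Koszul

variable {K : Type*} [DivisionRing K] {V : Type*} [AddCommGroup V] [Module K V] {n : ℕ}

/-- Koszul differential of a family of operators. -/
noncomputable def kD (X : Fin n → V →ₗ[K] V) :
    (Finset (Fin n) → V) →ₗ[K] (Finset (Fin n) → V) :=
  LinearMap.pi fun U : Finset (Fin n) =>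
    ∑ t ∈ Uᶜ, ((-1 : ℤ) ^ (U.filter (· < t)).card) • (X t ∘ₗ LinearMap.proj (insert t U))

/-- Koszul chains of bidegree `(p, j)` for the grading `G`. -/
noncomputable def kChains (n : ℕ) (G : ℕ → Submodule K V) (p j : ℕ) :
    Submodule K (Finset (Fin n) → V) :=
  ⨅ T : Finset (Fin n), Submodule.comap (LinearMap.proj T)
    (if T.card = p ∧ p ≤ j then G (j - p) else ⊥)

/-- Rank of the Koszul differential on the chains of bidegree `(p, j)`. -/
noncomputable def kRank (X : Fin n → V →ₗ[K] V) (G : ℕ → Submodule K V) (p j : ℕ) : ℕ :=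
  finrank K (Submodule.map (kD X) (kChains n G p j))

theorem kD_apply (X : Fin n → V →ₗ[K] V) (f : Finset (Fin n) → V) (U : Finset (Fin n)) :
    kD X f U = ∑ t ∈ Uᶜ, ((-1 : ℤ) ^ (U.filter (· < t)).card) • X t (f (insert t U)) := by
  simp [kD, LinearMap.sum_apply]

theorem mem_kChains {G : ℕ → Submodule K V} {p j : ℕ} {f : Finset (Fin n) → V} :
    f ∈ kChains n G p j ↔
      ∀ T : Finset (Fin n), (T.card = p ∧ p ≤ j → f T ∈ G (j - p)) ∧
        (¬ (T.card = p ∧ p ≤ j) → f T = 0) := by
  simp only [kChains, Submodule.mem_iInf, Submodule.mem_comap, LinearMap.proj_apply]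
  refine forall_congr' fun T => ?_
  by_cases h : T.card = p ∧ p ≤ j <;> simp [h]

/-- multiplication by the variables on `S / I`. -/
noncomputable def mulX {n : ℕ} (I : Ideal (MvPolynomial (Fin n) ℂ)) (t : Fin n) :
    (MvPolynomial (Fin n) ℂ ⧸ I) →ₗ[ℂ] (MvPolynomial (Fin n) ℂ ⧸ I) :=
  LinearMap.mulLeft ℂ (Ideal.Quotient.mk I (MvPolynomial.X t))

end Koszul

section Comb

variable {n : ℕ}

/-- total degree of an exponent vector. -/
def deg (m : Fin n → ℕ) : ℕ := ∑ i, m i

/-- multiply a monomial by the variable `t`. -/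
def up (t : Fin n) (m : Fin n → ℕ) : Fin n → ℕ := m + Pi.single t 1

/-- the box of exponent vectors below `a`. -/
def box (a : Fin n → ℕ) : Finset (Fin n → ℕ) := Fintype.piFinset fun i => Finset.range (a i)

/-- the degree `e` layer of `D`. -/
def lay (D : Finset (Fin n → ℕ)) (e : ℕ) : Finset (Fin n → ℕ) := D.filter fun m => deg m = e

/-- `D` is closed under division. -/
def Down (D : Finset (Fin n → ℕ)) : Prop := ∀ m ∈ D, ∀ m', m' ≤ m → m' ∈ D

/-- in every degree, `E` is a final lex segment of the box. -/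
def LexFinal (a : Fin n → ℕ) (E : Finset (Fin n → ℕ)) : Prop :=
  E ⊆ box a ∧ ∀ m ∈ E, ∀ m' ∈ box a, deg m' = deg m → toLex m' ≤ toLex m → m' ∈ E

open Classical in
/-- in every degree, the lex smallest elements of the box, as many as `D` has. -/
noncomputable def lexify (a : Fin n → ℕ) (D : Finset (Fin n → ℕ)) : Finset (Fin n → ℕ) :=
  (box a).filter fun m =>
    ((lay (box a) (deg m)).filter fun m' => toLex m' ≤ toLex m).card ≤ (lay D (deg m)).card

/-- the slice of `D` at exponent `j` of the last variable. -/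
def slice (D : Finset (Fin (n + 1) → ℕ)) (j : ℕ) : Finset (Fin n → ℕ) :=
  (D.filter fun m => m (Fin.last n) = j).image fun m => Fin.init m

/-- stability with respect to the last variable `z` (`d` = the power of `z`):
`x_t` may be exchanged for `z` as long as the result stays in the box. -/
def Stable (d : ℕ) (D : Finset (Fin (n + 1) → ℕ)) : Prop :=
  ∀ (t : Fin n) (m : Fin (n + 1) → ℕ), up t.castSucc m ∈ D → m (Fin.last n) + 1 < d →
    up (Fin.last n) m ∈ D

/-- `m` and `m'` lie on the same `(i, b)`-line. -/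
def OnLine (i b : Fin n) (m m' : Fin n → ℕ) : Prop :=
  (∀ t, t ≠ i → t ≠ b → m' t = m t) ∧ m' i + m' b = m i + m b

instance (i b : Fin n) (m m' : Fin n → ℕ) : Decidable (OnLine i b m m') := by
  unfold OnLine; infer_instance

/-- the part of `D` on the `(i, b)`-line through `m`. -/
def line (i b : Fin n) (D : Finset (Fin n → ℕ)) (m : Fin n → ℕ) : Finset (Fin n → ℕ) :=
  D.filter fun m' => OnLine i b m m'

/-- `(i, b)`-compression: on every line take the largest exponents of `b` that are `< a b`. -/
def compress (a : Fin n → ℕ) (i b : Fin n) (D : Finset (Fin n → ℕ)) : Finset (Fin n → ℕ) :=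
  (box a).filter fun m => min (m i + m b) (a b - 1) < m b + (line i b D m).card

theorem mem_box {a m : Fin n → ℕ} : m ∈ box a ↔ ∀ i, m i < a i := by
  simp [box, Fintype.mem_piFinset]

theorem mem_lay {D : Finset (Fin n → ℕ)} {e : ℕ} {m : Fin n → ℕ} :
    m ∈ lay D e ↔ m ∈ D ∧ deg m = e := by
  simp [lay]

theorem deg_up (t : Fin n) (m : Fin n → ℕ) : deg (up t m) = deg m + 1 := by
  simp [deg, up, Finset.sum_add_distrib]

theorem le_up (t : Fin n) (m : Fin n → ℕ) : m ≤ up t m := le_self_add

theorem up_comm (s t : Fin n) (m : Fin n → ℕ) : up s (up t m) = up t (up s m) := by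
  simp [up, add_right_comm]

theorem mem_slice {D : Finset (Fin (n + 1) → ℕ)} {j : ℕ} {m : Fin n → ℕ} :
    m ∈ slice D j ↔ (Fin.snoc m j : Fin (n + 1) → ℕ) ∈ D := by
  simp only [slice, Finset.mem_image, Finset.mem_filter]
  constructor
  · rintro ⟨m', ⟨h1, rfl⟩, rfl⟩
    rwa [Fin.snoc_init_self]
  · intro h
    exact ⟨_, ⟨h, by simp⟩, by simp⟩

theorem deg_snoc (m : Fin n → ℕ) (j : ℕ) :
    deg (Fin.snoc m j : Fin (n + 1) → ℕ) = deg m + j := by
  simp [deg, Fin.sum_univ_castSucc]

end Comb

section Mono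

variable (K : Type*) [DivisionRing K] {n : ℕ}

/-- multiplication by the variable `t` on the monomial module with standard monomials `D`. -/
noncomputable def monoX (D : Finset (Fin n → ℕ)) (t : Fin n) :
    ((Fin n → ℕ) →₀ K) →ₗ[K] ((Fin n → ℕ) →₀ K) :=
  Finsupp.linearCombination K fun m => if up t m ∈ D then Finsupp.single (up t m) 1 else 0

/-- graded pieces of the monomial module. -/
noncomputable def monoG (D : Finset (Fin n → ℕ)) (e : ℕ) : Submodule K ((Fin n → ℕ) →₀ K) :=
  Finsupp.supported K K (↑(lay D e) : Set (Fin n → ℕ))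

/-- Koszul ranks of the monomial module. -/
noncomputable def monoRank (D : Finset (Fin n → ℕ)) (p j : ℕ) : ℕ :=
  kRank (monoX K D) (monoG K D) p j

theorem monoX_single (D : Finset (Fin n → ℕ)) (t : Fin n) (m : Fin n → ℕ) (c : K) :
    monoX K D t (Finsupp.single m c) = if up t m ∈ D then Finsupp.single (up t m) c else 0 := by
  by_cases h : up t m ∈ D <;> simp [monoX, h]

end Mono

end Crest.Agent.R181.MM
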