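import Crest.Agent.R181.MM.Mono

/-!
Row 181, module MM (Clements–Lindström and the lex-plus-powers Betti bound for monomial ideals).
-/

set_option autoImplicit false

namespace Crest.Agent.R181.MM

open Module

section Leading

variable {K : Type*} [DivisionRing K] {B : Type*} [AddCommGroup B] [Module K B]

/-- leading-term lemma for ranks of finite families. -/
theorem finrank_span_le_of_leading {σ Ω : Type*} [Finite σ] [LinearOrder Ω] (u v : σ → B)
    (key : σ → Ω) (π : Ω → B →ₗ[K] B)
    (h1 : ∀ s, π (key s) (v s) = u s) (h2 : ∀ s κ, κ < key s → π κ (v s) = 0) :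
    finrank K (Submodule.span K (Set.range u)) ≤ finrank K (Submodule.span K (Set.range v)) := by
  classical
  obtain ⟨ι, a, ha, hsp, hli⟩ := exists_linearIndependent' K u
  haveI : Finite ι := Finite.of_injective a ha
  letI : Fintype ι := Fintype.ofFinite ι
  have hv : LinearIndependent K (v ∘ a) := by
    refine Fintype.linearIndependent_iff.2 fun g hg => ?_
    by_contra hn
    obtain ⟨i, hi⟩ := not_forall.1 hn
    obtain ⟨i₀, h3, h4⟩ := Finset.exists_min_image (Finset.univ.filter fun i => g i ≠ 0)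
      (fun i => key (a i)) ⟨i, Finset.mem_filter.2 ⟨Finset.mem_univ _, hi⟩⟩
    have h5 : ∑ i, (if key (a i) = key (a i₀) then g i else 0) • (u ∘ a) i = 0 := by
      have h6 := congrArg (π (key (a i₀))) hg
      rw [map_zero, map_sum] at h6
      rw [← h6]
      refine Finset.sum_congr rfl fun k _ => ?_
      rw [map_smul, Function.comp_apply, Function.comp_apply]
      by_cases hk : key (a k) = key (a i₀)
      · rw [if_pos hk, ← hk, h1]
      · rw [if_neg hk, zero_smul]
        by_cases hg0 : g k = 0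
        · rw [hg0, zero_smul]
        · rw [h2 _ _ (lt_of_le_of_ne (h4 k (Finset.mem_filter.2 ⟨Finset.mem_univ _, hg0⟩))
            (Ne.symm hk)), smul_zero]
    have h7 := Fintype.linearIndependent_iff.1 hli _ h5 i₀
    rw [if_pos rfl] at h7
    exact (Finset.mem_filter.1 h3).2 h7
  haveI : Module.Finite K (Submodule.span K (Set.range v)) :=
    Module.Finite.span_of_finite K (Set.finite_range v)
  rw [← hsp, finrank_span_eq_card hli, ← finrank_span_eq_card hv]
  exact Submodule.finrank_mono (Submodule.span_mono (Set.range_comp_subset_range a v))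

end Leading

variable (K : Type*) [DivisionRing K] {n : ℕ}

/-- the chains of the monomial module are spanned by the basis chains `(T, m)`. -/
theorem kChains_monoG_eq_span (D : Finset (Fin n → ℕ)) (p j : ℕ) :
    kChains n (monoG K D) p j = Submodule.span K
      {f | ∃ (T : Finset (Fin n)) (m : Fin n → ℕ), T.card = p ∧ m ∈ D ∧ deg m + p = j ∧
        f = Pi.single T (Finsupp.single m 1)} := by
  refine le_antisymm (fun f hf => ?_) (Submodule.span_le.2 ?_)
  · rw [← Finset.univ_sum_single f]
    refine Submodule.sum_mem _ fun T _ => ?_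
    obtain ⟨h1, h2⟩ := mem_kChains.1 hf T
    by_cases h : T.card = p ∧ p ≤ j
    · have h3 : f T ∈ Finsupp.supported K K (↑(lay D (j - p)) : Set (Fin n → ℕ)) := h1 h
      rw [Finsupp.supported_eq_span_single] at h3
      have h4 := Submodule.mem_map_of_mem
        (f := LinearMap.single K (fun _ : Finset (Fin n) => (Fin n → ℕ) →₀ K) T) h3
      rw [Submodule.map_span] at h4
      refine Submodule.span_mono ?_ h4
      rintro _ ⟨_, ⟨m, hm, rfl⟩, rfl⟩
      obtain ⟨h5, h6⟩ := mem_lay.1 (Finset.mem_coe.1 hm)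
      exact ⟨T, m, h.1, h5, by omega, rfl⟩
    · rw [h2 h, Pi.single_zero]
      exact Submodule.zero_mem _
  · rintro _ ⟨T, m, h1, h2, h3, rfl⟩
    refine mem_kChains.2 fun U => ⟨fun h => ?_, fun h => ?_⟩
    · by_cases hU : U = T
      · rw [hU, Pi.single_eq_same]
        exact Finsupp.single_mem_supported K 1 (Finset.mem_coe.2 (mem_lay.2 ⟨h2, by omega⟩))
      · rw [Pi.single_eq_of_ne hU]
        exact Submodule.zero_mem _
    · have hU : U ≠ T := fun hU => h ⟨by rw [hU, h1], by omega⟩
      exact Pi.single_eq_of_ne hU _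

/-- indicator vector of a set of variables. -/
def KLeading_ind (T : Finset (Fin n)) : Fin n → ℕ := fun i => if i ∈ T then 1 else 0

theorem KLeading_up {t : Fin n} {U : Finset (Fin n)} (ht : t ∉ U) (m : Fin n → ℕ) :
    up t m + KLeading_ind U = m + KLeading_ind (insert t U) := by
  funext i
  show m i + (Pi.single t 1 : Fin n → ℕ) i + (if i ∈ U then 1 else 0) =
    m i + if i ∈ insert t U then 1 else 0
  by_cases h : i = t
  · rw [h, Pi.single_eq_same, if_neg ht, if_pos (Finset.mem_insert_self t U)]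
  · rw [Pi.single_eq_of_ne h, add_zero]
    simp only [Finset.mem_insert, h, false_or]

/-- the part of a chain selected by a predicate. -/
noncomputable def KLeading_pi (P : Finset (Fin n) → (Fin n → ℕ) → Prop)
    [∀ U, DecidablePred (P U)] :
    (Finset (Fin n) → (Fin n → ℕ) →₀ K) →ₗ[K] (Finset (Fin n) → (Fin n → ℕ) →₀ K) where
  toFun f U := (f U).filter (P U)
  map_add' _ _ := funext fun _ => Finsupp.filter_add
  map_smul' _ _ := funext fun _ => Finsupp.filter_smul

theorem KLeading_pi_apply (P : Finset (Fin n) → (Fin n → ℕ) → Prop) [∀ U, DecidablePred (P U)]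
    (f : Finset (Fin n) → (Fin n → ℕ) →₀ K) (U : Finset (Fin n)) (m : Fin n → ℕ) :
    KLeading_pi K P f U m = if P U m then f U m else 0 :=
  Finsupp.filter_apply (P U) (f U) m

theorem KLeading_congr (X Y : Fin n → ((Fin n → ℕ) →₀ K) →ₗ[K] ((Fin n → ℕ) →₀ K))
    (T U : Finset (Fin n)) (w : (Fin n → ℕ) →₀ K) (m' : Fin n → ℕ)
    (h : ∀ t, t ∉ U → insert t U = T → X t w m' = Y t w m') :
    kD X (Pi.single T w) U m' = kD Y (Pi.single T w) U m' := by
  rw [kD_apply, kD_apply, Finsupp.finsetSum_apply, Finsupp.finsetSum_apply]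
  refine Finset.sum_congr rfl fun t ht => ?_
  rw [Finsupp.smul_apply, Finsupp.smul_apply]
  by_cases hT : insert t U = T
  · rw [hT, Pi.single_eq_same, h t (Finset.mem_compl.1 ht) hT]
  · rw [Pi.single_eq_of_ne hT, map_zero, map_zero]

theorem KLeading_zero (X : Fin n → ((Fin n → ℕ) →₀ K) →ₗ[K] ((Fin n → ℕ) →₀ K))
    (T U : Finset (Fin n)) (w : (Fin n → ℕ) →₀ K) (m' : Fin n → ℕ)
    (h : ∀ t, t ∉ U → insert t U = T → X t w m' = 0) : kD X (Pi.single T w) U m' = 0 := by
  rw [KLeading_congr K X (fun _ => 0) T U w m' h, kD_apply, Finsupp.finsetSum_apply]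
  exact Finset.sum_eq_zero fun t _ => by rw [LinearMap.zero_apply, smul_zero, Finsupp.zero_apply]

/-- if `Y t` is the monomial operator up to terms that are larger for a translation invariant
order, then the ranks of `Y` are at least the monomial ranks. -/
theorem monoRank_le_of_leading {Ω : Type*} [LinearOrder Ω] (D : Finset (Fin n → ℕ))
    (Y : Fin n → ((Fin n → ℕ) →₀ K) →ₗ[K] ((Fin n → ℕ) →₀ K)) (key : (Fin n → ℕ) → Ω)
    (hkey : ∀ x y u, key x < key y → key (x + u) < key (y + u))
    (hY : ∀ t, ∀ m ∈ D, ∀ m', (Y t (Finsupp.single m 1) - monoX K D t (Finsupp.single m 1)) m' ≠ 0 →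
      key (up t m) < key m') (p j : ℕ) :
    monoRank K D p j ≤ kRank Y (monoG K D) p j := by
  classical
  let σ := {x : Finset (Fin n) × (Fin n → ℕ) // x.1.card = p ∧ x.2 ∈ D ∧ deg x.2 + p = j}
  haveI : Finite σ :=
    (((Set.finite_univ (α := Finset (Fin n))).prod D.finite_toSet).subset
      (t := {x : Finset (Fin n) × (Fin n → ℕ) | x.1.card = p ∧ x.2 ∈ D ∧ deg x.2 + p = j})
      fun x hx => ⟨Set.mem_univ _, hx.2.1⟩).to_subtype
  let e : σ → Finset (Fin n) → (Fin n → ℕ) →₀ K := fun s =>
    Pi.single s.1.1 (Finsupp.single s.1.2 1)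
  have he : kChains n (monoG K D) p j = Submodule.span K (Set.range e) := by
    rw [kChains_monoG_eq_span]
    congr 1
    ext f
    constructor
    · rintro ⟨T, m, h1, h2, h3, rfl⟩
      exact ⟨⟨(T, m), h1, h2, h3⟩, rfl⟩
    · rintro ⟨⟨⟨T, m⟩, h1, h2, h3⟩, rfl⟩
      exact ⟨T, m, h1, h2, h3, rfl⟩
  have F1 : ∀ (t : Fin n) (U : Finset (Fin n)) (m m' : Fin n → ℕ), t ∉ U →
      key (m' + KLeading_ind U) ≠ key (m + KLeading_ind (insert t U)) →
      monoX K D t (Finsupp.single m 1) m' = 0 := by
    intro t U m m' ht hk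
    rw [monoX_single]
    split_ifs
    · refine Finsupp.single_eq_of_ne fun h => hk ?_
      rw [h, KLeading_up ht]
    · rfl
  have F2 : ∀ (t : Fin n) (U : Finset (Fin n)), ∀ m ∈ D, ∀ m' : Fin n → ℕ, t ∉ U →
      key (m' + KLeading_ind U) ≤ key (m + KLeading_ind (insert t U)) →
      Y t (Finsupp.single m 1) m' = monoX K D t (Finsupp.single m 1) m' := by
    intro t U m hm m' ht hk
    by_contra hn
    have h1 := hkey _ _ (KLeading_ind U) (hY t m hm m' (by
      rw [Finsupp.sub_apply]
      exact sub_ne_zero.2 hn))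
    rw [KLeading_up ht] at h1
    exact absurd hk (not_le.2 h1)
  show finrank K (Submodule.map (kD (monoX K D)) (kChains n (monoG K D) p j)) ≤
    finrank K (Submodule.map (kD Y) (kChains n (monoG K D) p j))
  rw [he, Submodule.map_span, Submodule.map_span, ← Set.range_comp, ← Set.range_comp]
  refine finrank_span_le_of_leading _ _ (fun s : σ => key (s.1.2 + KLeading_ind s.1.1))
    (fun κ => KLeading_pi K fun U m' => key (m' + KLeading_ind U) = κ) (fun s => ?_)
    fun s κ hκ => ?_
  · funext U
    ext m'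
    rw [KLeading_pi_apply]
    split_ifs with hk
    · exact KLeading_congr K _ _ _ U _ m' fun t ht hT =>
        F2 t U _ s.2.2.1 m' ht (by rw [hT]; exact hk.le)
    · exact (KLeading_zero K _ _ U _ m' fun t ht hT =>
        F1 t U _ m' ht (by rw [hT]; exact hk)).symm
  · funext U
    ext m'
    rw [KLeading_pi_apply]
    split_ifs with hk
    · refine KLeading_zero K _ _ U _ m' fun t ht hT => ?_
      rw [F2 t U _ s.2.2.1 m' ht (by rw [hT, hk]; exact hκ.le)]
      exact F1 t U _ m' ht (by rw [hT, hk]; exact hκ.ne)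
    · rfl

end Crest.Agent.R181.MM
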