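import Crest.Agent.R181.MM.Defs

/-!
Row 181, module MM (Clements–Lindström and the lex-plus-powers Betti bound for monomial ideals).
-/

set_option autoImplicit false

namespace Crest.Agent.R181.MM

open Module

open Polynomial

/-- the distracted powers `∏_{k=1}^{j} (1 - ζ^k X)`. -/
noncomputable def dpow (ζ : ℂ) (j : ℕ) : ℂ[X] := ∏ k ∈ Finset.range j, (1 - C (ζ ^ (k + 1)) * X)

theorem dpow_succ (ζ : ℂ) (j : ℕ) : dpow ζ (j + 1) = dpow ζ j * (1 - C (ζ ^ (j + 1)) * X) := by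
  simp [dpow, Finset.prod_range_succ]

theorem dpow_order {e : ℕ} {ζ : ℂ} (hζ : IsPrimitiveRoot ζ e) (he : 0 < e) :
    dpow ζ e = 1 - X ^ e := by
  have hζ' : IsPrimitiveRoot (C ζ : ℂ[X]) e := hζ.map_of_injective C_injective
  have h1 := congrArg (Polynomial.eval (1 : ℂ[X]))
    (X_pow_sub_C_eq_prod (α := (X : ℂ[X])) (a := X ^ e) hζ' he rfl)
  rw [eval_sub, eval_pow, eval_X, one_pow, eval_C, eval_prod] at h1
  have h2 : ∏ i ∈ Finset.range e, eval (1 : ℂ[X]) (X - C ((C ζ : ℂ[X]) ^ i * X)) =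
      ∏ i ∈ Finset.range e, (1 - C (ζ ^ i) * X : ℂ[X]) := by
    refine Finset.prod_congr rfl fun i _ => ?_
    rw [eval_sub, eval_X, eval_C, C_pow]
  rw [h2] at h1
  have h3 := Finset.prod_range_succ (fun i => (1 - C (ζ ^ i) * X : ℂ[X])) e
  rw [Finset.prod_range_succ', hζ.pow_eq_one, pow_zero, ← h1] at h3
  have h4 : (1 - C (1 : ℂ) * X : ℂ[X]) ≠ 0 := by
    intro h
    have := congrArg (Polynomial.eval 0) h
    simp at this
  exact mul_right_cancel₀ h4 h3

theorem dpow_comp (ζ : ℂ) (j : ℕ) :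
    (dpow ζ j).comp (C ζ * X) * (1 - C ζ * X) = dpow ζ j * (1 - C (ζ ^ (j + 1)) * X) := by
  induction j with
  | zero => simp [dpow]
  | succ j ih =>
    have h : ((1 : ℂ[X]) - C (ζ ^ (j + 1)) * X).comp (C ζ * X) = 1 - C (ζ ^ (j + 1 + 1)) * X := by
      rw [sub_comp, one_comp, mul_comp, C_comp, X_comp, ← mul_assoc, ← C_mul, ← pow_succ]
    rw [dpow_succ, mul_comp, h, mul_right_comm, ih]

theorem dpow_eval_zero (ζ : ℂ) (j : ℕ) : (dpow ζ j).eval 0 = 1 := by
  induction j with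
  | zero => simp [dpow]
  | succ j ih => rw [dpow_succ, eval_mul, ih]; simp

/-- a combination of `r` of the distracted powers of index `< e` vanishing to order `r` at `0`
is trivial. -/
theorem dpow_comb_eq_zero {e : ℕ} {ζ : ℂ} (hζ : IsPrimitiveRoot ζ e) (S : Finset ℕ)
    (hS : ∀ j ∈ S, j < e) (μ : ℕ → ℂ) (h : (X : ℂ[X]) ^ S.card ∣ ∑ j ∈ S, C (μ j) * dpow ζ j) :
    ∀ j ∈ S, μ j = 0 := by
  induction S using Finset.induction_on generalizing μ with
  | empty => intro j hj; exact absurd hj (Finset.notMem_empty j)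
  | insert j0 T hj0 ih =>
    have he : e ≠ 0 := by
      have := hS j0 (Finset.mem_insert_self j0 T)
      omega
    have hζ0 : ζ ≠ 0 := hζ.ne_zero he
    rw [Finset.card_insert_of_notMem hj0] at h
    obtain ⟨f, hf⟩ : ∃ f : ℂ[X], f = ∑ j ∈ insert j0 T, C (μ j) * dpow ζ j := ⟨_, rfl⟩
    rw [← hf] at h
    have h1 : (X : ℂ[X]) ^ (T.card + 1) ∣ f.comp (C ζ * X) := by
      obtain ⟨g, hg⟩ := h
      rw [hg, mul_comp, pow_comp, X_comp, mul_pow]
      exact Dvd.dvd.mul_right (Dvd.intro_left _ rfl) _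
    have h2 : f - f.comp (C ζ * X) * (1 - C ζ * X) - C (ζ ^ (j0 + 1)) * X * f =
        X * ∑ j ∈ T, C (μ j * (ζ ^ (j + 1) - ζ ^ (j0 + 1))) * dpow ζ j := by
      have h3 : ∑ j ∈ T, C (μ j * (ζ ^ (j + 1) - ζ ^ (j0 + 1))) * dpow ζ j =
          ∑ j ∈ insert j0 T, C (μ j * (ζ ^ (j + 1) - ζ ^ (j0 + 1))) * dpow ζ j := by
        rw [Finset.sum_insert hj0, sub_self, mul_zero, C_0, zero_mul, zero_add]
      rw [h3, hf, Polynomial.sum_comp, Finset.sum_mul, Finset.mul_sum, Finset.mul_sum,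
        ← Finset.sum_sub_distrib, ← Finset.sum_sub_distrib]
      refine Finset.sum_congr rfl fun j _ => ?_
      rw [mul_comp, C_comp, mul_assoc, dpow_comp, C_mul, C_sub]
      ring
    have h4 : (X : ℂ[X]) ^ (T.card + 1) ∣
        X * ∑ j ∈ T, C (μ j * (ζ ^ (j + 1) - ζ ^ (j0 + 1))) * dpow ζ j := by
      rw [← h2]
      exact dvd_sub (dvd_sub h (h1.mul_right _)) (h.mul_left _)
    rw [pow_succ', mul_dvd_mul_iff_left X_ne_zero] at h4
    have h5 := ih (fun j hj => hS j (Finset.mem_insert_of_mem hj))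
      (fun j => μ j * (ζ ^ (j + 1) - ζ ^ (j0 + 1))) h4
    have h6 : ∀ j ∈ T, μ j = 0 := by
      intro j hj
      rcases mul_eq_zero.1 (h5 j hj) with h7 | h7
      · exact h7
      · exfalso
        rw [sub_eq_zero, pow_succ, pow_succ] at h7
        have h8 := hζ.pow_inj (hS j (Finset.mem_insert_of_mem hj))
          (hS j0 (Finset.mem_insert_self j0 T)) (mul_right_cancel₀ hζ0 h7)
        exact hj0 (h8 ▸ hj)
    have h7 : μ j0 = 0 := by
      have h8 : f = C (μ j0) * dpow ζ j0 := by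
        rw [hf, Finset.sum_insert hj0, Finset.sum_eq_zero, add_zero]
        intro j hj
        rw [h6 j hj, C_0, zero_mul]
      obtain ⟨g, hg⟩ := h
      have h9 := congrArg (Polynomial.eval 0) (h8.symm.trans hg)
      rw [eval_mul, eval_C, dpow_eval_zero, mul_one, eval_mul, eval_pow, eval_X,
        zero_pow (Nat.succ_ne_zero _), zero_mul] at h9
      exact h9
    intro j hj
    rcases Finset.mem_insert.1 hj with h8 | h8
    · rw [h8, h7]
    · exact h6 j h8

/-- coordinates of `X ^ l` in the basis `dpow ζ j`. -/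
noncomputable def gam (ζ : ℂ) : ℕ → ℕ → ℂ
  | 0, j => if j = 0 then 1 else 0
  | l + 1, 0 => (ζ ^ 1)⁻¹ * gam ζ l 0
  | l + 1, j + 1 => (ζ ^ (j + 2))⁻¹ * gam ζ l (j + 1) - (ζ ^ (j + 1))⁻¹ * gam ζ l j

theorem gam_of_lt (ζ : ℂ) {l j : ℕ} (h : l < j) : gam ζ l j = 0 := by
  induction l generalizing j with
  | zero => rw [gam, if_neg (by omega)]
  | succ l ih =>
    obtain ⟨j, rfl⟩ : ∃ k, j = k + 1 := ⟨j - 1, by omega⟩
    rw [gam, ih (by omega), ih (by omega), mul_zero, mul_zero, sub_zero]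

theorem X_pow_eq_sum_gam {ζ : ℂ} (hζ : ζ ≠ 0) (l : ℕ) :
    (X : ℂ[X]) ^ l = ∑ j ∈ Finset.range (l + 1), C (gam ζ l j) * dpow ζ j := by
  induction l with
  | zero => simp [gam, dpow]
  | succ l ih =>
    have h1 : ∀ j : ℕ, X * dpow ζ j = C ((ζ ^ (j + 1))⁻¹) * (dpow ζ j - dpow ζ (j + 1)) := by
      intro j
      have h2 : C ((ζ ^ (j + 1))⁻¹) * C (ζ ^ (j + 1)) = (1 : ℂ[X]) := by
        rw [← C_mul, inv_mul_cancel₀ (pow_ne_zero _ hζ), C_1]
      rw [dpow_succ]
      linear_combination (-(X * dpow ζ j)) * h2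
    have h2 : ∑ j ∈ Finset.range (l + 1), C ((ζ ^ (j + 1))⁻¹ * gam ζ l j) * dpow ζ j =
        ∑ j ∈ Finset.range (l + 1), C ((ζ ^ (j + 2))⁻¹ * gam ζ l (j + 1)) * dpow ζ (j + 1) +
          C ((ζ ^ 1)⁻¹ * gam ζ l 0) * dpow ζ 0 := by
      have h3 := Finset.sum_range_succ (fun j => C ((ζ ^ (j + 1))⁻¹ * gam ζ l j) * dpow ζ j) (l + 1)
      rw [Finset.sum_range_succ', gam_of_lt ζ (Nat.lt_succ_self l), mul_zero, C_0, zero_mul,
        add_zero] at h3
      exact h3.symm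
    have h3 : (X : ℂ[X]) ^ (l + 1) =
        ∑ j ∈ Finset.range (l + 1), C ((ζ ^ (j + 1))⁻¹ * gam ζ l j) * dpow ζ j -
          ∑ j ∈ Finset.range (l + 1), C ((ζ ^ (j + 1))⁻¹ * gam ζ l j) * dpow ζ (j + 1) := by
      rw [pow_succ', ih, Finset.mul_sum, ← Finset.sum_sub_distrib]
      refine Finset.sum_congr rfl fun j _ => ?_
      rw [mul_left_comm, h1, C_mul]
      ring
    rw [h3, h2, Finset.sum_range_succ' _ (l + 1), add_sub_right_comm, ← Finset.sum_sub_distrib]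
    congr 1
    refine Finset.sum_congr rfl fun j _ => ?_
    rw [gam, C_sub, sub_mul]

theorem gam_order {e : ℕ} {ζ : ℂ} (hζ : IsPrimitiveRoot ζ e) {j : ℕ} (h0 : 0 < j) (hj : j < e) :
    gam ζ e j = 0 := by
  have he : 0 < e := by omega
  have hζ0 : ζ ≠ 0 := hζ.ne_zero he.ne'
  have h1 := X_pow_eq_sum_gam hζ0 e
  rw [Finset.sum_range_succ, dpow_order hζ he] at h1
  have h2 : ∑ i ∈ Finset.range e, C (gam ζ e i + if i = 0 then gam ζ e e else 0) * dpow ζ i =
      X ^ e * (1 + C (gam ζ e e)) := by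
    have h3 : ∑ i ∈ Finset.range e, C (if i = 0 then gam ζ e e else 0) * dpow ζ i =
        C (gam ζ e e) := by
      rw [Finset.sum_eq_single_of_mem 0 (Finset.mem_range.2 he)]
      · simp [dpow]
      · intro i _ hi
        rw [if_neg hi, C_0, zero_mul]
    simp only [C_add, add_mul, Finset.sum_add_distrib]
    rw [h3]
    linear_combination -h1
  have h3 := dpow_comb_eq_zero hζ (Finset.range e) (fun i hi => Finset.mem_range.1 hi)
    (fun i => gam ζ e i + if i = 0 then gam ζ e e else 0)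
    (by rw [Finset.card_range, h2]; exact Dvd.intro _ rfl) j (Finset.mem_range.2 hj)
  rw [if_neg h0.ne', add_zero] at h3
  exact h3

/-- the square matrix `gam l j`, `l` among the top `c` values `≤ τ`, `j ∈ S`, is invertible. -/
theorem gam_top_injective {e : ℕ} {ζ : ℂ} (hζ : IsPrimitiveRoot ζ e) {τ : ℕ} (hτ : τ < e)
    (S : Finset ℕ) (hS : ∀ j ∈ S, j ≤ τ) (lam : ℕ → ℂ)
    (h : ∀ j ∈ S, ∑ l ∈ (Finset.range (τ + 1)).filter (fun l => τ < l + S.card),
      lam l * gam ζ l j = 0) :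
    ∀ l, l ≤ τ → τ < l + S.card → lam l = 0 := by
  have hζ0 : ζ ≠ 0 := hζ.ne_zero (by omega)
  obtain ⟨L, hL⟩ : ∃ L : Finset ℕ,
      L = (Finset.range (τ + 1)).filter (fun l => τ < l + S.card) := ⟨_, rfl⟩
  rw [← hL] at h
  have hmem : ∀ l, l ∈ L ↔ l ≤ τ ∧ τ < l + S.card := by
    intro l
    rw [hL, Finset.mem_filter, Finset.mem_range, Nat.lt_succ_iff]
  have hsub : S ⊆ Finset.range (τ + 1) := fun j hj =>
    Finset.mem_range.2 (Nat.lt_succ_of_le (hS j hj))
  have h1 : ∀ l ∈ L, (X : ℂ[X]) ^ l = ∑ j ∈ Finset.range (τ + 1), C (gam ζ l j) * dpow ζ j := by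
    intro l hl
    rw [X_pow_eq_sum_gam hζ0 l]
    refine Finset.sum_subset (Finset.range_subset_range.2 (by have := ((hmem l).1 hl).1; omega))
      fun j _ hj => ?_
    rw [gam_of_lt ζ (by rw [Finset.mem_range] at hj; omega), C_0, zero_mul]
  have h2 : ∑ l ∈ L, C (lam l) * (X : ℂ[X]) ^ l =
      ∑ j ∈ Finset.range (τ + 1) \ S, C (∑ l ∈ L, lam l * gam ζ l j) * dpow ζ j := by
    rw [Finset.sum_subset Finset.sdiff_subset (fun j hj hj' => by
      have hjS : j ∈ S := by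
        by_contra hc
        exact hj' (Finset.mem_sdiff.2 ⟨hj, hc⟩)
      rw [h j hjS, C_0, zero_mul])]
    rw [Finset.sum_congr rfl fun l hl => by rw [h1 l hl, Finset.mul_sum], Finset.sum_comm]
    refine Finset.sum_congr rfl fun j _ => ?_
    rw [map_sum, Finset.sum_mul]
    refine Finset.sum_congr rfl fun l _ => ?_
    rw [C_mul, mul_assoc]
  have h3 := dpow_comb_eq_zero hζ (Finset.range (τ + 1) \ S)
    (fun j hj => by
      have := Finset.mem_range.1 (Finset.mem_sdiff.1 hj).1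
      omega)
    (fun j => ∑ l ∈ L, lam l * gam ζ l j)
    (by
      rw [← h2, Finset.card_sdiff_of_subset hsub, Finset.card_range]
      refine Finset.dvd_sum fun l hl => Dvd.dvd.mul_left (pow_dvd_pow _ ?_) _
      have := ((hmem l).1 hl).2
      omega)
  have h4 : ∑ l ∈ L, C (lam l) * (X : ℂ[X]) ^ l = 0 := by
    rw [h2]
    refine Finset.sum_eq_zero fun j hj => ?_
    rw [h3 j hj, C_0, zero_mul]
  intro l hl1 hl2
  have h5 := congrArg (fun p : ℂ[X] => p.coeff l) h4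
  simp only [finsetSum_coeff, coeff_C_mul_X_pow, coeff_zero] at h5
  rw [Finset.sum_ite_eq, if_pos ((hmem l).2 ⟨hl1, hl2⟩)] at h5
  exact h5

end Crest.Agent.R181.MM
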