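import Crest.Agent.R181.MM.KTheta
import Crest.Agent.R181.MM.KLeading
import Crest.Agent.R181.MM.Compress
import Crest.Agent.R181.MM.Order

/-!
Row 181, module MM (Clements–Lindström and the lex-plus-powers Betti bound for monomial ideals).
-/

set_option autoImplicit false

namespace Crest.Agent.R181.MM

open Module

variable {n : ℕ}

namespace Distract

/-- the point of the `(i, b)`-line through `m` with `b`-exponent `j`. -/
def mv (i b : Fin n) (m : Fin n → ℕ) (j : ℕ) : Fin n → ℕ :=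
  fun t => if t = b then j else if t = i then m i + m b - j else m t

theorem mv_b (i b : Fin n) (m : Fin n → ℕ) (j : ℕ) : mv i b m j b = j := by simp [mv]

theorem mv_i {i b : Fin n} (hib : i ≠ b) (m : Fin n → ℕ) (j : ℕ) :
    mv i b m j i = m i + m b - j := by simp [mv, hib]

theorem mv_other {i b t : Fin n} (hi : t ≠ i) (hb : t ≠ b) (m : Fin n → ℕ) (j : ℕ) :
    mv i b m j t = m t := by simp [mv, hi, hb]

theorem up_self (t : Fin n) (m : Fin n → ℕ) : up t m t = m t + 1 := by simp [up]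

theorem up_ne {t s : Fin n} (h : s ≠ t) (m : Fin n → ℕ) : up t m s = m s := by
  simp [up, Pi.single_eq_of_ne h]

theorem onLine_mv {i b : Fin n} (hib : i ≠ b) (m : Fin n → ℕ) {j : ℕ} (hj : j ≤ m i + m b) :
    OnLine i b m (mv i b m j) := by
  refine ⟨fun t hi hb => mv_other hi hb m j, ?_⟩
  rw [mv_i hib, mv_b]; omega

theorem mv_of_onLine {i b : Fin n} (hib : i ≠ b) {m u : Fin n → ℕ} (h : OnLine i b m u) :
    mv i b m (u b) = u := by
  funext t
  by_cases hb : t = b
  · subst hb; exact mv_b _ _ _ _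
  by_cases hi : t = i
  · subst hi; rw [mv_i hib]; have := h.2; omega
  · rw [mv_other hi hb, h.1 t hi hb]

theorem onLine_refl (i b : Fin n) (m : Fin n → ℕ) : OnLine i b m m := ⟨fun _ _ _ => rfl, rfl⟩

theorem onLine_symm {i b : Fin n} {m u : Fin n → ℕ} (h : OnLine i b m u) : OnLine i b u m :=
  ⟨fun t hi hb => (h.1 t hi hb).symm, h.2.symm⟩

theorem onLine_trans {i b : Fin n} {m u x : Fin n → ℕ} (h : OnLine i b m u) (h' : OnLine i b u x) :
    OnLine i b m x :=
  ⟨fun t hi hb => (h'.1 t hi hb).trans (h.1 t hi hb), h'.2.trans h.2⟩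

theorem line_congr {i b : Fin n} (D : Finset (Fin n → ℕ)) {m u : Fin n → ℕ} (h : OnLine i b m u) :
    line i b D u = line i b D m := by
  ext x
  simp only [line, Finset.mem_filter]
  exact and_congr_right fun _ => ⟨fun h' => onLine_trans h h', fun h' => onLine_trans (onLine_symm h) h'⟩

theorem mem_line {i b : Fin n} {D : Finset (Fin n → ℕ)} {m u : Fin n → ℕ} :
    u ∈ line i b D m ↔ u ∈ D ∧ OnLine i b m u := by simp [line]

theorem deg_of_onLine {i b : Fin n} (hib : i ≠ b) {m u : Fin n → ℕ} (h : OnLine i b m u) :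
    deg u = deg m := by
  unfold deg
  have key : ∀ x : Fin n → ℕ, ∑ t, x t = x i + x b + ∑ t ∈ (Finset.univ.erase i).erase b, x t := by
    intro x
    rw [← Finset.add_sum_erase _ _ (Finset.mem_univ i),
      ← Finset.add_sum_erase _ _ (show b ∈ Finset.univ.erase i by simp [hib.symm]), add_assoc]
  rw [key u, key m, h.2]
  congr 1
  refine Finset.sum_congr rfl fun t ht => ?_
  simp only [Finset.mem_erase] at ht
  exact h.1 t ht.2.1 ht.1

theorem mv_up_other {i b t : Fin n} (hi : t ≠ i) (hb : t ≠ b) (m : Fin n → ℕ) (j : ℕ) :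
    mv i b (up t m) j = up t (mv i b m j) := by
  funext s
  by_cases hs : s = t
  · subst hs; rw [up_self, mv_other hi hb, mv_other hi hb, up_self]
  · rw [up_ne hs]
    simp only [mv, up_ne hi.symm, up_ne hb.symm, up_ne hs]

theorem mv_up_i {i b : Fin n} (hib : i ≠ b) (m : Fin n → ℕ) {j : ℕ} (hj : j ≤ m b) :
    mv i b (up i m) j = up i (mv i b m j) := by
  funext s
  by_cases hs : s = i
  · subst hs; rw [up_self, mv_i hib, mv_i hib, up_self, up_ne hib.symm]; omega
  · rw [up_ne hs]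
    simp only [mv, hs, if_false, up_ne hs]

theorem mv_up_b {i b : Fin n} (hib : i ≠ b) (m : Fin n → ℕ) {j : ℕ} (hj : j ≤ m b) :
    mv i b (up b m) j = up i (mv i b m j) := by
  funext s
  by_cases hs : s = i
  · subst hs; rw [up_self, mv_i hib, mv_i hib, up_self, up_ne hib]; omega
  · rw [up_ne hs]
    by_cases hb : s = b
    · subst hb; rw [mv_b, mv_b]
    · rw [mv_other hs hb, mv_other hs hb, up_ne hb]

theorem mv_up_b' {i b : Fin n} (hib : i ≠ b) (m : Fin n → ℕ) (j : ℕ) :
    mv i b (up b m) (j + 1) = up b (mv i b m j) := by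
  funext s
  by_cases hb : s = b
  · subst hb; rw [up_self, mv_b, mv_b]
  · rw [up_ne hb]
    by_cases hs : s = i
    · subst hs; rw [mv_i hib, mv_i hib, up_self, up_ne hib]; omega
    · rw [mv_other hs hb, mv_other hs hb, up_ne hb]

/-- basis vector of the monomial module (zero outside `D`). -/
noncomputable def bas (D : Finset (Fin n → ℕ)) (x : Fin n → ℕ) : (Fin n → ℕ) →₀ ℂ :=
  if x ∈ D then Finsupp.single x 1 else 0

theorem monoX_bas {D : Finset (Fin n → ℕ)} (hd : Down D) (t : Fin n) (x : Fin n → ℕ) :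
    monoX ℂ D t (bas D x) = bas D (up t x) := by
  unfold bas
  by_cases hx : x ∈ D
  · rw [if_pos hx, monoX_single]
  · rw [if_neg hx, map_zero, if_neg fun h => hx (hd _ h _ (le_up t x))]

/-- the diagonal operator with eigenvalue `ζ^{-(j+1)}` on monomials with `b`-exponent `j`. -/
noncomputable def th (ζ : ℂ) (b : Fin n) : ((Fin n → ℕ) →₀ ℂ) →ₗ[ℂ] ((Fin n → ℕ) →₀ ℂ) :=
  Finsupp.linearCombination ℂ fun m => Finsupp.single m (ζ ^ (m b + 1))⁻¹

theorem th_single (ζ : ℂ) (b : Fin n) (m : Fin n → ℕ) (c : ℂ) :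
    th ζ b (Finsupp.single m c) = Finsupp.single m (c * (ζ ^ (m b + 1))⁻¹) := by
  simp [th]

theorem th_apply (ζ : ℂ) (b : Fin n) (v : (Fin n → ℕ) →₀ ℂ) (m : Fin n → ℕ) :
    th ζ b v m = v m * (ζ ^ (m b + 1))⁻¹ := by
  induction v using Finsupp.induction_linear with
  | zero => simp
  | add f g hf hg => simp [hf, hg, add_mul]
  | single x c =>
    rw [th_single]
    by_cases h : x = m
    · subst h; simp
    · simp [Finsupp.single_eq_of_ne' h]

theorem th_bas (ζ : ℂ) (b : Fin n) (D : Finset (Fin n → ℕ)) (x : Fin n → ℕ) :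
    th ζ b (bas D x) = (ζ ^ (x b + 1))⁻¹ • bas D x := by
  unfold bas
  by_cases hx : x ∈ D
  · simp [hx, th_single]
  · simp [hx]

theorem th_mem (ζ : ℂ) (b : Fin n) (D : Finset (Fin n → ℕ)) (e : ℕ) :
    ∀ v ∈ monoG ℂ D e, th ζ b v ∈ monoG ℂ D e := by
  intro v hv
  unfold monoG at hv ⊢
  rw [Finsupp.mem_supported] at hv ⊢
  intro m hm
  apply hv
  simp only [Finset.mem_coe, Finsupp.mem_support_iff, th_apply] at hm ⊢
  exact left_ne_zero_of_mul hm

theorem th_injective {ζ : ℂ} (hζ : ζ ≠ 0) (b : Fin n) : Function.Injective (th (n := n) ζ b) := by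
  rw [injective_iff_map_eq_zero]
  intro v hv
  ext m
  have h := th_apply ζ b v m
  rw [hv] at h
  have h2 : (ζ ^ (m b + 1))⁻¹ ≠ 0 := inv_ne_zero (pow_ne_zero _ hζ)
  exact (mul_eq_zero.1 h.symm).resolve_right h2

theorem th_monoX (ζ : ℂ) {b t : Fin n} (ht : t ≠ b) (D : Finset (Fin n → ℕ))
    (v : (Fin n → ℕ) →₀ ℂ) : th ζ b (monoX ℂ D t v) = monoX ℂ D t (th ζ b v) := by
  induction v using Finsupp.induction_linear with
  | zero => simp
  | add f g hf hg => simp [hf, hg]
  | single x c =>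
    rw [th_single, monoX_single, monoX_single]
    split_ifs
    · rw [th_single, up_ne ht.symm]
    · simp

/-- the operators of the distracted module. -/
noncomputable def Xd (ζ : ℂ) (i b : Fin n) (D : Finset (Fin n → ℕ)) (t : Fin n) :
    ((Fin n → ℕ) →₀ ℂ) →ₗ[ℂ] ((Fin n → ℕ) →₀ ℂ) :=
  if t = b then monoX ℂ D i ∘ₗ th ζ b + monoX ℂ D b ∘ₗ (-th ζ b) else monoX ℂ D t

theorem kRank_Xd_le {ζ : ℂ} (hζ : ζ ≠ 0) {i b : Fin n} (hib : i ≠ b) (D : Finset (Fin n → ℕ))
    (p j : ℕ) : kRank (Xd ζ i b D) (monoG ℂ D) p j ≤ monoRank ℂ D p j := by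
  refine kRank_theta (monoX ℂ D) (Xd ζ i b D) (monoG ℂ D) (finite_monoG ℂ D) i b hib (th ζ b)
    (-th ζ b) (th_mem ζ b D) (fun e v hv => ?_) ?_ (fun t ht v => th_monoX ζ ht D v)
    (fun t ht v => ?_) (fun t ht => ?_) (fun v => ?_) p j
  · exact Submodule.neg_mem _ (th_mem ζ b D e v hv)
  · intro v w h
    exact th_injective hζ b (neg_injective h)
  · simp [th_monoX ζ ht D v]
  · simp [Xd, ht]
  · simp [Xd]

/-- the image of a monomial in the distracted module. -/
noncomputable def ph (ζ : ℂ) (i b : Fin n) (D : Finset (Fin n → ℕ)) :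
    ((Fin n → ℕ) →₀ ℂ) →ₗ[ℂ] ((Fin n → ℕ) →₀ ℂ) :=
  Finsupp.linearCombination ℂ fun m =>
    ∑ j ∈ Finset.range (m b + 1), gam ζ (m b) j • bas D (mv i b m j)

theorem ph_single (ζ : ℂ) (i b : Fin n) (D : Finset (Fin n → ℕ)) (m : Fin n → ℕ) :
    ph ζ i b D (Finsupp.single m 1) =
      ∑ j ∈ Finset.range (m b + 1), gam ζ (m b) j • bas D (mv i b m j) := by
  simp [ph]

theorem sum_gam_succ {M : Type*} [AddCommGroup M] [Module ℂ M] (ζ : ℂ) (l : ℕ) (E : ℕ → M) :
    ∑ j ∈ Finset.range (l + 1 + 1), gam ζ (l + 1) j • E j =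
      ∑ j ∈ Finset.range (l + 1), gam ζ l j • ((ζ ^ (j + 1))⁻¹ • (E j - E (j + 1))) := by
  have h1 : ∑ j ∈ Finset.range (l + 1), gam ζ l j • ((ζ ^ (j + 1))⁻¹ • (E j - E (j + 1))) =
      ∑ j ∈ Finset.range (l + 1), ((ζ ^ (j + 1))⁻¹ * gam ζ l j) • E j -
        ∑ j ∈ Finset.range (l + 1), ((ζ ^ (j + 1))⁻¹ * gam ζ l j) • E (j + 1) := by
    rw [← Finset.sum_sub_distrib]
    refine Finset.sum_congr rfl fun j _ => ?_
    rw [smul_smul, mul_comm, smul_sub]
  have h2 : ∑ j ∈ Finset.range (l + 1), ((ζ ^ (j + 1))⁻¹ * gam ζ l j) • E j =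
      ∑ j ∈ Finset.range (l + 1 + 1), ((ζ ^ (j + 1))⁻¹ * gam ζ l j) • E j := by
    rw [Finset.sum_range_succ _ (l + 1), gam_of_lt ζ (Nat.lt_succ_self l)]
    simp
  rw [h1, h2, Finset.sum_range_succ' _ (l + 1), Finset.sum_range_succ' _ (l + 1)]
  have h3 : ∀ j, gam ζ (l + 1) (j + 1) =
      (ζ ^ (j + 1 + 1))⁻¹ * gam ζ l (j + 1) - (ζ ^ (j + 1))⁻¹ * gam ζ l j := fun j => rfl
  have h4 : gam ζ (l + 1) 0 = (ζ ^ (0 + 1))⁻¹ * gam ζ l 0 := rfl
  simp only [h3, h4, sub_smul, Finset.sum_sub_distrib]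
  abel

theorem ph_up {ζ : ℂ} {i b : Fin n} (hib : i ≠ b) {D : Finset (Fin n → ℕ)} (hd : Down D)
    (t : Fin n) (m : Fin n → ℕ) :
    Xd ζ i b D t (ph ζ i b D (Finsupp.single m 1)) = ph ζ i b D (Finsupp.single (up t m) 1) := by
  rw [ph_single, ph_single, map_sum]
  by_cases hb : t = b
  · subst hb
    rw [up_self, sum_gam_succ]
    refine Finset.sum_congr rfl fun j hj => ?_
    have hj' : j ≤ m t := Nat.lt_succ_iff.1 (Finset.mem_range.1 hj)
    rw [map_smul]
    congr 1
    simp only [Xd, if_true, LinearMap.add_apply, LinearMap.comp_apply, LinearMap.neg_apply, th_bas,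
      map_neg, map_smul, monoX_bas hd, mv_b]
    rw [mv_up_b hib m hj', mv_up_b' hib m j, smul_sub, sub_eq_add_neg]
  · rw [up_ne (Ne.symm hb)]
    refine Finset.sum_congr rfl fun j hj => ?_
    have hj' : j ≤ m b := Nat.lt_succ_iff.1 (Finset.mem_range.1 hj)
    rw [map_smul]
    congr 1
    simp only [Xd, if_neg hb, monoX_bas hd]
    by_cases hi : t = i
    · subst hi; rw [mv_up_i hib m hj']
    · rw [mv_up_other hi hb]

theorem ph_single_apply {ζ : ℂ} {i b : Fin n} (hib : i ≠ b) (D : Finset (Fin n → ℕ))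
    (u x : Fin n → ℕ) :
    ph ζ i b D (Finsupp.single u 1) x =
      if x ∈ D ∧ OnLine i b u x then gam ζ (u b) (x b) else 0 := by
  rw [ph_single, Finsupp.finsetSum_apply]
  have hterm : ∀ j, (gam ζ (u b) j • bas D (mv i b u j)) x =
      if x ∈ D ∧ mv i b u j = x then gam ζ (u b) j else 0 := by
    intro j
    unfold bas
    by_cases h : mv i b u j = x
    · subst h
      by_cases hx : mv i b u j ∈ D <;> simp [hx]
    · by_cases hx : mv i b u j ∈ D
      · simp [hx, h, Finsupp.single_eq_of_ne' h]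
      · simp [hx, h]
  simp only [hterm]
  by_cases h : x ∈ D ∧ OnLine i b u x
  · rw [if_pos h]
    by_cases hle : x b ≤ u b
    · rw [Finset.sum_eq_single (x b)]
      · rw [if_pos ⟨h.1, mv_of_onLine hib h.2⟩]
      · intro j _ hj
        rw [if_neg]
        rintro ⟨_, h2⟩
        exact hj (by rw [← h2, mv_b])
      · intro h2
        exact absurd (Finset.mem_range.2 (Nat.lt_succ_of_le hle)) h2
    · rw [gam_of_lt ζ (not_le.1 hle)]
      refine Finset.sum_eq_zero fun j hj => ?_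
      rw [if_neg]
      rintro ⟨_, h2⟩
      apply hle
      rw [← h2, mv_b]
      exact Nat.lt_succ_iff.1 (Finset.mem_range.1 hj)
  · rw [if_neg h]
    refine Finset.sum_eq_zero fun j hj => ?_
    rw [if_neg]
    rintro ⟨h1, h2⟩
    apply h
    refine ⟨h1, ?_⟩
    rw [← h2]
    have := Nat.lt_succ_iff.1 (Finset.mem_range.1 hj)
    exact onLine_mv hib u (by omega)

theorem ph_apply {ζ : ℂ} {i b : Fin n} (hib : i ≠ b) (D : Finset (Fin n → ℕ))
    (v : (Fin n → ℕ) →₀ ℂ) (x : Fin n → ℕ) :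
    ph ζ i b D v x = ∑ u ∈ v.support,
      v u * if x ∈ D ∧ OnLine i b u x then gam ζ (u b) (x b) else 0 := by
  conv_lhs => rw [← Finsupp.sum_single v]
  rw [Finsupp.sum, map_sum, Finsupp.finsetSum_apply]
  refine Finset.sum_congr rfl fun u _ => ?_
  rw [← ph_single_apply hib, ← Finsupp.smul_single_one, map_smul, Finsupp.smul_apply, smul_eq_mul]

theorem ph_ne_zero {ζ : ℂ} {i b : Fin n} (hib : i ≠ b) {D : Finset (Fin n → ℕ)}
    {v : (Fin n → ℕ) →₀ ℂ} {x : Fin n → ℕ} (h : ph ζ i b D v x ≠ 0) :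
    x ∈ D ∧ ∃ u ∈ v.support, OnLine i b u x := by
  rw [ph_apply hib] at h
  obtain ⟨u, hu, h2⟩ := Finset.exists_ne_zero_of_sum_ne_zero h
  have h3 : x ∈ D ∧ OnLine i b u x := by
    by_contra h4
    rw [if_neg h4, mul_zero] at h2
    exact h2 rfl
  exact ⟨h3.1, u, hu, h3.2⟩

theorem ph_mem {ζ : ℂ} {i b : Fin n} (hib : i ≠ b) (D C : Finset (Fin n → ℕ)) (e : ℕ) :
    ∀ v ∈ monoG ℂ C e, ph ζ i b D v ∈ monoG ℂ D e := by
  intro v hv
  unfold monoG at hv ⊢
  rw [Finsupp.mem_supported] at hv ⊢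
  intro x hx
  obtain ⟨h1, u, hu, h2⟩ := ph_ne_zero hib (Finsupp.mem_support_iff.1 hx)
  have h3 := mem_lay.1 (hv hu)
  exact mem_lay.2 ⟨h1, (deg_of_onLine hib h2).trans h3.2⟩

theorem mem_compress {a : Fin n → ℕ} {i b : Fin n} {D : Finset (Fin n → ℕ)} {m : Fin n → ℕ} :
    m ∈ compress a i b D ↔
      m ∈ box a ∧ min (m i + m b) (a b - 1) < m b + (line i b D m).card := by
  simp only [compress, Finset.mem_filter]

theorem injOn_line {i b : Fin n} (hib : i ≠ b) (D : Finset (Fin n → ℕ)) (m : Fin n → ℕ) :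
    Set.InjOn (fun u : Fin n → ℕ => u b) (line i b D m : Set (Fin n → ℕ)) := by
  intro u hu u' hu' h
  have h1 := mv_of_onLine hib (mem_line.1 hu).2
  have h2 := mv_of_onLine hib (mem_line.1 hu').2
  have h' : u b = u' b := h
  rw [← h1, ← h2, h']

theorem ph_injOn {a : Fin n → ℕ} {i b : Fin n} (hib : i ≠ b) {ζ : ℂ}
    (hζ : IsPrimitiveRoot ζ (a b)) {D : Finset (Fin n → ℕ)} (hD : D ⊆ box a)
    {v : (Fin n → ℕ) →₀ ℂ} (hv : ∀ u ∈ v.support, u ∈ compress a i b D)
    (h0 : ph ζ i b D v = 0) : v = 0 := by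
  classical
  ext m
  by_contra hm
  have hmC := hv m (Finsupp.mem_support_iff.2 hm)
  obtain ⟨hmb, hm2⟩ := mem_compress.1 hmC
  have hmb' := mem_box.1 hmb b
  set τ := min (m i + m b) (a b - 1) with hτ
  set S := (line i b D m).image fun u => u b with hS
  have hScard : S.card = (line i b D m).card := Finset.card_image_of_injOn (injOn_line hib D m)
  have hτe : τ < a b := by omega
  have hle : ∀ u ∈ box a, OnLine i b m u → u b ≤ τ := by
    intro u hu h
    have h1 := mem_box.1 hu b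
    have h2 := h.2
    omega
  have hSτ : ∀ j ∈ S, j ≤ τ := by
    intro j hj
    obtain ⟨u, hu, rfl⟩ := Finset.mem_image.1 hj
    exact hle u (hD (mem_line.1 hu).1) (mem_line.1 hu).2
  set F := (Finset.range (τ + 1)).filter (fun l => τ < l + S.card) with hF
  have hsub : ((line i b (compress a i b D) m).image fun u => u b) ⊆ F := by
    intro l hl
    obtain ⟨u, hu, rfl⟩ := Finset.mem_image.1 hl
    obtain ⟨hu1, hu2⟩ := mem_line.1 hu
    obtain ⟨hu3, hu4⟩ := mem_compress.1 hu1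
    rw [line_congr D hu2, hu2.2, ← hScard] at hu4
    exact Finset.mem_filter.2 ⟨Finset.mem_range.2 (Nat.lt_succ_of_le (hle u hu3 hu2)), hu4⟩
  have hFcard : F.card ≤ S.card := by
    have : F ⊆ Finset.Ioc (τ - S.card) τ ∪ (if S.card ≤ τ then ∅ else {0}) := by
      intro l hl
      obtain ⟨h1, h2⟩ := Finset.mem_filter.1 hl
      have h1' := Finset.mem_range.1 h1
      rw [Finset.mem_union, Finset.mem_Ioc]
      split_ifs with h3
      · left; omega
      · by_cases h4 : l = 0
        · right; simp [h4]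
        · left; omega
    refine (Finset.card_le_card this).trans ((Finset.card_union_le _ _).trans ?_)
    rw [Nat.card_Ioc]
    split_ifs with h3
    · simp; omega
    · simp; omega
  have hEq : ((line i b (compress a i b D) m).image fun u => u b) = F := by
    refine Finset.eq_of_subset_of_card_le hsub ?_
    rw [Finset.card_image_of_injOn (injOn_line hib _ m), card_line_compress hib hD, ← hScard]
    exact hFcard
  have key := gam_top_injective hζ hτe S hSτ (fun l => v (mv i b m l)) (fun j hj => ?_) (m b)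
    (hle m hmb (onLine_refl i b m)) (by rw [hScard]; exact hm2)
  · rw [mv_of_onLine hib (onLine_refl i b m)] at key
    exact hm key
  · obtain ⟨x, hx, rfl⟩ := Finset.mem_image.1 hj
    obtain ⟨hx1, hx2⟩ := mem_line.1 hx
    rw [← hF, ← hEq, Finset.sum_image (injOn_line hib _ m)]
    have h1 := ph_apply (ζ := ζ) hib D v x
    rw [h0] at h1
    simp only [Finsupp.coe_zero, Pi.zero_apply] at h1
    rw [h1]
    have h2 : ∑ u ∈ line i b (compress a i b D) m, v (mv i b m (u b)) * gam ζ (u b) (x b) =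
        ∑ u ∈ line i b (compress a i b D) m,
          v u * if x ∈ D ∧ OnLine i b u x then gam ζ (u b) (x b) else 0 := by
      refine Finset.sum_congr rfl fun u hu => ?_
      have hu2 := (mem_line.1 hu).2
      rw [mv_of_onLine hib hu2, if_pos ⟨hx1, onLine_trans (onLine_symm hu2) hx2⟩]
    rw [h2]
    refine Finset.sum_congr_of_eq_on_inter ?_ ?_ fun _ _ _ => rfl
    · intro u _ hu
      rw [Finsupp.notMem_support_iff.1 hu, zero_mul]
    · intro u hu hu2
      rw [if_neg, mul_zero]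
      rintro ⟨_, h3⟩
      exact hu2 (mem_line.2 ⟨hv u hu, onLine_trans hx2 (onLine_symm h3)⟩)

theorem finrank_supported (s : Finset (Fin n → ℕ)) :
    finrank ℂ (Finsupp.supported ℂ ℂ (s : Set (Fin n → ℕ))) = s.card := by
  rw [(Finsupp.supportedEquivFinsupp (R := ℂ) (M := ℂ) (s : Set (Fin n → ℕ))).finrank_eq,
    Module.finrank_finsupp_self]
  simp

theorem finite_supported (s : Finset (Fin n → ℕ)) :
    Module.Finite ℂ (Finsupp.supported ℂ ℂ (s : Set (Fin n → ℕ))) :=
  Module.Finite.equiv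
    (Finsupp.supportedEquivFinsupp (R := ℂ) (M := ℂ) (s : Set (Fin n → ℕ))).symm

theorem exists_ph_eq {a : Fin n → ℕ} {i b : Fin n} (hib : i ≠ b) {ζ : ℂ}
    (hζ : IsPrimitiveRoot ζ (a b)) {D : Finset (Fin n → ℕ)} (hD : D ⊆ box a) (u : Fin n → ℕ) :
    ∃ w : (Fin n → ℕ) →₀ ℂ, (∀ x ∈ w.support, x ∈ line i b (compress a i b D) u) ∧
      ph ζ i b D w = ph ζ i b D (Finsupp.single u 1) := by
  set A := Finsupp.supported ℂ ℂ (line i b (compress a i b D) u : Set (Fin n → ℕ))
  set B := Finsupp.supported ℂ ℂ (line i b D u : Set (Fin n → ℕ))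
  have hAB : ∀ v ∈ A, ph ζ i b D v ∈ B := by
    intro v hv
    rw [Finsupp.mem_supported] at hv ⊢
    intro x hx
    obtain ⟨h1, y, hy, h2⟩ := ph_ne_zero hib (Finsupp.mem_support_iff.1 hx)
    exact mem_line.2 ⟨h1, onLine_trans (mem_line.1 (hv hy)).2 h2⟩
  have hu : ph ζ i b D (Finsupp.single u 1) ∈ B := by
    rw [Finsupp.mem_supported]
    intro x hx
    obtain ⟨h1, y, hy, h2⟩ := ph_ne_zero hib (Finsupp.mem_support_iff.1 hx)
    have : y = u := by
      have := Finsupp.support_single_subset hy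
      simpa using this
    subst this
    exact mem_line.2 ⟨h1, h2⟩
  have : Module.Finite ℂ A := finite_supported _
  have : Module.Finite ℂ B := finite_supported _
  let f : A →ₗ[ℂ] B := (ph ζ i b D).restrict hAB
  have hinj : Function.Injective f := by
    rw [injective_iff_map_eq_zero]
    intro v hv
    apply Subtype.ext
    refine ph_injOn hib hζ hD (fun x hx => ?_) (congrArg Subtype.val hv)
    exact (mem_line.1 ((Finsupp.mem_supported ℂ _).1 v.2 hx)).1
  have hfin : finrank ℂ A = finrank ℂ B := by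
    rw [finrank_supported, finrank_supported, card_line_compress hib hD]
  obtain ⟨w, hw⟩ := (LinearMap.injective_iff_surjective_of_finrank_eq_finrank hfin).1 hinj ⟨_, hu⟩
  exact ⟨w.1, fun x hx => (Finsupp.mem_supported ℂ _).1 w.2 hx, congrArg Subtype.val hw⟩

theorem ph_eq_zero_of_top {a : Fin n → ℕ} {i b : Fin n} (hib : i ≠ b) (hab : a i ≤ a b) {ζ : ℂ}
    (hζ : IsPrimitiveRoot ζ (a b)) {D : Finset (Fin n → ℕ)} (hD : D ⊆ box a) {u : Fin n → ℕ}
    (hu : u b = a b) : ph ζ i b D (Finsupp.single u 1) = 0 := by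
  ext x
  rw [ph_single_apply hib]
  split_ifs with h
  · have h1 := mem_box.1 (hD h.1) b
    have h2 := mem_box.1 (hD h.1) i
    have h3 := h.2.2
    rw [hu]
    exact gam_order hζ (by omega) h1
  · rfl

end Distract

open Distract in
/-- compression does not increase the Koszul ranks. -/
theorem monoRank_compress_le {a : Fin n → ℕ} {i b : Fin n} (hib : i ≠ b) (hab : a i ≤ a b)
    {D : Finset (Fin n → ℕ)} (hD : D ⊆ box a) (hd : Down D) (p j : ℕ) :
    monoRank ℂ (compress a i b D) p j ≤ monoRank ℂ D p j := by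
  by_cases he : a b = 0
  · refine monoRank_mono ℂ (fun m hm => ?_) p j
    have := mem_box.1 (compress_subset_box a i b D hm) b
    omega
  have hζ := Complex.isPrimitiveRoot_exp (a b) he
  set ζ := Complex.exp (2 * Real.pi * Complex.I / (a b : ℕ))
  have hζ0 : ζ ≠ 0 := hζ.ne_zero he
  set C := compress a i b D with hC
  set A := Finsupp.supported ℂ ℂ (C : Set (Fin n → ℕ))
  have hinj : LinearMap.ker (ph ζ i b D ∘ₗ A.subtype) = ⊥ := by
    rw [LinearMap.ker_eq_bot']
    intro v hv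
    apply Subtype.ext
    exact ph_injOn hib hζ hD (fun x hx => (Finsupp.mem_supported ℂ _).1 v.2 hx) hv
  obtain ⟨g, hg⟩ := LinearMap.exists_leftInverse_of_injective _ hinj
  let ψ := A.subtype ∘ₗ g
  have hψ : ∀ w : (Fin n → ℕ) →₀ ℂ, (∀ x ∈ w.support, x ∈ C) → ψ (ph ζ i b D w) = w := by
    intro w hw
    have h1 := LinearMap.congr_fun hg ⟨w, (Finsupp.mem_supported ℂ _).2 fun x hx => hw x hx⟩
    exact congrArg Subtype.val h1
  let Y : Fin n → ((Fin n → ℕ) →₀ ℂ) →ₗ[ℂ] ((Fin n → ℕ) →₀ ℂ) :=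
    fun t => ψ ∘ₗ Xd ζ i b D t ∘ₗ ph ζ i b D
  refine (monoRank_le_of_leading ℂ C Y (fun m => m b) (fun x y u h => ?_) (fun t m hm m' hm' => ?_)
    p j).trans ((kRank_le_of_comp Y (monoG ℂ C) (Xd ζ i b D) (monoG ℂ D) (finite_monoG ℂ D)
      (ph ζ i b D) ψ (ph_mem hib D C) (fun t e v _ => rfl) p j).trans (kRank_Xd_le hζ0 hib D p j))
  · simpa using h
  · have hY : Y t (Finsupp.single m 1) = ψ (ph ζ i b D (Finsupp.single (up t m) 1)) := by
      simp only [Y, LinearMap.comp_apply, ph_up hib hd]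
    rw [hY, monoX_single] at hm'
    by_cases hu : up t m ∈ C
    · rw [if_pos hu, hψ _ (fun x hx => by
        have := Finsupp.support_single_subset hx
        rw [Finset.mem_singleton.1 this]; exact hu), sub_self] at hm'
      exact absurd rfl hm'
    rw [if_neg hu, sub_zero] at hm'
    have hmb := mem_box.1 (compress_subset_box a i b D hm) b
    by_cases htop : up t m b = a b
    · rw [ph_eq_zero_of_top hib hab hζ hD htop, map_zero] at hm'
      exact absurd rfl hm'
    have hlt : up t m b < a b := by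
      by_cases htb : b = t
      · subst htb; rw [up_self] at htop ⊢; omega
      · rw [up_ne htb]; exact hmb
    obtain ⟨w, hw1, hw2⟩ := exists_ph_eq hib hζ hD (up t m)
    rw [← hw2, hψ w fun x hx => (mem_line.1 (hw1 x hx)).1] at hm'
    obtain ⟨h1, h2⟩ := mem_line.1 (hw1 m' (Finsupp.mem_support_iff.2 hm'))
    obtain ⟨h3, h4⟩ := mem_compress.1 h1
    by_contra hle
    have hle' : m' b ≤ up t m b := not_lt.1 hle
    apply hu
    refine mem_compress.2 ⟨mem_box.2 fun s => ?_, ?_⟩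
    · by_cases hsb : s = b
      · subst hsb; exact hlt
      by_cases hsi : s = i
      · subst hsi
        have := mem_box.1 h3 s
        have := h2.2
        omega
      · rw [← h2.1 s hsi hsb]; exact mem_box.1 h3 s
    · rw [line_congr D h2, h2.2] at h4
      omega

end Crest.Agent.R181.MM
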