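import Crest.Agent.R181.MM.Slice0

/-!
Row 181, module MM (Clements–Lindström and the lex-plus-powers Betti bound for monomial ideals).
-/

set_option autoImplicit false

namespace Crest.Agent.R181.MM

open Module

variable (K : Type*) [DivisionRing K] {n : ℕ}

private theorem finrank_add_map_le {V V' : Type*} [AddCommGroup V] [Module K V]
    [AddCommGroup V'] [Module K V'] (W A : Submodule K V) [Module.Finite K W] (π : V →ₗ[K] V')
    (hA : A ≤ W) (hk : A ≤ LinearMap.ker π) :
    finrank K A + finrank K (W.map π) ≤ finrank K W := by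
  have h1 := LinearMap.finrank_range_add_finrank_ker (π.domRestrict W)
  rw [LinearMap.range_domRestrict] at h1
  have h2 : finrank K A ≤ finrank K (LinearMap.ker (π.domRestrict W)) := by
    let φ : A →ₗ[K] LinearMap.ker (π.domRestrict W) :=
      (Submodule.inclusion hA).codRestrict _ fun a => by
        simpa [LinearMap.mem_ker] using hk a.2
    refine LinearMap.finrank_le_finrank_of_injective (f := φ) ?_
    intro a b hab
    have := congrArg (fun x : LinearMap.ker (π.domRestrict W) => ((x : W) : V)) hab
    exact Subtype.ext this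
  omega

private theorem last_notMem_map (T : Finset (Fin n)) :
    Fin.last n ∉ T.map Fin.castSuccEmb := by
  simp only [Finset.mem_map, not_exists, not_and]
  intro x _ h
  exact (Fin.castSucc_lt_last x).ne h

private theorem emb_mem_kChains (D : Finset (Fin (n + 1) → ℕ)) (j : ℕ) (ε : Bool) (p s : ℕ) :
    ∀ g ∈ kChains n (monoG K (slice D j)) p s,
      emb K n j ε g ∈ kChains (n + 1) (monoG K D) (p + ε.toNat) (s + j + ε.toNat) := by
  intro g hg
  rw [kChains_monoG_eq_span] at hg ⊢
  have : Submodule.span K {f | ∃ (T : Finset (Fin n)) (m : Fin n → ℕ), T.card = p ∧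
      m ∈ slice D j ∧ deg m + p = s ∧ f = Pi.single T (Finsupp.single m 1)} ≤
      Submodule.comap (emb K n j ε) (Submodule.span K
        {f | ∃ (T : Finset (Fin (n + 1))) (m : Fin (n + 1) → ℕ), T.card = p + ε.toNat ∧ m ∈ D ∧
          deg m + (p + ε.toNat) = s + j + ε.toNat ∧ f = Pi.single T (Finsupp.single m 1)}) := by
    refine Submodule.span_le.2 ?_
    rintro f ⟨T, m, hT, hm, hdeg, rfl⟩
    refine Submodule.subset_span ⟨_, _, ?_, mem_slice.1 hm, ?_, emb_single K j ε T m 1⟩
    · cases ε
      · simpa using hT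
      · simp [Finset.card_insert_of_notMem (last_notMem_map T), hT]
    · rw [deg_snoc]; omega
  exact this hg

private theorem monoRank_empty (p s : ℕ) :
    monoRank K (∅ : Finset (Fin n → ℕ)) p s = 0 := by
  unfold monoRank kRank
  rw [kChains_monoG_eq_span]
  have : {f | ∃ (T : Finset (Fin n)) (m : Fin n → ℕ), T.card = p ∧
      m ∈ (∅ : Finset (Fin n → ℕ)) ∧ deg m + p = s ∧
      f = (Pi.single T (Finsupp.single m 1) : Finset (Fin n) → ((Fin n → ℕ) →₀ K))} = ∅ := by
    ext f
    simp
  rw [this, Submodule.span_empty, Submodule.map_bot, finrank_bot]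

private theorem emb_true_apply (j : ℕ) (g : Finset (Fin n) → ((Fin n → ℕ) →₀ K))
    {U : Finset (Fin (n + 1))} (hU : Fin.last n ∉ U) : emb K n j true g U = 0 := by
  simp [emb, hU]

private theorem emb_false_apply (j : ℕ) (g : Finset (Fin n) → ((Fin n → ℕ) →₀ K))
    {U : Finset (Fin (n + 1))} (hU : Fin.last n ∈ U) : emb K n j false g U = 0 := by
  simp [emb, hU]

private theorem emb_apply_of_ne (j : ℕ) (ε : Bool) (g : Finset (Fin n) → ((Fin n → ℕ) →₀ K))
    (U : Finset (Fin (n + 1))) {m : Fin (n + 1) → ℕ} (hm : m (Fin.last n) ≠ j) :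
    emb K n j ε g U m = 0 := by
  unfold emb
  rw [LinearMap.pi_apply]
  split_ifs
  · rw [LinearMap.comp_apply, Finsupp.lmapDomain_apply]
    refine Finsupp.mapDomain_of_notMem_range _ _ ?_
    rintro ⟨m', rfl⟩
    simp at hm
  · simp

/-- lower bound for the ranks by splitting along the degree in the last variable. -/
theorem monoRank_slice_ge {D : Finset (Fin (n + 1) → ℕ)} {d : ℕ}
    (hD : ∀ m ∈ D, m (Fin.last n) < d) (hd : Down D) (p t : ℕ) :
    monoRank K (slice D 0) (p + 1) t +
        n.choose p * ((lay D (t - p)).filter fun m => 1 ≤ m (Fin.last n)).card +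
        (if d ≤ t then monoRank K (slice D (d - 1)) p (t - d) else 0) ≤
      monoRank K D (p + 1) t := by
  classical
  rcases Nat.eq_zero_or_pos d with rfl | hd0
  · have hD' : D = ∅ := Finset.eq_empty_of_forall_notMem fun m hm => by simpa using hD m hm
    subst hD'
    have hs : ∀ j, slice (∅ : Finset (Fin (n + 1) → ℕ)) j = ∅ := fun j => by simp [slice]
    simp [hs, monoRank_empty, lay]
  set W := Submodule.map (kD (monoX K D)) (kChains (n + 1) (monoG K D) (p + 1) t) with hW
  have : Module.Finite K (kChains (n + 1) (monoG K D) (p + 1) t) :=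
    finite_kChains _ (finite_monoG K D) _ _
  have : Module.Finite K W := Module.Finite.map _ _
  set A := Submodule.map (emb K n 0 false)
    (Submodule.map (kD (monoX K (slice D 0))) (kChains n (monoG K (slice D 0)) (p + 1) t)) with hA
  set C : Submodule K (Finset (Fin (n + 1)) → ((Fin (n + 1) → ℕ) →₀ K)) :=
    if d ≤ t then Submodule.map (emb K n (d - 1) true)
      (Submodule.map (kD (monoX K (slice D (d - 1))))
        (kChains n (monoG K (slice D (d - 1))) p (t - d))) else ⊥ with hC
  have hAW : A ≤ W := by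
    rintro _ ⟨_, ⟨g, hg, rfl⟩, rfl⟩
    refine ⟨emb K n 0 false g, ?_, kD_emb_false K D 0 g⟩
    simpa using emb_mem_kChains K D 0 false (p + 1) t g hg
  have hCW : C ≤ W := by
    rw [hC]
    split_ifs with hdt
    · rintro _ ⟨_, ⟨g, hg, rfl⟩, rfl⟩
      refine ⟨emb K n (d - 1) true g, ?_, ?_⟩
      · have := emb_mem_kChains K D (d - 1) true p (t - d) g hg
        have e : t - d + (d - 1) + true.toNat = t := by simp; omega
        rw [e] at this
        simpa using this
      · rw [kD_emb_true]
        have h0 : (fun T : Finset (Fin n) => ((-1 : ℤ) ^ T.card) •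
            (g T).filter (fun m => m ∈ slice D (d - 1 + 1))) = 0 := by
          funext T
          have : (g T).filter (fun m => m ∈ slice D (d - 1 + 1)) = 0 := by
            ext m
            have hm : m ∉ slice D (d - 1 + 1) := fun hm => by
              have := hD _ (mem_slice.1 hm)
              simp at this
              omega
            simp [hm]
          simp [this]
        rw [h0, map_zero, add_zero]
    · exact bot_le
  have hCt : ∀ f ∈ C, ∀ U : Finset (Fin (n + 1)), Fin.last n ∉ U → f U = 0 := by
    intro f hf U hU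
    rw [hC] at hf
    split_ifs at hf
    · obtain ⟨g, -, rfl⟩ := hf
      exact emb_true_apply K _ g hU
    · rw [Submodule.mem_bot] at hf
      simp [hf]
  have hAC : A ⊓ C = ⊥ := by
    rw [eq_bot_iff]
    rintro f ⟨⟨g, -, rfl⟩, hf⟩
    rw [Submodule.mem_bot]
    funext U
    by_cases hU : Fin.last n ∈ U
    · exact emb_false_apply K _ g hU
    · exact hCt _ hf U hU
  have : Module.Finite K A := Submodule.finiteDimensional_of_le hAW
  have : Module.Finite K C := Submodule.finiteDimensional_of_le hCW
  have hsum : finrank K ↥(A ⊔ C) = finrank K A + finrank K C := by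
    have := Submodule.finrank_sup_add_finrank_inf_eq A C
    rw [hAC] at this
    simpa using this
  have hfA : finrank K A = monoRank K (slice D 0) (p + 1) t :=
    (Submodule.equivMapOfInjective _ (emb_injective K 0 false) _).finrank_eq.symm
  have hfC : finrank K C = if d ≤ t then monoRank K (slice D (d - 1)) p (t - d) else 0 := by
    by_cases hdt : d ≤ t
    · rw [hC, if_pos hdt, if_pos hdt]
      exact (Submodule.equivMapOfInjective _ (emb_injective K (d - 1) true) _).finrank_eq.symm
    · rw [hC, if_neg hdt, if_neg hdt, finrank_bot]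
  set L := (lay D (t - p)).filter fun m => 1 ≤ m (Fin.last n) with hL
  let I := ↥(Finset.powersetCard p (Finset.univ : Finset (Fin n))) × ↥L
  let π : (Finset (Fin (n + 1)) → ((Fin (n + 1) → ℕ) →₀ K)) →ₗ[K] (I → K) :=
    LinearMap.pi fun i => Finsupp.lapply (i.2 : Fin (n + 1) → ℕ) ∘ₗ
      LinearMap.proj ((i.1 : Finset (Fin n)).map Fin.castSuccEmb)
  have hπ : ∀ f i, π f i = f ((i.1 : Finset (Fin n)).map Fin.castSuccEmb) i.2 := fun _ _ => rfl
  have hker : A ⊔ C ≤ LinearMap.ker π := by
    refine sup_le ?_ ?_
    · rintro _ ⟨g, -, rfl⟩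
      rw [LinearMap.mem_ker]
      funext i
      rw [hπ]
      refine emb_apply_of_ne K 0 false g _ ?_
      have := (Finset.mem_filter.1 i.2.2).2
      omega
    · intro f hf
      rw [LinearMap.mem_ker]
      funext i
      rw [hπ, hCt f hf _ (last_notMem_map _)]
      rfl
  have htop : W.map π = ⊤ := by
    rw [eq_top_iff, ← (Pi.basisFun K I).span_eq, Submodule.span_le]
    rintro _ ⟨i, rfl⟩
    obtain ⟨⟨T, hT⟩, ⟨m, hm⟩⟩ := i
    have hTc : T.card = p := (Finset.mem_powersetCard.1 hT).2
    have hm1 : 1 ≤ m (Fin.last n) := (Finset.mem_filter.1 hm).2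
    have hmD : m ∈ D := (mem_lay.1 (Finset.mem_filter.1 hm).1).1
    have hmd : deg m = t - p := (mem_lay.1 (Finset.mem_filter.1 hm).1).2
    obtain ⟨j, hj⟩ : ∃ j, m (Fin.last n) = j + 1 := ⟨m (Fin.last n) - 1, by omega⟩
    have hsn : (Fin.snoc (Fin.init m) (j + 1) : Fin (n + 1) → ℕ) = m := by
      rw [← hj, Fin.snoc_init_self]
    have hdeg : deg (Fin.init m) + (j + 1) = t - p := by rw [← deg_snoc, hsn, hmd]
    have hs1 : Fin.init m ∈ slice D (j + 1) := mem_slice.2 (by rw [hsn]; exact hmD)
    have hs0 : Fin.init m ∈ slice D j := by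
      refine mem_slice.2 (hd m hmD _ fun x => ?_)
      refine Fin.lastCases ?_ (fun y => ?_) x
      · simp [hj]
      · simp [Fin.init]
    set g : Finset (Fin n) → ((Fin n → ℕ) →₀ K) :=
      Pi.single T (Finsupp.single (Fin.init m) 1) with hg
    have hgc : g ∈ kChains n (monoG K (slice D j)) p (deg (Fin.init m) + p) := by
      rw [kChains_monoG_eq_span]
      exact Submodule.subset_span ⟨T, _, hTc, hs0, rfl, rfl⟩
    have hec := emb_mem_kChains K D j true p _ g hgc
    have e : deg (Fin.init m) + p + j + true.toNat = t := by simp; omega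
    rw [e] at hec
    have h0 : (fun T' : Finset (Fin n) => ((-1 : ℤ) ^ T'.card) •
        (g T').filter (fun m' => m' ∈ slice D (j + 1))) =
        Pi.single T (Finsupp.single (Fin.init m) ((-1 : K) ^ p)) := by
      funext T'
      by_cases hTT : T' = T
      · subst hTT
        simp only [hg, Pi.single_eq_same]
        rw [Finsupp.filter_single_of_pos _ hs1, Finsupp.smul_single, hTc]
        simp
      · simp [hg, Pi.single_eq_of_ne hTT, Finsupp.filter_zero]
    have hval : π (kD (monoX K D) (emb K n j true g)) =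
        ((-1 : K) ^ p) • Pi.basisFun K I (⟨T, hT⟩, ⟨m, hm⟩) := by
      funext i
      rw [hπ, kD_emb_true, h0, emb_single, hsn, Pi.add_apply,
        emb_true_apply K _ _ (last_notMem_map _), zero_add]
      obtain ⟨⟨T', hT'⟩, ⟨m', hm'⟩⟩ := i
      simp only [Bool.false_eq_true, if_false, Pi.basisFun_apply, Pi.smul_apply, smul_eq_mul]
      by_cases h1 : T' = T
      · subst h1
        by_cases h2 : m' = m
        · subst h2
          simp
        · rw [Pi.single_eq_same, Finsupp.single_eq_of_ne h2, Pi.single_eq_of_ne, mul_zero]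
          intro h
          exact h2 (congrArg (fun x : I => (x.2 : Fin (n + 1) → ℕ)) h)
      · rw [Pi.single_eq_of_ne (fun h => h1 (Finset.map_injective _ h)), Pi.single_eq_of_ne,
          mul_zero]
        · rfl
        · intro h
          exact h1 (congrArg (fun x : I => (x.1 : Finset (Fin n))) h)
    have hmem : ((-1 : K) ^ p) • Pi.basisFun K I (⟨T, hT⟩, ⟨m, hm⟩) ∈ W.map π :=
      ⟨_, ⟨_, hec, rfl⟩, hval⟩
    have := Submodule.smul_mem _ ((-1 : K) ^ p) hmem
    rwa [smul_smul, ← pow_add, Even.neg_one_pow ⟨p, rfl⟩, one_smul] at this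
  have hfin := finrank_add_map_le K W (A ⊔ C) π (sup_le hAW hCW) hker
  rw [htop, finrank_top, hsum, hfA, hfC, Module.finrank_fintype_fun_eq_card] at hfin
  have hI : Fintype.card I = n.choose p * L.card := by
    simp [I, Fintype.card_prod]
  rw [hI] at hfin
  have : monoRank K D (p + 1) t = finrank K W := rfl
  omega

end Crest.Agent.R181.MM
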