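import Crest.Agent.R181.MM.Slice0

/-!
Row 181, module MM (Clements–Lindström and the lex-plus-powers Betti bound for monomial ideals).
-/

set_option autoImplicit false

namespace Crest.Agent.R181.MM

open Module

variable (K : Type*) [DivisionRing K] {n : ℕ}

namespace SliceUp

theorem up_snoc (t : Fin n) (m : Fin n → ℕ) (j : ℕ) :
    up t.castSucc (Fin.snoc m j : Fin (n + 1) → ℕ) = Fin.snoc (up t m) j := by
  funext i
  refine Fin.lastCases ?_ (fun i => ?_) i
  · simp [up, (Fin.castSucc_lt_last t).ne']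
  · simp [up, Pi.single_apply]

theorem up_last (m : Fin n → ℕ) (j : ℕ) :
    up (Fin.last n) (Fin.snoc m j : Fin (n + 1) → ℕ) = Fin.snoc m (j + 1) := by
  funext i
  refine Fin.lastCases ?_ (fun i => ?_) i
  · simp [up]
  · simp [up, (Fin.castSucc_lt_last i).ne]

theorem basis_mem {D : Finset (Fin n → ℕ)} {p j : ℕ} {T : Finset (Fin n)} {m : Fin n → ℕ}
    (hT : T.card = p) (hm : m ∈ D) (hj : deg m + p = j) :
    (Pi.single T (Finsupp.single m 1) : Finset (Fin n) → ((Fin n → ℕ) →₀ K)) ∈
      kChains n (monoG K D) p j := by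
  rw [kChains_monoG_eq_span]
  exact Submodule.subset_span ⟨T, m, hT, hm, hj, rfl⟩

open Classical in
theorem filt_eq (E : Finset (Fin n → ℕ)) (T : Finset (Fin n)) (m : Fin n → ℕ) :
    (fun U : Finset (Fin n) => ((-1 : ℤ) ^ U.card) •
      ((Pi.single T (Finsupp.single m 1) : Finset (Fin n) → ((Fin n → ℕ) →₀ K)) U).filter
        (fun m => m ∈ E)) =
      if m ∈ E then ((-1 : ℤ) ^ T.card) •
        (Pi.single T (Finsupp.single m 1) : Finset (Fin n) → ((Fin n → ℕ) →₀ K)) else 0 := by
  funext U
  by_cases hU : U = T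
  · subst hU
    by_cases hm : m ∈ E
    · rw [if_pos hm, Pi.smul_apply, Pi.single_eq_same,
        Finsupp.filter_single_of_pos (p := fun m => m ∈ E) hm]
    · rw [if_neg hm, Pi.single_eq_same, Finsupp.filter_single_of_neg (p := fun m => m ∈ E) hm,
        smul_zero, Pi.zero_apply]
  · rw [Pi.single_eq_of_ne hU, Finsupp.filter_zero, smul_zero]
    split_ifs
    · rw [Pi.smul_apply, Pi.single_eq_of_ne hU, smul_zero]
    · rfl

theorem kD_basis_zero {E : Finset (Fin n → ℕ)} (T : Finset (Fin n)) {m : Fin n → ℕ}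
    (h : ∀ t, up t m ∉ E) :
    kD (monoX K E) (Pi.single T (Finsupp.single m 1) : Finset (Fin n) → ((Fin n → ℕ) →₀ K)) = 0 := by
  funext U
  rw [kD_apply, Pi.zero_apply]
  refine Finset.sum_eq_zero fun t _ => ?_
  by_cases hU : insert t U = T
  · rw [hU, Pi.single_eq_same, monoX_single, if_neg (h t), smul_zero]
  · rw [Pi.single_eq_of_ne hU, map_zero, smul_zero]

/-- images of the slice complexes -/
noncomputable def im (D : Finset (Fin (n + 1) → ℕ)) (j : ℕ) (ε : Bool) (p s : ℕ) :
    Submodule K (Finset (Fin (n + 1)) → ((Fin (n + 1) → ℕ) →₀ K)) :=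
  ((kChains n (monoG K (slice D j)) p s).map (kD (monoX K (slice D j)))).map (emb K n j ε)

instance (D : Finset (Fin (n + 1) → ℕ)) (j : ℕ) (ε : Bool) (p s : ℕ) :
    Module.Finite K (im K D j ε p s) := by
  have := finite_kChains (n := n) (monoG K (slice D j)) (finite_monoG K _) p s
  unfold im
  infer_instance

theorem finrank_im (D : Finset (Fin (n + 1) → ℕ)) (j : ℕ) (ε : Bool) (p s : ℕ) :
    finrank K (im K D j ε p s) ≤ monoRank K (slice D j) p s := by
  have := finite_kChains (n := n) (monoG K (slice D j)) (finite_monoG K _) p s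
  exact Submodule.finrank_map_le _ _

open Classical in
/-- the generators of the middle part -/
noncomputable def gens (D : Finset (Fin (n + 1) → ℕ)) (p t : ℕ) :
    Finset (Finset (Fin (n + 1)) → ((Fin (n + 1) → ℕ) →₀ K)) :=
  ((Finset.univ.powersetCard p : Finset (Finset (Fin n))) ×ˢ
    ((lay D (t - p)).filter fun m => 1 ≤ m (Fin.last n))).image fun x =>
      kD (monoX K D) (emb K n (x.2 (Fin.last n) - 1) true
        (Pi.single x.1 (Finsupp.single (Fin.init x.2) 1)))

theorem card_gens (D : Finset (Fin (n + 1) → ℕ)) (p t : ℕ) :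
    (gens K D p t).card ≤
      n.choose p * ((lay D (t - p)).filter fun m => 1 ≤ m (Fin.last n)).card := by
  classical
  unfold gens
  refine Finset.card_image_le.trans (le_of_eq ?_)
  rw [Finset.card_product, Finset.card_powersetCard, Finset.card_univ, Fintype.card_fin]

variable {K}

theorem true_mem {D : Finset (Fin (n + 1) → ℕ)} {d p t : ℕ}
    (hD : ∀ m ∈ D, m (Fin.last n) < d) (hs : Stable d D)
    {W : Submodule K (Finset (Fin (n + 1)) → ((Fin (n + 1) → ℕ) →₀ K))}
    (hB : ∀ x ∈ gens K D p t, x ∈ W) (hC : d ≤ t → im K D (d - 1) true p (t - d) ≤ W)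
    {j s : ℕ} (hj : s + j + 1 = t) {g : Finset (Fin n) → ((Fin n → ℕ) →₀ K)}
    (hg : g ∈ kChains n (monoG K (slice D j)) p s) : kD (monoX K D) (emb K n j true g) ∈ W := by
  classical
  rw [kChains_monoG_eq_span] at hg
  induction hg using Submodule.span_induction with
  | zero => simp
  | add x y _ _ hx hy => rw [map_add, map_add]; exact W.add_mem hx hy
  | smul c x _ hx => rw [map_smul, map_smul]; exact W.smul_mem c hx
  | mem g hg =>
    obtain ⟨T, m, hT, hm, hdeg, rfl⟩ := hg
    by_cases h1 : m ∈ slice D (j + 1)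
    · refine hB _ (Finset.mem_image.2 ⟨(T, Fin.snoc m (j + 1)), ?_, by simp⟩)
      refine Finset.mem_product.2 ⟨by simp [hT], Finset.mem_filter.2 ⟨mem_lay.2 ⟨mem_slice.1 h1, ?_⟩,
        by simp⟩⟩
      rw [deg_snoc]
      omega
    · rw [kD_emb_true, filt_eq, if_neg h1, map_zero, add_zero]
      have hjd : j < d := by simpa using hD _ (mem_slice.1 hm)
      by_cases h2 : j + 1 < d
      · rw [kD_basis_zero, map_zero]
        · exact W.zero_mem
        · intro u hu
          have h3 := hs u (Fin.snoc m j) (by rw [up_snoc]; exact mem_slice.1 hu) (by simpa using h2)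
          rw [up_last] at h3
          exact h1 (mem_slice.2 h3)
      · obtain rfl : d = j + 1 := by omega
        refine hC (by omega) ⟨_, ⟨_, basis_mem K hT hm (by omega), rfl⟩, rfl⟩

theorem false_mem {D : Finset (Fin (n + 1) → ℕ)} {d p t : ℕ}
    (hD : ∀ m ∈ D, m (Fin.last n) < d) (hd : Down D) (hs : Stable d D)
    {W : Submodule K (Finset (Fin (n + 1)) → ((Fin (n + 1) → ℕ) →₀ K))}
    (hA : im K D 0 false (p + 1) t ≤ W)
    (hB : ∀ x ∈ gens K D p t, x ∈ W) (hC : d ≤ t → im K D (d - 1) true p (t - d) ≤ W)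
    {j : ℕ} {T : Finset (Fin n)} {m : Fin n → ℕ} (hT : T.card = p + 1) (hm : m ∈ slice D j)
    (hdeg : deg m + j + (p + 1) = t) :
    kD (monoX K D) (emb K n j false (Pi.single T (Finsupp.single m 1))) ∈ W := by
  classical
  rcases j with _ | i
  · rw [kD_emb_false]
    exact hA ⟨_, ⟨_, basis_mem K hT hm (by omega), rfl⟩, rfl⟩
  · have hm' : m ∈ slice D i := by
      refine mem_slice.2 (hd _ (mem_slice.1 hm) _ ?_)
      rw [← up_last]
      exact le_up _ _
    have h1 := kD_kD (monoX K D) (monoX_comm K hd)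
      (emb K n i true (Pi.single T (Finsupp.single m 1)))
    rw [kD_emb_true, filt_eq, if_pos hm, map_add, map_zsmul, map_zsmul] at h1
    have h2 := true_mem hD hs hB hC (j := i) (s := deg m + (p + 1)) (by omega)
      (kD_mem_kChains _ _ (monoX_mem K _) p _ _ (basis_mem K hT hm' rfl))
    have h3 := W.neg_mem h2
    rw [neg_eq_of_add_eq_zero_right h1] at h3
    rcases neg_one_pow_eq_or ℤ T.card with h | h
    · rwa [h, one_smul] at h3
    · rwa [h, neg_one_smul, W.neg_mem_iff] at h3

theorem map_le {D : Finset (Fin (n + 1) → ℕ)} {d p t : ℕ}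
    (hD : ∀ m ∈ D, m (Fin.last n) < d) (hd : Down D) (hs : Stable d D)
    {W : Submodule K (Finset (Fin (n + 1)) → ((Fin (n + 1) → ℕ) →₀ K))}
    (hA : im K D 0 false (p + 1) t ≤ W)
    (hB : ∀ x ∈ gens K D p t, x ∈ W) (hC : d ≤ t → im K D (d - 1) true p (t - d) ≤ W) :
    (kChains (n + 1) (monoG K D) (p + 1) t).map (kD (monoX K D)) ≤ W := by
  rw [kChains_monoG_eq_span, Submodule.map_span, Submodule.span_le]
  rintro _ ⟨_, ⟨T, m, hT, hm, hdeg, rfl⟩, rfl⟩
  obtain ⟨m', j, rfl⟩ : ∃ (m' : Fin n → ℕ) (j : ℕ), m = Fin.snoc m' j :=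
    ⟨Fin.init m, m (Fin.last n), (Fin.snoc_init_self m).symm⟩
  rw [deg_snoc] at hdeg
  set T' : Finset (Fin n) := Finset.univ.filter fun t : Fin n => t.castSucc ∈ T with hT'
  have hn : Fin.last n ∉ T'.map Fin.castSuccEmb := by
    intro h
    obtain ⟨i, -, hi⟩ := Finset.mem_map.1 h
    exact (Fin.castSucc_lt_last i).ne hi
  have hc : ∀ i : Fin n, i.castSucc ∈ T'.map Fin.castSuccEmb ↔ i.castSucc ∈ T := fun i => by
    have := Finset.mem_map' Fin.castSuccEmb (a := i) (s := T')
    rw [hT'] at this ⊢
    simpa using this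
  by_cases hl : Fin.last n ∈ T
  · have e : T = insert (Fin.last n) (T'.map Fin.castSuccEmb) := by
      ext i
      refine Fin.lastCases ?_ (fun i => ?_) i
      · simp [hl]
      · rw [Finset.mem_insert, hc, or_iff_right (Fin.castSucc_lt_last i).ne]
    have hcard : T'.card = p := by
      rw [e, Finset.card_insert_of_notMem hn, Finset.card_map] at hT
      omega
    have h := true_mem hD hs hB hC (j := j) (s := deg m' + p) (by omega)
      (basis_mem K hcard (mem_slice.2 hm) rfl)
    rw [emb_single, if_pos rfl, ← e] at h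
    exact h
  · have e : T = T'.map Fin.castSuccEmb := by
      ext i
      refine Fin.lastCases ?_ (fun i => ?_) i
      · exact iff_of_false hl hn
      · rw [hc]
    have hcard : T'.card = p + 1 := by
      rw [e, Finset.card_map] at hT
      exact hT
    have h := false_mem hD hd hs hA hB hC hcard (mem_slice.2 hm) hdeg
    rw [emb_single, if_neg (by simp), ← e] at h
    exact h

end SliceUp

/-- for stable sets the lower bound is attained. -/
theorem monoRank_slice_le {D : Finset (Fin (n + 1) → ℕ)} {d : ℕ}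
    (hD : ∀ m ∈ D, m (Fin.last n) < d) (hd : Down D) (hs : Stable d D) (p t : ℕ) :
    monoRank K D (p + 1) t ≤
      monoRank K (slice D 0) (p + 1) t +
        n.choose p * ((lay D (t - p)).filter fun m => 1 ≤ m (Fin.last n)).card +
        (if d ≤ t then monoRank K (slice D (d - 1)) p (t - d) else 0) := by
  set A := SliceUp.im K D 0 false (p + 1) t
  set B := Submodule.span K (↑(SliceUp.gens K D p t) :
    Set (Finset (Fin (n + 1)) → ((Fin (n + 1) → ℕ) →₀ K)))
  have : Module.Finite K B := Module.Finite.span_of_finite K (Finset.finite_toSet _)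
  have hA : finrank K A ≤ _ := SliceUp.finrank_im K D 0 false (p + 1) t
  have hB : finrank K B ≤ _ := (finrank_span_finset_le_card _).trans (SliceUp.card_gens K D p t)
  have hAB := Submodule.finrank_add_le_finrank_add_finrank A B
  split_ifs with h
  · set C := SliceUp.im K D (d - 1) true p (t - d)
    have hC : finrank K C ≤ _ := SliceUp.finrank_im K D (d - 1) true p (t - d)
    have hABC := Submodule.finrank_add_le_finrank_add_finrank (A ⊔ B) C
    have h1 := Submodule.finrank_mono (SliceUp.map_le (W := A ⊔ B ⊔ C) hD hd hs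
      (le_sup_left.trans le_sup_left)
      (fun x hx => Submodule.mem_sup_left (Submodule.mem_sup_right (Submodule.subset_span hx)))
      fun _ => le_sup_right)
    unfold monoRank kRank at *
    omega
  · have h1 := Submodule.finrank_mono (SliceUp.map_le (W := A ⊔ B) hD hd hs le_sup_left
      (fun x hx => Submodule.mem_sup_right (Submodule.subset_span hx)) fun h' => absurd h' h)
    unfold monoRank kRank at *
    omega

end Crest.Agent.R181.MM
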