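import Crest.Agent.R181.MM.CL2
import Crest.Agent.R181.MM.Distract
import Crest.Agent.R181.MM.SliceLow
import Crest.Agent.R181.MM.SliceUp

/-!
Row 181, module MM (Clements–Lindström and the lex-plus-powers Betti bound for monomial ideals).
-/

set_option autoImplicit false

namespace Crest.Agent.R181.MM

open Module

/-- the lexification has the smallest Koszul ranks. -/
theorem monoRank_lexify_le : ∀ (n : ℕ) (a : Fin n → ℕ), Monotone a →
    ∀ D : Finset (Fin n → ℕ), D ⊆ box a → Down D → ∀ p j,
      monoRank ℂ (lexify a D) p j ≤ monoRank ℂ D p j := by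
  intro n
  induction n with
  | zero =>
    intro a ha D hD hd p j
    refine monoRank_mono ℂ (fun m hm => ?_) p j
    have h1 : 0 < (lay (lexify a D) (deg m)).card :=
      Finset.card_pos.2 ⟨m, mem_lay.2 ⟨hm, rfl⟩⟩
    rw [card_lay_lexify hD] at h1
    obtain ⟨m', hm'⟩ := Finset.card_pos.1 h1
    rw [Subsingleton.elim m m']
    exact (mem_lay.1 hm').1
  | succ n ih =>
    intro a ha D hD hd p t
    cases p with
    | zero => simp only [monoRank, kRank_zero, le_refl]
    | succ p =>
      obtain ⟨D', hD', hd', hs', hlay, hP⟩ := exists_stable ha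
        (fun D' => ∀ p j, monoRank ℂ D' p j ≤ monoRank ℂ D p j)
        (fun E i hE hdE hPE p j =>
          (monoRank_compress_le (Fin.castSucc_lt_last i).ne (ha (Fin.castSucc_lt_last i).le)
            hE hdE p j).trans (hPE p j)) hD hd (fun _ _ => le_rfl)
      refine le_trans ?_ (hP (p + 1) t)
      rw [← lexify_congr a hlay]
      have ha' : Monotone (Fin.init a) := fun i j hij => ha (Fin.castSucc_le_castSucc_iff.2 hij)
      have hCL := clProp n _ ha'
      have hΛ := lexFinal_lexify a D'
      have hdΛ := down_lexify ha hD' hd'
      have hcard := card_lay_lexify hD'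
      have hup := monoRank_slice_le ℂ (d := a (Fin.last n))
        (fun m hm => mem_box.1 (hΛ.1 hm) _) hdΛ hΛ.stable p t
      have hlow := monoRank_slice_ge ℂ (d := a (Fin.last n))
        (fun m hm => mem_box.1 (hD' hm) _) hd' p t
      have h0 : lexify (Fin.init a) (slice D' 0) ⊆ slice (lexify a D') 0 :=
        (lexFinal_lexify _ _).subset (hΛ.slice 0) fun e => by
          rw [card_lay_lexify (slice_subset_box hD' 0)]
          exact slice_zero_le hCL hD' hs' hΛ (hcard e)
      have h1 : slice (lexify a D') (a (Fin.last n) - 1) ⊆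
          lexify (Fin.init a) (slice D' (a (Fin.last n) - 1)) :=
        (hΛ.slice _).subset (lexFinal_lexify _ _) fun e => by
          rw [card_lay_lexify (slice_subset_box hD' _)]
          exact slice_top_le hCL hD' hs' hΛ (hcard _)
      have h2 := monoRank_le_add ℂ h0
        (down_lexify ha' (slice_subset_box hD' 0) (hd'.slice 0)) p t
      rw [card_lay_lexify (slice_subset_box hD' 0)] at h2
      have h3 := ih _ ha' _ (slice_subset_box hD' 0) (hd'.slice 0) (p + 1) t
      have h4 := (monoRank_mono ℂ h1 p (t - a (Fin.last n))).trans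
        (ih _ ha' _ (slice_subset_box hD' _) (hd'.slice _) p (t - a (Fin.last n)))
      have h5 := congrArg (n.choose p * ·) (card_lay_filter_last (D := lexify a D') (t - p))
      have h6 := congrArg (n.choose p * ·) (card_lay_filter_last (D := D') (t - p))
      simp only [mul_add, hcard] at h5 h6
      split_ifs at hup hlow <;> omega

end Crest.Agent.R181.MM
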