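import Crest.Agent.R181.MM.Defs

/-!
Row 181, module MM (Clements–Lindström and the lex-plus-powers Betti bound for monomial ideals).
-/

set_option autoImplicit false

namespace Crest.Agent.R181.MM

open Module

variable {K : Type*} [DivisionRing K] {V : Type*} [AddCommGroup V] [Module K V] {n : ℕ}

/-- chains of bidegree `(p, j)`, `p ≤ j`, as tuples. -/
noncomputable def KBasic_equiv (G : ℕ → Submodule K V) {p j : ℕ} (h : p ≤ j) :
    kChains n G p j ≃ₗ[K] ({T : Finset (Fin n) // T.card = p} → G (j - p)) where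
  toFun f T := ⟨f.1 T.1, (mem_kChains.1 f.2 T.1).1 ⟨T.2, h⟩⟩
  map_add' _ _ := rfl
  map_smul' _ _ := rfl
  invFun g := ⟨fun T => if hT : T.card = p then (g ⟨T, hT⟩ : V) else 0, mem_kChains.2 fun T =>
    ⟨fun hT => by
      simp only [dif_pos hT.1]
      exact (g ⟨T, hT.1⟩).2, fun hT => dif_neg fun h' => hT ⟨h', h⟩⟩⟩
  left_inv f := by
    refine Subtype.ext (funext fun T => ?_)
    by_cases hT : T.card = p
    · exact dif_pos hT
    · exact (dif_neg hT).trans ((mem_kChains.1 f.2 T).2 fun h' => hT h'.1).symm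
  right_inv g := funext fun T => Subtype.ext (dif_pos T.2)

theorem KBasic_bot (G : ℕ → Submodule K V) {p j : ℕ} (h : ¬ p ≤ j) : kChains n G p j = ⊥ :=
  (Submodule.eq_bot_iff _).2 fun _ hf => funext fun T => (mem_kChains.1 hf T).2 fun h' => h h'.2

/-- chains are finite dimensional when the graded pieces are. -/
theorem finite_kChains (G : ℕ → Submodule K V) (hG : ∀ e, Module.Finite K (G e)) (p j : ℕ) :
    Module.Finite K (kChains n G p j) := by
  by_cases h : p ≤ j
  · have := hG (j - p)
    exact Module.Finite.equiv (KBasic_equiv G h).symm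
  · rw [KBasic_bot G h]
    infer_instance

theorem finrank_kChains (G : ℕ → Submodule K V) (hG : ∀ e, Module.Finite K (G e)) (p j : ℕ) :
    finrank K (kChains n G p j) = if p ≤ j then n.choose p * finrank K (G (j - p)) else 0 := by
  split_ifs with h
  · have := hG (j - p)
    rw [(KBasic_equiv G h).finrank_eq, finrank_pi_fintype, Finset.sum_const, Finset.card_univ,
      Fintype.card_finset_len, Fintype.card_fin, smul_eq_mul]
  · rw [KBasic_bot G h, finrank_bot]

theorem kD_mem_kChains (X : Fin n → V →ₗ[K] V) (G : ℕ → Submodule K V)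
    (hX : ∀ t e, ∀ v ∈ G e, X t v ∈ G (e + 1)) (p j : ℕ) :
    ∀ f ∈ kChains n G (p + 1) j, kD X f ∈ kChains n G p j := by
  intro f hf
  rw [mem_kChains] at hf ⊢
  intro U
  have hc : ∀ t ∈ Uᶜ, (insert t U).card = U.card + 1 := fun t ht =>
    Finset.card_insert_of_notMem (Finset.mem_compl.1 ht)
  rw [kD_apply]
  refine ⟨fun hU => Submodule.sum_mem _ fun t ht => Submodule.smul_of_tower_mem _ _ ?_,
    fun hU => Finset.sum_eq_zero fun t ht => ?_⟩
  · by_cases h : p + 1 ≤ j
    · have h1 := hX t _ _ ((hf (insert t U)).1 ⟨by rw [hc t ht, hU.1], h⟩)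
      rwa [show j - (p + 1) + 1 = j - p by omega] at h1
    · rw [(hf (insert t U)).2 fun h' => h h'.2, map_zero]
      exact zero_mem _
  · rw [(hf (insert t U)).2 fun h' => hU ⟨by have := hc t ht; omega, by omega⟩, map_zero, smul_zero]

theorem kRank_zero (X : Fin n → V →ₗ[K] V) (G : ℕ → Submodule K V) (j : ℕ) :
    kRank X G 0 j = 0 := by
  have h : Submodule.map (kD X) (kChains n G 0 j) = ⊥ := by
    refine (Submodule.eq_bot_iff _).2 ?_
    rintro _ ⟨f, hf, rfl⟩
    funext U
    rw [kD_apply]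
    refine Finset.sum_eq_zero fun t ht => ?_
    rw [(mem_kChains.1 hf (insert t U)).2 fun h' => Finset.insert_ne_empty t U
      (Finset.card_eq_zero.1 h'.1), map_zero, smul_zero]
  rw [kRank, h, finrank_bot]

theorem kRank_of_lt (X : Fin n → V →ₗ[K] V) (G : ℕ → Submodule K V) {p j : ℕ} (h : j < p) :
    kRank X G p j = 0 := by
  rw [kRank, KBasic_bot G (not_le.2 h), Submodule.map_bot, finrank_bot]

/-- `d ∘ d = 0` for commuting operators. -/
theorem kD_kD (X : Fin n → V →ₗ[K] V) (hX : ∀ s t v, X s (X t v) = X t (X s v))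
    (f : Finset (Fin n) → V) : kD X (kD X f) = 0 := by
  funext U
  have key : ∀ s t : Fin n, s ∉ U → t ∉ U → s < t →
      ((-1 : ℤ) ^ (U.filter (· < t)).card * (-1) ^ ((insert t U).filter (· < s)).card) +
      (-1) ^ (U.filter (· < s)).card * (-1) ^ ((insert s U).filter (· < t)).card = 0 := by
    intro s t hs ht hst
    rw [Finset.filter_insert, Finset.filter_insert, if_neg (not_lt.2 hst.le), if_pos hst,
      Finset.card_insert_of_notMem fun h => hs (Finset.mem_filter.1 h).1]
    ring
  have h1 : kD X (kD X f) U = ∑ x ∈ Uᶜ.offDiag,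
      ((-1 : ℤ) ^ (U.filter (· < x.1)).card * (-1) ^ ((insert x.1 U).filter (· < x.2)).card) •
        X x.1 (X x.2 (f (insert x.2 (insert x.1 U)))) := by
    rw [kD_apply, Finset.sum_finset_product' Uᶜ.offDiag Uᶜ (fun t => (insert t U)ᶜ)
      (f := fun t s => ((-1 : ℤ) ^ (U.filter (· < t)).card *
        (-1) ^ ((insert t U).filter (· < s)).card) • X t (X s (f (insert s (insert t U)))))
      fun x => by
        simp only [Finset.mem_offDiag, Finset.mem_compl, Finset.mem_insert]
        tauto]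
    refine Finset.sum_congr rfl fun t _ => ?_
    rw [kD_apply, map_sum, Finset.smul_sum]
    exact Finset.sum_congr rfl fun s _ => by rw [map_zsmul, smul_smul]
  rw [h1]
  refine Finset.sum_involution (fun x _ => x.swap) (fun x hx => ?_) (fun x hx _ h => ?_)
    (fun x hx => ?_) fun x _ => x.swap_swap
  · obtain ⟨h1, h2, h3⟩ := Finset.mem_offDiag.1 hx
    rw [Finset.mem_compl] at h1 h2
    rw [Prod.fst_swap, Prod.snd_swap, hX x.2, Finset.insert_comm x.1, ← add_smul]
    rcases lt_or_gt_of_ne h3 with h | h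
    · rw [add_comm, key _ _ h1 h2 h, zero_smul]
    · rw [key _ _ h2 h1 h, zero_smul]
  · exact (Finset.mem_offDiag.1 hx).2.2 (congrArg Prod.snd h)
  · obtain ⟨h1, h2, h3⟩ := Finset.mem_offDiag.1 hx
    exact Finset.mem_offDiag.2 ⟨h2, h1, h3.symm⟩

end Crest.Agent.R181.MM
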