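import Crest.Agent.R181.MM.KBasic

/-!
Row 181, module MM (Clements–Lindström and the lex-plus-powers Betti bound for monomial ideals).
-/

set_option autoImplicit false

namespace Crest.Agent.R181.MM

open Module

variable {K : Type*} [DivisionRing K] {V₁ V₂ : Type*} [AddCommGroup V₁] [Module K V₁]
  [AddCommGroup V₂] [Module K V₂] {n : ℕ}

private theorem compLeft_mem_kChains (G₁ : ℕ → Submodule K V₁) (G₂ : ℕ → Submodule K V₂)
    (φ : V₁ →ₗ[K] V₂) (hφ : ∀ e, ∀ v ∈ G₁ e, φ v ∈ G₂ e) (p j : ℕ) :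
    ∀ f ∈ kChains n G₁ p j, φ.compLeft (Finset (Fin n)) f ∈ kChains n G₂ p j := by
  intro f hf
  rw [mem_kChains] at hf ⊢
  intro T
  refine ⟨fun hT => hφ _ _ ((hf T).1 hT), fun hT => ?_⟩
  simp [LinearMap.compLeft_apply, (hf T).2 hT]

private theorem kChains_cases {G : ℕ → Submodule K V₁} {p j : ℕ} {f : Finset (Fin n) → V₁}
    (hf : f ∈ kChains n G p j) (T : Finset (Fin n)) : f T ∈ G (j - p) := by
  rw [mem_kChains] at hf
  by_cases hT : T.card = p ∧ p ≤ j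
  · exact (hf T).1 hT
  · rw [(hf T).2 hT]; exact Submodule.zero_mem _

/-- transport: if `X₁ = ψ ∘ X₂ ∘ φ` on the graded pieces, ranks for `X₁` are at most those for `X₂`. -/
theorem kRank_le_of_comp (X₁ : Fin n → V₁ →ₗ[K] V₁) (G₁ : ℕ → Submodule K V₁)
    (X₂ : Fin n → V₂ →ₗ[K] V₂) (G₂ : ℕ → Submodule K V₂) (hG₂ : ∀ e, Module.Finite K (G₂ e))
    (φ : V₁ →ₗ[K] V₂) (ψ : V₂ →ₗ[K] V₁) (hφ : ∀ e, ∀ v ∈ G₁ e, φ v ∈ G₂ e)
    (h : ∀ t e, ∀ v ∈ G₁ e, X₁ t v = ψ (X₂ t (φ v))) (p j : ℕ) :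
    kRank X₁ G₁ p j ≤ kRank X₂ G₂ p j := by
  haveI := finite_kChains (n := n) G₂ hG₂ p j
  have hle : Submodule.map (kD X₁) (kChains n G₁ p j) ≤
      Submodule.map (ψ.compLeft (Finset (Fin n))) (Submodule.map (kD X₂) (kChains n G₂ p j)) := by
    rintro _ ⟨f, hf, rfl⟩
    refine ⟨kD X₂ (φ.compLeft (Finset (Fin n)) f),
      ⟨_, compLeft_mem_kChains G₁ G₂ φ hφ p j f hf, rfl⟩, ?_⟩
    funext U
    simp only [LinearMap.compLeft_apply, Function.comp_apply, kD_apply, map_sum, map_zsmul]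
    refine Finset.sum_congr rfl fun t _ => ?_
    rw [h t _ _ (kChains_cases hf _)]
  exact (Submodule.finrank_mono hle).trans (Submodule.finrank_map_le _ _)

/-- passing to a quotient loses at most the dimension of the target chains of the kernel. -/
theorem kRank_le_add_ker (X₁ : Fin n → V₁ →ₗ[K] V₁) (G₁ : ℕ → Submodule K V₁)
    (X₂ : Fin n → V₂ →ₗ[K] V₂) (G₂ : ℕ → Submodule K V₂) (hG₁ : ∀ e, Module.Finite K (G₁ e))
    (hG₂ : ∀ e, Module.Finite K (G₂ e))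
    (hX₂ : ∀ t e, ∀ v ∈ G₂ e, X₂ t v ∈ G₂ (e + 1))
    (ψ : V₂ →ₗ[K] V₁) (hψ : ∀ e, ∀ v ∈ G₂ e, ψ v ∈ G₁ e)
    (h : ∀ t e, ∀ v ∈ G₂ e, X₁ t (ψ v) = ψ (X₂ t v)) (p j : ℕ) :
    kRank X₂ G₂ (p + 1) j ≤
      kRank X₁ G₁ (p + 1) j + n.choose p * finrank K ↥(G₂ (j - p) ⊓ LinearMap.ker ψ) := by
  by_cases hj : j < p + 1
  · rw [kRank_of_lt X₂ G₂ hj]; exact Nat.zero_le _
  haveI := finite_kChains (n := n) G₂ hG₂ (p + 1) j
  haveI := finite_kChains (n := n) G₁ hG₁ (p + 1) j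
  have hG₃ : ∀ e, Module.Finite K ↥(G₂ e ⊓ LinearMap.ker ψ) := fun e =>
    haveI := hG₂ e
    Submodule.finiteDimensional_of_le (inf_le_left : G₂ e ⊓ LinearMap.ker ψ ≤ G₂ e)
  haveI := finite_kChains (n := n) (fun e => G₂ e ⊓ LinearMap.ker ψ) hG₃ p j
  set W := Submodule.map (kD X₂) (kChains n G₂ (p + 1) j) with hW
  set Ψ := ψ.compLeft (Finset (Fin n)) with hΨ
  have hrn := LinearMap.finrank_range_add_finrank_ker (Ψ.domRestrict W)
  have h1 : LinearMap.range (Ψ.domRestrict W) ≤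
      Submodule.map (kD X₁) (kChains n G₁ (p + 1) j) := by
    rintro _ ⟨⟨_, f, hf, rfl⟩, rfl⟩
    refine ⟨Ψ f, compLeft_mem_kChains G₂ G₁ ψ hψ (p + 1) j f hf, ?_⟩
    funext U
    simp only [hΨ, LinearMap.domRestrict_apply, LinearMap.compLeft_apply, Function.comp_apply,
      kD_apply, map_sum, map_zsmul]
    refine Finset.sum_congr rfl fun t _ => ?_
    rw [h t _ _ (kChains_cases hf _)]
  have h2 : Submodule.map W.subtype (LinearMap.ker (Ψ.domRestrict W)) ≤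
      kChains n (fun e => G₂ e ⊓ LinearMap.ker ψ) p j := by
    rintro _ ⟨⟨g, hg⟩, hk, rfl⟩
    obtain ⟨f, hf, rfl⟩ := hg
    have hm := kD_mem_kChains X₂ G₂ hX₂ p j f hf
    have hk' : ∀ T, ψ (kD X₂ f T) = 0 := fun T => congrFun (LinearMap.mem_ker.1 hk) T
    rw [mem_kChains] at hm ⊢
    intro T
    exact ⟨fun hT => ⟨(hm T).1 hT, hk' T⟩, fun hT => (hm T).2 hT⟩
  have h3 := Submodule.finrank_mono h1
  have h4 := Submodule.finrank_mono h2
  rw [Submodule.finrank_map_subtype_eq, finrank_kChains _ hG₃, if_pos (by omega)] at h4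
  unfold kRank
  rw [← hW, ← hrn]
  exact add_le_add h3 h4

end Crest.Agent.R181.MM
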