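import Crest.Agent.R181.MM.KBasic

/-!
Row 181, module MM (Clements–Lindström and the lex-plus-powers Betti bound for monomial ideals).
-/

set_option autoImplicit false

namespace Crest.Agent.R181.MM

open Module

variable {K : Type*} [DivisionRing K] {V : Type*} [AddCommGroup V] [Module K V] {n : ℕ}

namespace ThetaAux

/-- the Koszul sign -/
def sgn (t : Fin n) (U : Finset (Fin n)) : ℤ := (-1) ^ (U.filter (· < t)).card

theorem sgn_mul_self (t : Fin n) (U : Finset (Fin n)) : sgn t U * sgn t U = 1 := by
  rw [sgn, ← mul_pow]; simp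

theorem sgn_insert {s : Fin n} (t : Fin n) {U : Finset (Fin n)} (h : s ∉ U) :
    sgn t (insert s U) = (if s < t then -1 else 1) * sgn t U := by
  unfold sgn
  rw [Finset.filter_insert]
  split_ifs with hst
  · rw [Finset.card_insert_of_notMem (fun hh => h (Finset.mem_filter.1 hh).1), pow_succ]; ring
  · simp

theorem sgn_erase {s : Fin n} (t : Fin n) {U : Finset (Fin n)} (h : s ∈ U) :
    sgn t U = (if s < t then -1 else 1) * sgn t (U.erase s) := by
  rw [← sgn_insert t (Finset.notMem_erase s U), Finset.insert_erase h]

variable (K V) in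
/-- contraction -/
noncomputable def iota (t : Fin n) : Module.End K (Finset (Fin n) → V) :=
  LinearMap.pi fun U => if t ∈ U then 0 else sgn t U • LinearMap.proj (insert t U)

variable (K V) in
/-- exterior multiplication -/
noncomputable def eps (t : Fin n) : Module.End K (Finset (Fin n) → V) :=
  LinearMap.pi fun U => if t ∈ U then sgn t U • LinearMap.proj (U.erase t) else 0

variable (n) in
/-- pointwise action -/
noncomputable def pw (A : V →ₗ[K] V) : Module.End K (Finset (Fin n) → V) :=
  LinearMap.pi fun U => A ∘ₗ LinearMap.proj U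

theorem iota_apply (t : Fin n) (f : Finset (Fin n) → V) (U : Finset (Fin n)) :
    iota K V t f U = if t ∈ U then 0 else sgn t U • f (insert t U) := by
  by_cases h : t ∈ U <;> simp [iota, h]

theorem eps_apply (t : Fin n) (f : Finset (Fin n) → V) (U : Finset (Fin n)) :
    eps K V t f U = if t ∈ U then sgn t U • f (U.erase t) else 0 := by
  by_cases h : t ∈ U <;> simp [eps, h]

theorem pw_apply (A : V →ₗ[K] V) (f : Finset (Fin n) → V) (U : Finset (Fin n)) :
    pw n A f U = A (f U) := by
  simp [pw]

theorem pw_iota (A : V →ₗ[K] V) (t : Fin n) : iota K V t * pw n A = pw n A * iota K V t := by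
  refine LinearMap.ext fun f => funext fun U => ?_
  simp only [Module.End.mul_apply, iota_apply, pw_apply]
  split_ifs <;> simp

theorem pw_eps (A : V →ₗ[K] V) (t : Fin n) : pw n A * eps K V t = eps K V t * pw n A := by
  refine LinearMap.ext fun f => funext fun U => ?_
  simp only [Module.End.mul_apply, eps_apply, pw_apply]
  split_ifs <;> simp

theorem iota_iota_self (t : Fin n) : iota K V t * iota K V t = 0 := by
  refine LinearMap.ext fun f => funext fun U => ?_
  simp only [Module.End.mul_apply, iota_apply]
  split_ifs with h1 h2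
  · rfl
  · simp
  · exact absurd (Finset.mem_insert_self t U) h2

theorem iota_iota {s t : Fin n} (h : s ≠ t) :
    iota K V s * iota K V t = -(iota K V t * iota K V s) := by
  refine LinearMap.ext fun f => funext fun U => ?_
  simp only [Module.End.mul_apply, iota_apply, LinearMap.neg_apply, Pi.neg_apply,
    Finset.mem_insert, h, h.symm, false_or]
  by_cases hs : s ∈ U
  · by_cases ht : t ∈ U <;> simp [hs, ht]
  by_cases ht : t ∈ U
  · simp [hs, ht]
  simp only [hs, ht, if_false, smul_smul, sgn_insert _ hs, sgn_insert _ ht, ← neg_smul,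
    Finset.insert_comm s t U]
  congr 1
  rcases lt_or_gt_of_ne h with h1 | h1
  · simp only [h1, h1.not_gt, if_true, if_false]; ring
  · simp only [h1, h1.not_gt, if_true, if_false]; ring

theorem iota_eps_self (t : Fin n) : iota K V t * eps K V t = 1 - eps K V t * iota K V t := by
  refine LinearMap.ext fun f => funext fun U => ?_
  simp only [Module.End.mul_apply, iota_apply, eps_apply, LinearMap.sub_apply, Pi.sub_apply,
    Module.End.one_apply, Finset.mem_insert_self, Finset.notMem_erase, if_true, if_false]
  by_cases ht : t ∈ U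
  · simp only [ht, if_true, smul_smul, Finset.insert_erase ht]
    rw [sgn_erase t ht]
    simp [sgn_mul_self]
  · simp only [ht, if_false, smul_smul, Finset.erase_insert ht, sgn_insert _ ht]
    simp [sgn_mul_self]

theorem iota_eps {s t : Fin n} (h : s ≠ t) :
    iota K V t * eps K V s = -(eps K V s * iota K V t) := by
  refine LinearMap.ext fun f => funext fun U => ?_
  simp only [Module.End.mul_apply, iota_apply, eps_apply, LinearMap.neg_apply, Pi.neg_apply,
    Finset.mem_insert, Finset.mem_erase, h, h.symm, false_or, ne_eq, not_false_eq_true, true_and]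
  by_cases ht : t ∈ U
  · by_cases hs : s ∈ U <;> simp [hs, ht]
  by_cases hs : s ∈ U
  swap
  · simp [hs, ht]
  simp only [hs, ht, if_false, if_true, smul_smul, sgn_insert _ ht, ← neg_smul,
    Finset.erase_insert_of_ne h.symm]
  rw [sgn_erase t hs]
  congr 1
  rcases lt_or_gt_of_ne h with h1 | h1
  · simp only [h1, h1.not_gt, if_true, if_false]; ring
  · simp only [h1, h1.not_gt, if_true, if_false]; ring

theorem kD_eq (X : Fin n → V →ₗ[K] V) :
    kD X = ∑ t, pw n (X t) * iota K V t := by
  refine LinearMap.ext fun f => funext fun U => ?_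
  rw [kD_apply, LinearMap.sum_apply, Finset.sum_apply]
  simp only [Module.End.mul_apply, pw_apply, iota_apply]
  rw [← Finset.sum_add_sum_compl U, Finset.sum_eq_zero (s := U) (fun t ht => by simp [ht]),
    zero_add]
  refine Finset.sum_congr rfl fun t ht => ?_
  rw [if_neg (Finset.mem_compl.1 ht), map_zsmul]
  rfl

theorem ring_id {R : Type*} [Ring R] (d0 xa xb th be ea eb ib : R)
    (h1 : d0 * ea * th = xa * th - ea * th * d0) (h2 : d0 * eb * be = -(eb * be * d0))
    (h3 : ib * ea * th * ib = 0) (h4 : ib * eb * be * ib = be * ib)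
    (h5 : ib * d0 = -(d0 * ib)) (h6 : ib * (xa * th + xb * (be + 1)) * ib = 0) :
    (d0 + xb * ib) * (1 + (ea * th + eb * be) * ib) =
      (1 + (ea * th + eb * be) * ib) * (d0 + (xa * th + xb * (be + 1)) * ib) := by
  have e1 : (d0 + xb * ib) * (1 + (ea * th + eb * be) * ib) =
      d0 + xb * ib + (d0 * ea * th) * ib + (d0 * eb * be) * ib + xb * (ib * ea * th * ib) +
        xb * (ib * eb * be * ib) := by noncomm_ring
  have e2 : (1 + (ea * th + eb * be) * ib) * (d0 + (xa * th + xb * (be + 1)) * ib) =
      d0 + (xa * th + xb * (be + 1)) * ib + (ea * th + eb * be) * (ib * d0) +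
        (ea * th + eb * be) * (ib * (xa * th + xb * (be + 1)) * ib) := by noncomm_ring
  rw [e1, e2, h1, h2, h3, h4, h5, h6]
  noncomm_ring

theorem ring_neg1 {R : Type*} [Ring R] (x e i a : R) : x * -(e * i) * a = -(x * e * (i * a)) := by
  noncomm_ring

theorem ring_neg2 {R : Type*} [Ring R] (e i a : R) : -(e * i) * a * i = -(e * (i * a) * i) := by
  noncomm_ring

theorem ring_neg3 {R : Type*} [Ring R] (x i a : R) : x * -(i * a) = -(x * i * a) := by
  noncomm_ring

end ThetaAux

open ThetaAux in
/-- the `θ`-trick: replacing `X b` by `X a ∘ θ + X b ∘ β` (with `θ, β` commuting with the other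
operators, `β` injective) does not increase the Koszul ranks. -/
theorem kRank_theta (X X' : Fin n → V →ₗ[K] V) (G : ℕ → Submodule K V)
    (hG : ∀ e, Module.Finite K (G e)) (a b : Fin n) (hab : a ≠ b) (θ β : V →ₗ[K] V)
    (hθG : ∀ e, ∀ v ∈ G e, θ v ∈ G e) (hβG : ∀ e, ∀ v ∈ G e, β v ∈ G e)
    (hβ : Function.Injective β)
    (hθX : ∀ t, t ≠ b → ∀ v, θ (X t v) = X t (θ v))
    (hβX : ∀ t, t ≠ b → ∀ v, β (X t v) = X t (β v))
    (hX' : ∀ t, t ≠ b → X' t = X t) (hX'b : ∀ v, X' b v = X a (θ v) + X b (β v)) (p j : ℕ) :
    kRank X' G p j ≤ kRank X G p j := by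
  classical
  set d0 : Module.End K (Finset (Fin n) → V) :=
    ∑ t ∈ Finset.univ.erase b, pw n (X t) * iota K V t with hd0
  set be : Module.End K (Finset (Fin n) → V) := pw n (β - LinearMap.id) with hbe
  have hd : kD X = d0 + pw n (X b) * iota K V b := by
    rw [kD_eq, hd0, Finset.sum_erase_add _ _ (Finset.mem_univ b)]
  have hd' : kD X' = d0 + (pw n (X a) * pw n θ + pw n (X b) * (be + 1)) * iota K V b := by
    rw [kD_eq, ← Finset.sum_erase_add _ _ (Finset.mem_univ b), hd0]
    congr 1
    · exact Finset.sum_congr rfl fun t ht => by rw [hX' t (Finset.ne_of_mem_erase ht)]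
    · congr 1
      refine LinearMap.ext fun f => funext fun U => ?_
      simp [pw_apply, hbe, hX'b]
  have cθ : ∀ t, t ≠ b → pw n (X t) * pw n θ = pw n θ * pw n (X t) := fun t ht => by
    refine LinearMap.ext fun f => funext fun U => ?_
    simp [pw_apply, hθX t ht]
  have cβ : ∀ t, t ≠ b → pw n (X t) * be = be * pw n (X t) := fun t ht => by
    refine LinearMap.ext fun f => funext fun U => ?_
    simp [pw_apply, hbe, hβX t ht]
  -- one summand against `eps s * A`
  have key : ∀ (s t : Fin n) (A : V →ₗ[K] V), s ≠ t →
      pw n (X t) * pw n A = pw n A * pw n (X t) →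
      pw n (X t) * iota K V t * eps K V s * pw n A =
        -(eps K V s * pw n A * (pw n (X t) * iota K V t)) := by
    intro s t A hst hc
    calc pw n (X t) * iota K V t * eps K V s * pw n A
        = pw n (X t) * (iota K V t * eps K V s) * pw n A := by noncomm_ring
      _ = -((pw n (X t) * eps K V s) * (iota K V t * pw n A)) := by
          rw [iota_eps hst]; exact ring_neg1 _ _ _ _
      _ = -(eps K V s * (pw n (X t) * pw n A) * iota K V t) := by
          rw [pw_eps, pw_iota]; noncomm_ring
      _ = _ := by rw [hc]; noncomm_ring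
  have h1 : d0 * eps K V a * pw n θ = pw n (X a) * pw n θ - eps K V a * pw n θ * d0 := by
    have ha : a ∈ Finset.univ.erase b := Finset.mem_erase.2 ⟨hab, Finset.mem_univ a⟩
    rw [hd0, ← Finset.sum_erase_add _ _ ha, add_mul, add_mul, mul_add, Finset.sum_mul,
      Finset.sum_mul, Finset.mul_sum]
    have e1 : ∑ t ∈ (Finset.univ.erase b).erase a,
        pw n (X t) * iota K V t * eps K V a * pw n θ =
        -∑ t ∈ (Finset.univ.erase b).erase a, eps K V a * pw n θ * (pw n (X t) * iota K V t) := by
      rw [← Finset.sum_neg_distrib]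
      refine Finset.sum_congr rfl fun t ht => key a t θ (Finset.ne_of_mem_erase ht).symm
        (cθ t (Finset.ne_of_mem_erase (Finset.mem_of_mem_erase ht)))
    have e2 : pw n (X a) * iota K V a * eps K V a * pw n θ =
        pw n (X a) * pw n θ - eps K V a * pw n θ * (pw n (X a) * iota K V a) := by
      calc pw n (X a) * iota K V a * eps K V a * pw n θ
          = pw n (X a) * (iota K V a * eps K V a) * pw n θ := by noncomm_ring
        _ = pw n (X a) * pw n θ - (pw n (X a) * eps K V a) * (iota K V a * pw n θ) := by
            rw [iota_eps_self]; simp only [mul_sub, sub_mul, mul_one, mul_assoc]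
        _ = pw n (X a) * pw n θ - eps K V a * (pw n (X a) * pw n θ) * iota K V a := by
            rw [pw_eps, pw_iota]; noncomm_ring
        _ = _ := by
            conv_lhs => rw [show eps K V a * (pw n (X a) * pw n θ) =
              eps K V a * (pw n θ * pw n (X a)) by rw [cθ a hab]]
            noncomm_ring
    rw [e1, e2]; abel
  have h2 : d0 * eps K V b * be = -(eps K V b * be * d0) := by
    rw [hd0, Finset.sum_mul, Finset.sum_mul, Finset.mul_sum, ← Finset.sum_neg_distrib]
    exact Finset.sum_congr rfl fun t ht => key b t _ (Finset.ne_of_mem_erase ht).symm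
      (cβ t (Finset.ne_of_mem_erase ht))
  have h3 : iota K V b * eps K V a * pw n θ * iota K V b = 0 := by
    calc iota K V b * eps K V a * pw n θ * iota K V b
        = -(eps K V a * (iota K V b * pw n θ) * iota K V b) := by
          rw [iota_eps hab]; exact ring_neg2 _ _ _
      _ = -(eps K V a * pw n θ * (iota K V b * iota K V b)) := by rw [pw_iota]; noncomm_ring
      _ = 0 := by rw [iota_iota_self]; simp
  have h4 : iota K V b * eps K V b * be * iota K V b = be * iota K V b := by
    calc iota K V b * eps K V b * be * iota K V b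
        = be * iota K V b - eps K V b * (iota K V b * be) * iota K V b := by
          rw [iota_eps_self]; simp only [sub_mul, one_mul, mul_assoc]
      _ = be * iota K V b - eps K V b * be * (iota K V b * iota K V b) := by
          rw [hbe, pw_iota]; noncomm_ring
      _ = _ := by rw [iota_iota_self]; simp
  have h5 : iota K V b * d0 = -(d0 * iota K V b) := by
    rw [hd0, Finset.sum_mul, Finset.mul_sum, ← Finset.sum_neg_distrib]
    refine Finset.sum_congr rfl fun t ht => ?_
    calc iota K V b * (pw n (X t) * iota K V t)
        = (iota K V b * pw n (X t)) * iota K V t := by noncomm_ring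
      _ = pw n (X t) * (iota K V b * iota K V t) := by rw [pw_iota]; noncomm_ring
      _ = _ := by rw [iota_iota (Finset.ne_of_mem_erase ht).symm]; exact ring_neg3 _ _ _
  have h6 : iota K V b * (pw n (X a) * pw n θ + pw n (X b) * (be + 1)) * iota K V b = 0 := by
    have : pw n (X a) * pw n θ + pw n (X b) * (be + 1) = pw n (X' b) := by
      refine LinearMap.ext fun f => funext fun U => ?_
      simp [pw_apply, hbe, hX'b]
    rw [this, pw_iota, mul_assoc, iota_iota_self, mul_zero]
  set F : Module.End K (Finset (Fin n) → V) :=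
    1 + (eps K V a * pw n θ + eps K V b * be) * iota K V b with hF
  have hcomm : kD X * F = F * kD X' := by
    rw [hd, hd']
    exact ring_id _ _ _ _ _ _ _ _ h1 h2 h3 h4 h5 h6
  have hFin : ∀ (f : Finset (Fin n) → V) (T : Finset (Fin n)), b ∈ T → F f T = β (f T) := by
    intro f T hT
    have hb' : b ∈ T.erase a := Finset.mem_erase.2 ⟨hab.symm, hT⟩
    simp only [hF, hbe, LinearMap.add_apply, Module.End.mul_apply, Module.End.one_apply,
      Pi.add_apply, eps_apply, pw_apply, iota_apply, hT, hb', if_true, Finset.notMem_erase,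
      if_false, map_zero, smul_zero, ite_self, Finset.insert_erase hT, map_zsmul, smul_smul]
    rw [sgn_erase b hT]
    simp [sgn_mul_self]
  have hFout : ∀ (f : Finset (Fin n) → V) (T : Finset (Fin n)), b ∉ T → F f T = f T +
      if a ∈ T then (sgn a T * sgn b (T.erase a)) • θ (f (insert b (T.erase a))) else 0 := by
    intro f T hT
    have hb' : b ∉ T.erase a := fun h => hT (Finset.mem_of_mem_erase h)
    simp only [hF, hbe, LinearMap.add_apply, Module.End.mul_apply, Module.End.one_apply,
      Pi.add_apply, eps_apply, pw_apply, iota_apply, hT, hb', if_false, map_zsmul, smul_smul,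
      add_zero]
  have hinj : Function.Injective F := by
    rw [injective_iff_map_eq_zero]
    intro f hf
    have hb : ∀ T, b ∈ T → f T = 0 := fun T hT => by
      apply hβ
      rw [← hFin f T hT, hf, map_zero]; rfl
    funext T
    by_cases hT : b ∈ T
    · exact hb T hT
    · have := hFout f T hT
      rw [hf, hb _ (Finset.mem_insert_self _ _)] at this
      simpa using this.symm
  have hmap : ∀ f ∈ kChains n G p j, F f ∈ kChains n G p j := by
    intro f hf
    rw [mem_kChains] at hf ⊢
    intro T
    by_cases hT : b ∈ T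
    · rw [hFin f T hT]
      exact ⟨fun h => hβG _ _ ((hf T).1 h), fun h => by rw [(hf T).2 h, map_zero]⟩
    · rw [hFout f T hT]
      by_cases ha : a ∈ T
      · have hc : (insert b (T.erase a)).card = T.card := by
          rw [Finset.card_insert_of_notMem (fun h => hT (Finset.mem_of_mem_erase h)),
            Finset.card_erase_add_one ha]
        rw [if_pos ha]
        refine ⟨fun h => add_mem ((hf T).1 h) (zsmul_mem (hθG _ _ ((hf _).1 (hc ▸ h))) _),
          fun h => ?_⟩
        rw [(hf T).2 h, (hf _).2 (hc ▸ h)]; simp
      · rw [if_neg ha, add_zero]; exact hf T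
  have := finite_kChains (n := n) G hG p j
  unfold kRank
  rw [(Submodule.equivMapOfInjective F hinj _).finrank_eq]
  refine Submodule.finrank_mono ?_
  rintro _ ⟨_, ⟨f, hf, rfl⟩, rfl⟩
  refine ⟨F f, hmap f hf, ?_⟩
  exact LinearMap.congr_fun hcomm f

end Crest.Agent.R181.MM
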