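import Crest.Agent.R181.MM.Defs

/-!
Row 181, module MM (Clements–Lindström and the lex-plus-powers Betti bound for monomial ideals).
-/

set_option autoImplicit false

namespace Crest.Agent.R181.MM

open Module

variable {n : ℕ}

theorem Lex_lt_iff {m m' : Fin n → ℕ} :
    toLex m < toLex m' ↔ ∃ i, (∀ j < i, m j = m' j) ∧ m i < m' i := Iff.rfl

theorem Lex_card_rank {β : Type*} (S : Finset β) (r : β → ℕ) (hr : Set.InjOn r S)
    (h : ∀ m ∈ S, 1 ≤ r m ∧ r m ≤ S.card) {c : ℕ} (hc : c ≤ S.card) :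
    (S.filter fun m => r m ≤ c).card = c := by
  have h1 : S.image r = Finset.Icc 1 S.card := by
    refine Finset.eq_of_subset_of_card_le (fun x hx => ?_) ?_
    · obtain ⟨m, hm, rfl⟩ := Finset.mem_image.1 hx
      exact Finset.mem_Icc.2 (h m hm)
    · rw [Finset.card_image_of_injOn hr]
      simp
  have h2 : (S.filter fun m => r m ≤ c).image r = Finset.Icc 1 c := by
    rw [← Finset.filter_image (p := fun x => x ≤ c), h1]
    ext x
    simp only [Finset.mem_filter, Finset.mem_Icc]
    omega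
  rw [← Finset.card_image_of_injOn (hr.mono (Finset.coe_subset.2 (Finset.filter_subset _ _))), h2]
  simp

theorem lexFinal_lexify (a : Fin n → ℕ) (D : Finset (Fin n → ℕ)) : LexFinal a (lexify a D) := by
  refine ⟨Finset.filter_subset _ _, fun m hm m' hm' hd hle => ?_⟩
  unfold lexify at hm ⊢
  rw [Finset.mem_filter] at hm ⊢
  refine ⟨hm', ?_⟩
  rw [hd]
  refine le_trans (Finset.card_le_card fun x hx => ?_) hm.2
  rw [Finset.mem_filter] at hx ⊢
  exact ⟨hx.1, hx.2.trans hle⟩

theorem card_lay_lexify {a : Fin n → ℕ} {D : Finset (Fin n → ℕ)} (hD : D ⊆ box a) (e : ℕ) :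
    (lay (lexify a D) e).card = (lay D e).card := by
  classical
  have key : ∀ x y : Fin n → ℕ, y ∈ lay (box a) e → toLex x < toLex y →
      ((lay (box a) e).filter fun m' => toLex m' ≤ toLex x).card <
        ((lay (box a) e).filter fun m' => toLex m' ≤ toLex y).card := by
    intro x y hy hxy
    refine Finset.card_lt_card ⟨fun z hz => ?_, fun h => ?_⟩
    · rw [Finset.mem_filter] at hz ⊢
      exact ⟨hz.1, hz.2.trans hxy.le⟩
    · exact (Finset.mem_filter.1 (h (Finset.mem_filter.2 ⟨hy, le_rfl⟩))).2.not_gt hxy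
  rw [← Lex_card_rank (lay (box a) e)
    (fun m => ((lay (box a) e).filter fun m' => toLex m' ≤ toLex m).card) ?_ ?_
    (c := (lay D e).card) (Finset.card_le_card (Finset.filter_subset_filter _ hD))]
  · congr 1
    ext m
    unfold lexify
    rw [mem_lay, Finset.mem_filter, Finset.mem_filter, mem_lay]
    constructor
    · rintro ⟨⟨h1, h2⟩, rfl⟩
      exact ⟨⟨h1, rfl⟩, by convert h2⟩
    · rintro ⟨⟨h1, rfl⟩, h2⟩
      exact ⟨⟨h1, by convert h2⟩, rfl⟩
  · intro x hx y hy hxy
    rcases lt_trichotomy (toLex x) (toLex y) with h | h | h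
    · exact absurd hxy (key x y hy h).ne
    · exact toLex.injective h
    · exact absurd hxy (key y x hx h).ne'
  · intro m hm
    exact ⟨Finset.card_pos.2 ⟨m, Finset.mem_filter.2 ⟨hm, le_rfl⟩⟩,
      Finset.card_le_card (Finset.filter_subset _ _)⟩

/-- final lex segments of one degree are nested. -/
theorem LexFinal.lay_subset {a : Fin n → ℕ} {E E' : Finset (Fin n → ℕ)} (hE : LexFinal a E)
    (hE' : LexFinal a E') {e : ℕ} (h : (lay E e).card ≤ (lay E' e).card) :
    lay E e ⊆ lay E' e := by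
  intro m hm
  by_contra hm'
  obtain ⟨hm1, hm2⟩ := mem_lay.1 hm
  refine h.not_gt (Finset.card_lt_card ⟨fun x hx => ?_, fun hs => hm' (hs hm)⟩)
  obtain ⟨hx1, hx2⟩ := mem_lay.1 hx
  rcases le_total (toLex x) (toLex m) with hle | hle
  · exact mem_lay.2 ⟨hE.2 m hm1 x (hE'.1 hx1) (hx2.trans hm2.symm) hle, hx2⟩
  · exact absurd (mem_lay.2 ⟨hE'.2 x hx1 m (hE.1 hm1) (hm2.trans hx2.symm) hle, hm2⟩) hm'

theorem LexFinal.subset {a : Fin n → ℕ} {E E' : Finset (Fin n → ℕ)} (hE : LexFinal a E)
    (hE' : LexFinal a E') (h : ∀ e, (lay E e).card ≤ (lay E' e).card) : E ⊆ E' := by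
  intro m hm
  exact (mem_lay.1 (hE.lay_subset hE' (h (deg m)) (mem_lay.2 ⟨hm, rfl⟩))).1

theorem lexify_congr (a : Fin n → ℕ) {D D' : Finset (Fin n → ℕ)}
    (h : ∀ e, (lay D e).card = (lay D' e).card) : lexify a D = lexify a D' := by
  unfold lexify
  simp only [h]

theorem toLex_snoc_lt {m m' : Fin n → ℕ} {j j' : ℕ} :
    toLex (Fin.snoc m j : Fin (n + 1) → ℕ) < toLex (Fin.snoc m' j' : Fin (n + 1) → ℕ) ↔
      toLex m < toLex m' ∨ (m = m' ∧ j < j') := by
  rw [Lex_lt_iff, Lex_lt_iff]
  constructor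
  · rintro ⟨i, h1, h2⟩
    induction i using Fin.lastCases with
    | last =>
      refine Or.inr ⟨funext fun k => ?_, by simpa using h2⟩
      simpa using h1 k.castSucc (Fin.castSucc_lt_last k)
    | cast i =>
      refine Or.inl ⟨i, fun k hk => ?_, by simpa using h2⟩
      simpa using h1 k.castSucc (Fin.castSucc_lt_castSucc_iff.2 hk)
  · rintro (⟨i, h1, h2⟩ | ⟨rfl, h⟩)
    · refine ⟨i.castSucc, fun k hk => ?_, by simpa using h2⟩
      induction k using Fin.lastCases with
      | last => exact absurd hk (Fin.castSucc_lt_last i).not_gt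
      | cast k => simpa using h1 k (Fin.castSucc_lt_castSucc_iff.1 hk)
    · refine ⟨Fin.last n, fun k hk => ?_, by simpa using h⟩
      induction k using Fin.lastCases with
      | last => exact absurd hk (lt_irrefl _)
      | cast k => simp

/-- going down one degree while staying lex above a given monomial of smaller degree. -/
theorem exists_pred_ge {m ν : Fin n → ℕ} (h : toLex m < toLex ν) (hd : deg m < deg ν) :
    ∃ t ν', up t ν' = ν ∧ toLex m ≤ toLex ν' := by
  obtain ⟨i, h1, h2⟩ := Lex_lt_iff.1 h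
  have hup : ∀ t, 0 < ν t → up t (Function.update ν t (ν t - 1)) = ν := fun t ht => by
    funext k
    by_cases hk : k = t
    · subst hk
      simp only [up, Pi.add_apply, Function.update_self, Pi.single_eq_same]
      omega
    · simp [up, hk]
  by_cases ht : ∃ t, i < t ∧ 0 < ν t
  · obtain ⟨t, ht1, ht2⟩ := ht
    refine ⟨t, _, hup t ht2, (Lex_lt_iff.2 ⟨i, fun j hj => ?_, ?_⟩).le⟩
    · rw [Function.update_of_ne (hj.trans ht1).ne, h1 j hj]
    · rwa [Function.update_of_ne ht1.ne]
  · push Not at ht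
    refine ⟨i, _, hup i (by omega), ?_⟩
    by_cases hi : m i < ν i - 1
    · refine (Lex_lt_iff.2 ⟨i, fun j hj => ?_, by rwa [Function.update_self]⟩).le
      rw [Function.update_of_ne hj.ne, h1 j hj]
    · have hle : ∀ k, Function.update ν i (ν i - 1) k ≤ m k := fun k => by
        rcases lt_trichotomy k i with hk | rfl | hk
        · rw [Function.update_of_ne hk.ne, h1 k hk]
        · rw [Function.update_self]
          omega
        · rw [Function.update_of_ne hk.ne']
          exact (ht k hk).trans (Nat.zero_le _)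
      have hdeg := deg_up i (Function.update ν i (ν i - 1))
      rw [hup i (by omega)] at hdeg
      have hs : ∑ k, Function.update ν i (ν i - 1) k = ∑ k, m k :=
        le_antisymm (Finset.sum_le_sum fun k _ => hle k) (by unfold deg at hd hdeg; omega)
      rw [Finset.sum_eq_sum_iff_of_le fun k _ => hle k] at hs
      exact le_of_eq (congrArg toLex (funext fun k => (hs k (Finset.mem_univ k)).symm))

theorem toLex_lt_up (t : Fin n) (m : Fin n → ℕ) : toLex m < toLex (up t m) :=
  Lex_lt_iff.2 ⟨t, fun j hj => by simp [up, hj.ne], by simp [up]⟩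

theorem Lex_snoc_mem_box {a : Fin (n + 1) → ℕ} {m : Fin n → ℕ} {j : ℕ} :
    (Fin.snoc m j : Fin (n + 1) → ℕ) ∈ box a ↔ m ∈ box (Fin.init a) ∧ j < a (Fin.last n) := by
  simp [mem_box, Fin.forall_fin_succ', Fin.init]

theorem LexFinal.slice {a : Fin (n + 1) → ℕ} {E : Finset (Fin (n + 1) → ℕ)} (hE : LexFinal a E)
    (j : ℕ) : LexFinal (Fin.init a) (slice E j) := by
  refine ⟨fun m hm => (Lex_snoc_mem_box.1 (hE.1 (mem_slice.1 hm))).1, fun m hm m' hm' hd hle => ?_⟩
  rw [mem_slice] at hm ⊢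
  refine hE.2 _ hm _ (Lex_snoc_mem_box.2 ⟨hm', (Lex_snoc_mem_box.1 (hE.1 hm)).2⟩)
    (by rw [deg_snoc, deg_snoc, hd]) ?_
  rcases hle.lt_or_eq with h | h
  · exact (toLex_snoc_lt.2 (Or.inl h)).le
  · rw [toLex.injective h]

theorem LexFinal.stable {a : Fin (n + 1) → ℕ} {E : Finset (Fin (n + 1) → ℕ)} (hE : LexFinal a E) :
    Stable (a (Fin.last n)) E := by
  intro t m hm hlt
  refine hE.2 _ hm _ (mem_box.2 fun i => ?_) (by rw [deg_up, deg_up])
    (Lex_lt_iff.2 ⟨t.castSucc, fun j hj => ?_, ?_⟩).le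
  · by_cases hi : i = Fin.last n
    · subst hi
      simpa [up] using hlt
    · have h1 := mem_box.1 (hE.1 hm) i
      have h2 := le_up t.castSucc m i
      simp only [up, Pi.add_apply, Pi.single_eq_of_ne hi, add_zero]
      exact h2.trans_lt h1
  · simp [up, hj.ne, (hj.trans (Fin.castSucc_lt_last t)).ne]
  · simp [up, (Fin.castSucc_lt_last t).ne]

theorem Down.slice {D : Finset (Fin (n + 1) → ℕ)} (hD : Down D) (j : ℕ) : Down (slice D j) := by
  intro m hm m' hle
  rw [mem_slice] at hm ⊢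
  refine hD _ hm _ fun i => ?_
  induction i using Fin.lastCases with
  | last => simp
  | cast i => simpa using hle i

theorem slice_subset_box {a : Fin (n + 1) → ℕ} {D : Finset (Fin (n + 1) → ℕ)} (hD : D ⊆ box a)
    (j : ℕ) : slice D j ⊆ box (Fin.init a) :=
  fun _ hm => (Lex_snoc_mem_box.1 (hD (mem_slice.1 hm))).1

theorem Lex_card_fiber {D : Finset (Fin (n + 1) → ℕ)} {s j : ℕ} (hj : j ≤ s) :
    ((lay D s).filter fun m => m (Fin.last n) = j).card = (lay (slice D j) (s - j)).card := by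
  symm
  refine Finset.card_bij (fun m _ => (Fin.snoc m j : Fin (n + 1) → ℕ)) ?_ ?_ ?_
  · intro m hm
    obtain ⟨h1, h2⟩ := mem_lay.1 hm
    refine Finset.mem_filter.2 ⟨mem_lay.2 ⟨mem_slice.1 h1, ?_⟩, by simp⟩
    rw [deg_snoc]
    omega
  · intro m _ m' _ h
    simpa using congrArg Fin.init h
  · intro m hm
    obtain ⟨h1, rfl⟩ := Finset.mem_filter.1 hm
    obtain ⟨h2, h3⟩ := mem_lay.1 h1
    have h4 := deg_snoc (Fin.init m) (m (Fin.last n))
    rw [Fin.snoc_init_self] at h4
    refine ⟨Fin.init m, mem_lay.2 ⟨mem_slice.2 ?_, by omega⟩, Fin.snoc_init_self m⟩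
    rwa [Fin.snoc_init_self]

/-- counting a layer slice by slice. -/
theorem card_lay_eq_sum {D : Finset (Fin (n + 1) → ℕ)} (s : ℕ) :
    (lay D s).card = ∑ j ∈ Finset.range (s + 1), (lay (slice D j) (s - j)).card := by
  rw [Finset.card_eq_sum_card_fiberwise (f := fun m => m (Fin.last n)) (t := Finset.range (s + 1))]
  · exact Finset.sum_congr rfl fun j hj =>
      Lex_card_fiber (Nat.lt_succ_iff.1 (Finset.mem_range.1 hj))
  · intro m hm
    have h3 := (mem_lay.1 hm).2
    have h4 := deg_snoc (Fin.init m) (m (Fin.last n))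
    rw [Fin.snoc_init_self] at h4
    exact Finset.mem_coe.2 (Finset.mem_range.2 (show m (Fin.last n) < s + 1 by omega))

theorem card_lay_filter_last {D : Finset (Fin (n + 1) → ℕ)} (s : ℕ) :
    ((lay D s).filter fun m => 1 ≤ m (Fin.last n)).card + (lay (slice D 0) s).card =
      (lay D s).card := by
  have h := Lex_card_fiber (D := D) (Nat.zero_le s)
  rw [Nat.sub_zero] at h
  rw [← h, ← Finset.card_filter_add_card_filter_not (s := lay D s)
    (p := fun m => 1 ≤ m (Fin.last n))]
  congr 2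
  ext m
  simp

end Crest.Agent.R181.MM
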