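import Crest.Agent.R181.MM.Bridge
import Crest.Agent.R181.MM.Induct

/-!
Row 181, module MM (Clements–Lindström and the lex-plus-powers Betti bound for monomial ideals).
-/

set_option autoImplicit false

namespace Crest.Agent.R181.MM

open Module

open MvPolynomial Crest.AlgebraR.LPP

variable {n : ℕ}

/-- the lex segment attached to a final lex segment `Λ` of the box. -/
def segU (Λ : Finset (Fin n → ℕ)) (d : ℕ) : Set (Fin n →₀ ℕ) :=
  {m | m.degree = d ∧ ∀ ν ∈ lay Λ d, toLex ν < toLex (⇑m : Fin n → ℕ)}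

theorem Main_toLex_le {m m' : Fin n →₀ ℕ} (h : toLex m ≤ toLex m') :
    toLex (⇑m : Fin n → ℕ) ≤ toLex (⇑m' : Fin n → ℕ) := by
  rcases h.eq_or_lt with h | h
  · rw [toLex_inj.1 h]
  · exact le_of_lt (show toLex (⇑m : Fin n → ℕ) < toLex (⇑m' : Fin n → ℕ) from h)

theorem Main_deg (m : Fin n →₀ ℕ) : deg (⇑m) = m.degree := by
  rw [deg, Finsupp.degree_eq_sum]

theorem Main_upper {Λ : Finset (Fin n → ℕ)} (hd : Down Λ) :
    IsUpperSet {m : Fin n →₀ ℕ | ⇑m ∉ Λ} :=
  fun _ m' hle hm hm' => hm (hd m' hm' _ fun i => hle i)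

theorem isLexSegment_segU (Λ : Finset (Fin n → ℕ)) (d : ℕ) : IsLexSegment n d (segU Λ d) := by
  refine ⟨fun m hm => hm.1, fun m hm m' hm' hle => ⟨hm', fun ν hν => ?_⟩⟩
  exact (hm.2 ν hν).trans_le (Main_toLex_le hle)

theorem degreePiece_eq_lppPiece {a : Fin n → ℕ} {Λ : Finset (Fin n → ℕ)} (hΛ : LexFinal a Λ)
    (hd : Down Λ) (d : ℕ) :
    degreePiece (monIdeal {m : Fin n →₀ ℕ | ⇑m ∉ Λ}) d = lppPiece a (segU Λ d) d := by
  have hup := Main_upper hd
  apply le_antisymm
  · intro g hg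
    obtain ⟨hg1, hg2⟩ := hg
    have hg3 := (mem_monIdeal hup).1 hg2
    rw [g.as_sum]
    refine Submodule.sum_mem _ fun m hm => ?_
    have hdeg : m.degree = d := by
      by_contra hne
      exact (mem_support_iff.1 hm) (IsHomogeneous.coeff_eq_zero hg1 hne)
    by_cases hb : ⇑m ∈ box a
    · refine Submodule.mem_sup_left ?_
      have e : monomial m (coeff m g) = coeff m g • monomial m (1 : ℂ) := by
        rw [smul_monomial, smul_eq_mul, mul_one]
      rw [e]
      refine Submodule.smul_mem _ _ (Submodule.subset_span ⟨m, ⟨hdeg, fun ν hν => ?_⟩, rfl⟩)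
      obtain ⟨hν1, hν2⟩ := mem_lay.1 hν
      by_contra hlt
      exact hg3 m hm (hΛ.2 ν hν1 m hb (by rw [hν2, Main_deg, hdeg]) (not_lt.1 hlt))
    · refine Submodule.mem_sup_right ⟨isHomogeneous_monomial _ hdeg, ?_⟩
      rw [mem_box] at hb
      push Not at hb
      obtain ⟨i, hi⟩ := hb
      have hle : Finsupp.single i (a i) ≤ m := Finsupp.single_le_iff.2 hi
      have e : monomial m (coeff m g) =
          monomial (m - Finsupp.single i (a i)) (coeff m g) * X i ^ a i := by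
        rw [X_pow_eq_monomial, monomial_mul, mul_one, tsub_add_cancel_of_le hle]
      change monomial m (coeff m g) ∈ purePowers a
      rw [e]
      exact Ideal.mul_mem_left _ _ (Ideal.subset_span ⟨i, rfl⟩)
  · refine sup_le (Submodule.span_le.2 ?_) fun g hg => ⟨hg.1, ?_⟩
    · rintro _ ⟨m, hm, rfl⟩
      refine ⟨isHomogeneous_monomial _ hm.1, Ideal.subset_span ⟨m, fun hΛm => ?_, rfl⟩⟩
      exact lt_irrefl _ (hm.2 m (mem_lay.2 ⟨hΛm, by rw [Main_deg, hm.1]⟩))
    · have hle : purePowers a ≤ monIdeal {m : Fin n →₀ ℕ | ⇑m ∉ Λ} := by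
        refine Ideal.span_le.2 ?_
        rintro _ ⟨i, rfl⟩
        refine Ideal.subset_span ⟨Finsupp.single i (a i), fun hm => ?_, X_pow_eq_monomial.symm⟩
        have := mem_box.1 (hΛ.1 hm) i
        simp at this
      exact hle hg.2

/-- version with a down-set of standard monomials and Koszul ranks. -/
theorem main_of_down (a : Fin n → ℕ) (ha : Monotone a) (I : Ideal (MvPolynomial (Fin n) ℂ))
    (D : Finset (Fin n → ℕ)) (hD : D ⊆ box a) (hd : Down D)
    (hH : ∀ e, finrank ℂ (quotPiece I e) = (lay D e).card)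
    (hR : ∀ p j, monoRank ℂ D p j ≤ kRank (mulX I) (quotPiece I) p j) :
    ∃ U : ℕ → Set (Fin n →₀ ℕ), (∀ d, IsLexSegment n d (U d)) ∧
      (∀ d, Module.finrank ℂ (lppPiece a (U d) d) = Module.finrank ℂ (degreePiece I d)) ∧
      ∃ J : Ideal (MvPolynomial (Fin n) ℂ),
        (∀ g ∈ J, ∀ d : ℕ, MvPolynomial.homogeneousComponent d g ∈ J) ∧
        (∀ d, degreePiece J d = lppPiece a (U d) d) ∧
        ∀ p j : ℕ, gradedBetti I p j ≤ gradedBetti J p j := by
  have hΛ := lexFinal_lexify a D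
  have hdΛ := down_lexify ha hD hd
  have hup := Main_upper hdΛ
  have hmem : ∀ m : Fin n →₀ ℕ,
      (⇑m ∈ lexify a D ↔ m ∉ {m : Fin n →₀ ℕ | ⇑m ∉ lexify a D}) := fun m => by simp
  have hq : ∀ e, finrank ℂ (quotPiece I e) =
      finrank ℂ (quotPiece (monIdeal {m : Fin n →₀ ℕ | ⇑m ∉ lexify a D}) e) := fun e => by
    rw [hH, finrank_quotPiece_monIdeal hup hmem, card_lay_lexify hD]
  refine ⟨segU (lexify a D), isLexSegment_segU _, fun d => ?_,
    monIdeal {m : Fin n →₀ ℕ | ⇑m ∉ lexify a D}, monIdeal_homogeneous hup,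
    degreePiece_eq_lppPiece hΛ hdΛ, gradedBetti_le_of_kRank _ _ hq fun p j => ?_⟩
  · rw [← degreePiece_eq_lppPiece hΛ hdΛ]
    have h1 := finrank_degreePiece_add I d
    have h2 := finrank_degreePiece_add (monIdeal {m : Fin n →₀ ℕ | ⇑m ∉ lexify a D}) d
    rw [hq] at h1
    omega
  · rw [kRank_monIdeal hup hmem]
    exact (monoRank_lexify_le n a ha D hD hd p j).trans (hR p j)

/-- Clements–Lindström and Mermin–Murai for monomial ideals containing the pure powers. -/
theorem main (n : ℕ) (a : Fin n → ℕ) (ha : Monotone a) (E : Set (Fin n →₀ ℕ)) (hE : IsUpperSet E)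
    (hP : ∀ i, Finsupp.single i (a i) ∈ E) :
    ∃ U : ℕ → Set (Fin n →₀ ℕ), (∀ d, IsLexSegment n d (U d)) ∧
      (∀ d, Module.finrank ℂ (lppPiece a (U d) d) =
        Module.finrank ℂ (degreePiece (Ideal.span ((fun m => monomial m (1 : ℂ)) '' E)) d)) ∧
      ∃ J : Ideal (MvPolynomial (Fin n) ℂ),
        (∀ g ∈ J, ∀ d : ℕ, MvPolynomial.homogeneousComponent d g ∈ J) ∧
        (∀ d, degreePiece J d = lppPiece a (U d) d) ∧
        ∀ p j : ℕ, gradedBetti (Ideal.span ((fun m => monomial m (1 : ℂ)) '' E)) p j ≤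
          gradedBetti J p j := by
  classical
  have hmem : ∀ m : Fin n →₀ ℕ,
      (⇑m ∈ (box a).filter (fun m => Finsupp.equivFunOnFinite.symm m ∉ E) ↔ m ∉ E) := by
    intro m
    rw [Finset.mem_filter, Finsupp.equivFunOnFinite_symm_coe]
    refine ⟨fun h => h.2, fun h => ⟨mem_box.2 fun i => ?_, h⟩⟩
    by_contra hi
    exact h (hE (Finsupp.single_le_iff.2 (not_lt.1 hi)) (hP i))
  refine main_of_down a ha (monIdeal E)
    ((box a).filter fun m => Finsupp.equivFunOnFinite.symm m ∉ E) (Finset.filter_subset _ _)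
    (fun m hm m' hle => ?_) (finrank_quotPiece_monIdeal hE hmem)
    fun p j => (kRank_monIdeal hE hmem p j).ge
  obtain ⟨h1, h2⟩ := Finset.mem_filter.1 hm
  refine Finset.mem_filter.2 ⟨mem_box.2 fun i => (hle i).trans_lt (mem_box.1 h1 i), fun h => ?_⟩
  exact h2 (hE (fun i => hle i) h)

end Crest.Agent.R181.MM
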