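import Crest.Agent.R181.MM.KLeading
import Crest.Agent.R181.MM.Lex

/-!
Row 181, module MM (Clements–Lindström and the lex-plus-powers Betti bound for monomial ideals).
-/

set_option autoImplicit false

namespace Crest.Agent.R181.MM

open Module

variable (K : Type*) [DivisionRing K] {n : ℕ}

/-- embedding of chains in `n` variables as chains in `n + 1` variables: exponent `j` of the last
variable, and the last variable is (`ε = true`) or is not among the wedge factors. -/
noncomputable def emb (n j : ℕ) (ε : Bool) :
    (Finset (Fin n) → ((Fin n → ℕ) →₀ K)) →ₗ[K] (Finset (Fin (n + 1)) → ((Fin (n + 1) → ℕ) →₀ K)) :=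
  LinearMap.pi fun T : Finset (Fin (n + 1)) =>
    if decide (Fin.last n ∈ T) = ε then
      Finsupp.lmapDomain K K (fun m : Fin n → ℕ => (Fin.snoc m j : Fin (n + 1) → ℕ)) ∘ₗ
        LinearMap.proj (Finset.univ.filter fun t : Fin n => t.castSucc ∈ T)
    else 0

namespace Slice0

/-- the part of `T` among the first `n` variables -/
def res (T : Finset (Fin (n + 1))) : Finset (Fin n) :=
  Finset.univ.filter fun t : Fin n => t.castSucc ∈ T

@[simp] theorem mem_res {T : Finset (Fin (n + 1))} {t : Fin n} : t ∈ res T ↔ t.castSucc ∈ T := by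
  simp [res]

theorem emb_apply (j : ℕ) (ε : Bool) (g : Finset (Fin n) → ((Fin n → ℕ) →₀ K))
    (T : Finset (Fin (n + 1))) :
    emb K n j ε g T = if decide (Fin.last n ∈ T) = ε then
      Finsupp.mapDomain (fun m : Fin n → ℕ => (Fin.snoc m j : Fin (n + 1) → ℕ)) (g (res T))
      else 0 := by
  simp only [emb, LinearMap.pi_apply]
  split_ifs <;> rfl

theorem res_map (T : Finset (Fin n)) : res (T.map Fin.castSuccEmb) = T := by
  ext t
  simp

theorem res_insert_last (U : Finset (Fin (n + 1))) : res (insert (Fin.last n) U) = res U := by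
  ext t
  simp [Fin.castSucc_ne_last]

theorem res_insert_cs (U : Finset (Fin (n + 1))) (t : Fin n) :
    res (insert t.castSucc U) = insert t (res U) := by
  ext s
  simp

theorem last_notMem_map (T : Finset (Fin n)) : Fin.last n ∉ T.map Fin.castSuccEmb := by
  simp [Fin.castSucc_ne_last]

theorem last_mem_insert_cs (U : Finset (Fin (n + 1))) (t : Fin n) :
    Fin.last n ∈ insert t.castSucc U ↔ Fin.last n ∈ U := by
  simp [(Fin.castSucc_ne_last t).symm]

theorem ext_res {U W : Finset (Fin (n + 1))} (h1 : res U = res W)
    (h2 : Fin.last n ∈ U ↔ Fin.last n ∈ W) : U = W := by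
  ext x
  induction x using Fin.lastCases with
  | last => exact h2
  | cast t => rw [← mem_res, ← mem_res, h1]

theorem snoc_inj (j : ℕ) :
    Function.Injective (fun m : Fin n → ℕ => (Fin.snoc m j : Fin (n + 1) → ℕ)) := by
  intro a b h
  have := congrArg Fin.init h
  simpa using this

theorem sum_compl_split {M : Type*} [AddCommMonoid M] (U : Finset (Fin (n + 1)))
    (f : Fin (n + 1) → M) :
    ∑ t ∈ Uᶜ, f t = ∑ t ∈ (res U)ᶜ, f t.castSucc + if Fin.last n ∈ U then 0 else f (Fin.last n) := by
  have h1 : ∑ t ∈ Uᶜ, f t = ∑ t, if t ∈ Uᶜ then f t else 0 := by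
    rw [Finset.sum_ite_mem, Finset.univ_inter]
  have h2 : ∑ t ∈ (res U)ᶜ, f t.castSucc = ∑ t, if t ∈ (res U)ᶜ then f t.castSucc else 0 := by
    rw [Finset.sum_ite_mem, Finset.univ_inter]
  rw [h1, h2, Fin.sum_univ_castSucc]
  congr 1
  · simp only [Finset.mem_compl, mem_res]
  · simp only [Finset.mem_compl, ite_not]

theorem card_lt_cs (U : Finset (Fin (n + 1))) (t : Fin n) :
    (U.filter (· < t.castSucc)).card = ((res U).filter (· < t)).card := by
  rw [← Finset.card_map (s := (res U).filter (· < t)) Fin.castSuccEmb]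
  congr 1
  ext x
  induction x using Fin.lastCases with
  | last => simp [Fin.castSucc_ne_last, (Fin.castSucc_lt_last t).le]
  | cast s => simp

theorem card_lt_last (U : Finset (Fin (n + 1))) :
    (U.filter (· < Fin.last n)).card = (res U).card := by
  rw [← Finset.card_map (s := res U) Fin.castSuccEmb]
  congr 1
  ext x
  induction x using Fin.lastCases with
  | last => simp [Fin.castSucc_ne_last]
  | cast s => simp

theorem up_cs (t : Fin n) (m : Fin n → ℕ) (j : ℕ) :
    up t.castSucc (Fin.snoc m j : Fin (n + 1) → ℕ) = Fin.snoc (up t m) j := by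
  funext x
  induction x using Fin.lastCases with
  | last => simp [up]
  | cast s => simp [up, Pi.single_apply]

theorem up_last (m : Fin n → ℕ) (j : ℕ) :
    up (Fin.last n) (Fin.snoc m j : Fin (n + 1) → ℕ) = Fin.snoc m (j + 1) := by
  funext x
  induction x using Fin.lastCases with
  | last => simp [up]
  | cast s => simp [up]

theorem monoX_cs (D : Finset (Fin (n + 1) → ℕ)) (j : ℕ) (t : Fin n) (v : (Fin n → ℕ) →₀ K) :
    monoX K D t.castSucc
        (Finsupp.mapDomain (fun m : Fin n → ℕ => (Fin.snoc m j : Fin (n + 1) → ℕ)) v) =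
      Finsupp.mapDomain (fun m : Fin n → ℕ => (Fin.snoc m j : Fin (n + 1) → ℕ))
        (monoX K (slice D j) t v) := by
  induction v using Finsupp.induction_linear with
  | zero => simp
  | add a b ha hb => simp only [Finsupp.mapDomain_add, map_add, ha, hb]
  | single m c =>
    rw [Finsupp.mapDomain_single, monoX_single, monoX_single, up_cs]
    by_cases h : up t m ∈ slice D j
    · rw [if_pos h, if_pos (mem_slice.1 h), Finsupp.mapDomain_single]
    · rw [if_neg h, if_neg (fun h' => h (mem_slice.2 h')), Finsupp.mapDomain_zero]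

theorem monoX_last (D : Finset (Fin (n + 1) → ℕ)) (j : ℕ) (v : (Fin n → ℕ) →₀ K) :
    monoX K D (Fin.last n)
        (Finsupp.mapDomain (fun m : Fin n → ℕ => (Fin.snoc m j : Fin (n + 1) → ℕ)) v) =
      Finsupp.mapDomain (fun m : Fin n → ℕ => (Fin.snoc m (j + 1) : Fin (n + 1) → ℕ))
        (v.filter fun m => m ∈ slice D (j + 1)) := by
  induction v using Finsupp.induction_linear with
  | zero => simp [Finsupp.filter_zero]
  | add a b ha hb => simp only [Finsupp.mapDomain_add, map_add, ha, hb, Finsupp.filter_add]
  | single m c =>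
    rw [Finsupp.mapDomain_single, monoX_single, up_last]
    by_cases h : m ∈ slice D (j + 1)
    · rw [if_pos (mem_slice.1 h), Finsupp.filter_single_of_pos _ h, Finsupp.mapDomain_single]
    · rw [if_neg (fun h' => h (mem_slice.2 h')), Finsupp.filter_single_of_neg _ h,
        Finsupp.mapDomain_zero]

theorem mapDomain_zsmul {α β : Type*} (f : α → β) (z : ℤ) (v : α →₀ K) :
    Finsupp.mapDomain f (z • v) = z • Finsupp.mapDomain f v :=
  map_zsmul (Finsupp.lmapDomain K K f) z v

theorem main_part (D : Finset (Fin (n + 1) → ℕ)) (j : ℕ) (ε : Bool)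
    (g : Finset (Fin n) → ((Fin n → ℕ) →₀ K)) (U : Finset (Fin (n + 1))) :
    ∑ t ∈ (res U)ᶜ, ((-1 : ℤ) ^ (U.filter (· < t.castSucc)).card) •
        monoX K D t.castSucc (emb K n j ε g (insert t.castSucc U)) =
      emb K n j ε (kD (monoX K (slice D j)) g) U := by
  simp only [emb_apply, last_mem_insert_cs, res_insert_cs, card_lt_cs]
  split_ifs with h
  · rw [kD_apply, Finsupp.mapDomain_finsetSum]
    refine Finset.sum_congr rfl fun t _ => ?_
    rw [monoX_cs, mapDomain_zsmul]
  · simp

end Slice0

open Slice0

theorem emb_injective (j : ℕ) (ε : Bool) : Function.Injective (emb K n j ε) := by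
  intro g g' h
  funext T
  have e := congrFun h (if ε then insert (Fin.last n) (T.map Fin.castSuccEmb)
    else T.map Fin.castSuccEmb)
  rw [emb_apply, emb_apply] at e
  cases ε
  · simp only [Bool.false_eq_true, if_false, last_notMem_map, decide_false, if_true, res_map] at e
    exact Finsupp.mapDomain_injective (snoc_inj j) e
  · simp only [if_true, Finset.mem_insert_self, decide_true, res_insert_last, res_map] at e
    exact Finsupp.mapDomain_injective (snoc_inj j) e

theorem emb_single (j : ℕ) (ε : Bool) (T : Finset (Fin n)) (m : Fin n → ℕ) (c : K) :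
    emb K n j ε (Pi.single T (Finsupp.single m c)) =
      Pi.single (if ε then insert (Fin.last n) (T.map Fin.castSuccEmb) else T.map Fin.castSuccEmb)
        (Finsupp.single (Fin.snoc m j : Fin (n + 1) → ℕ) c) := by
  funext U
  rw [emb_apply]
  set W : Finset (Fin (n + 1)) :=
    if ε then insert (Fin.last n) (T.map Fin.castSuccEmb) else T.map Fin.castSuccEmb with hW
  have h1 : res W = T := by
    cases ε <;> simp [hW, res_map, res_insert_last]
  have h2 : decide (Fin.last n ∈ W) = ε := by
    cases ε <;> simp [hW, Fin.castSucc_ne_last]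
  by_cases hU : U = W
  · rw [hU, if_pos h2, h1, Pi.single_eq_same, Pi.single_eq_same, Finsupp.mapDomain_single]
  · rw [Pi.single_eq_of_ne hU]
    split_ifs with h
    · have : res U ≠ T := by
        intro e
        refine hU (ext_res (e.trans h1.symm) ?_)
        rw [← h2] at h
        exact decide_eq_decide.1 h
      rw [Pi.single_eq_of_ne this, Finsupp.mapDomain_zero]
    · rfl

theorem kD_emb_false (D : Finset (Fin (n + 1) → ℕ)) (j : ℕ)
    (g : Finset (Fin n) → ((Fin n → ℕ) →₀ K)) :
    kD (monoX K D) (emb K n j false g) = emb K n j false (kD (monoX K (slice D j)) g) := by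
  funext U
  rw [kD_apply, sum_compl_split, main_part]
  split_ifs with h
  · simp
  · simp [emb_apply]

/-- with the last variable among the wedge factors one gets, in addition, multiplication by it. -/
theorem kD_emb_true (D : Finset (Fin (n + 1) → ℕ)) (j : ℕ)
    (g : Finset (Fin n) → ((Fin n → ℕ) →₀ K)) :
    kD (monoX K D) (emb K n j true g) = emb K n j true (kD (monoX K (slice D j)) g) +
      emb K n (j + 1) false (fun T => ((-1 : ℤ) ^ T.card) •
        (g T).filter (fun m => m ∈ slice D (j + 1))) := by
  funext U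
  rw [kD_apply, sum_compl_split, main_part, Pi.add_apply]
  congr 1
  split_ifs with h
  · simp [emb_apply, h]
  · rw [emb_apply, emb_apply, if_pos (by simp), if_pos (by simp [h]), res_insert_last, monoX_last,
      card_lt_last, mapDomain_zsmul]

end Crest.Agent.R181.MM
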